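import Vale.Agent.P141.H530.V.FinV

/-!
# P141, exponents `1/2 < r ≤ 1`: powers of the logarithm, all tuples of finite exponents
-/

namespace Vale.Agent.P141.H530.V

open MeasureTheory Filter Topology
open scoped ENNReal NNReal SchwartzMap
open Vale.Agent.P141 (truncTHT IsHolderTuple)

noncomputable section

theorem scalesW {ε R : ℝ} (hε : 0 < ε) (hR : ε < R) : ∃ n : ℕ, 2 ^ n * ε ≤ R ∧
    R ≤ 2 * (2 ^ n * ε) ∧ 1 + ((n + 1 : ℕ) : ℝ) ≤ 2 * (1 + Real.log (R / ε)) := by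
  have hpos : 0 < R / ε := div_pos (hε.trans hR) hε
  have h1 : 1 ≤ R / ε := (one_le_div hε).2 hR.le
  obtain ⟨n, hn1, hn2⟩ := exists_nat_pow_near h1 (one_lt_two : (1 : ℝ) < 2)
  refine ⟨n, ?_, ?_, ?_⟩
  · rwa [le_div_iff₀ hε] at hn1
  · rw [div_lt_iff₀ hε, pow_succ] at hn2
    linarith
  · have h3 : (n : ℝ) * Real.log 2 ≤ Real.log (R / ε) := by
      rw [← Real.log_pow]
      exact Real.log_le_log (by positivity) hn1
    have h4 : 1 / 2 < Real.log 2 := by linarith [Real.log_two_gt_d9]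
    have h6 : (n : ℝ) ≤ 2 * Real.log (R / ε) := by
      have : (n : ℝ) * (1 / 2) ≤ n * Real.log 2 := mul_le_mul_of_nonneg_left h4.le (by positivity)
      linarith
    push_cast
    linarith

theorem top_real {p : ℝ≥0∞} (h : 1 < p) (t : p ≠ ∞) :
    1 < p.toReal ∧ (p⁻¹).toReal = 1 / p.toReal := by
  constructor
  · have := (ENNReal.toReal_lt_toReal (by simp) t).2 h
    simpa using this
  · rw [ENNReal.toReal_inv, one_div]

/-- **powers of the logarithm for `1 / 2 < r ≤ 1`** -/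
theorem log_power_le_one {p₁ p₂ p₃ r : ℝ≥0∞} (h : IsHolderTuple p₁ p₂ p₃ r)
    (t1 : p₁ ≠ ∞) (t2 : p₂ ≠ ∞) (t3 : p₃ ≠ ∞) (hr2 : 1 / 2 < r) (hr : r ≤ 1)
    {s : ℝ} (hs : 0 < s) (g1 : 2 * (p₁⁻¹).toReal - 1 < s) (g2 : 2 * (p₂⁻¹).toReal - 1 < s)
    (g3 : 2 * (p₃⁻¹).toReal - 1 < s) (g4 : 2 * (r⁻¹).toReal - 3 < s) :
    ∃ C : ℝ, ∀ f₁ f₂ f₃ : 𝓢(ℝ, ℂ), ∀ ε R : ℝ, 0 < ε → ε < R →
      eLpNorm (truncTHT f₁ f₂ f₃ ε R) r volume ≤
        ENNReal.ofReal (C * (1 + Real.log (R / ε)) ^ s) *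
          eLpNorm f₁ p₁ volume * eLpNorm f₂ p₂ volume * eLpNorm f₃ p₃ volume := by
  have n1 : p₁⁻¹ ≠ ∞ := ENNReal.inv_ne_top.2 (zero_lt_one.trans h.one_lt_p₁).ne'
  have n2 : p₂⁻¹ ≠ ∞ := ENNReal.inv_ne_top.2 (zero_lt_one.trans h.one_lt_p₂).ne'
  have n3 : p₃⁻¹ ≠ ∞ := ENNReal.inv_ne_top.2 (zero_lt_one.trans h.one_lt_p₃).ne'
  have hsum : (r⁻¹).toReal = (p₁⁻¹).toReal + (p₂⁻¹).toReal + (p₃⁻¹).toReal := by
    rw [h.holder, ENNReal.toReal_add (ENNReal.add_ne_top.2 ⟨n1, n2⟩) n3, ENNReal.toReal_add n1 n2]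
  obtain ⟨k1, e1⟩ := top_real h.one_lt_p₁ t1
  obtain ⟨k2, e2⟩ := top_real h.one_lt_p₂ t2
  obtain ⟨k3, e3⟩ := top_real h.one_lt_p₃ t3
  have hrt : r ≠ ∞ := h.r_lt_top.ne
  have hr0' : 0 < r.toReal := ENNReal.toReal_pos h.r_pos.ne' hrt
  have hr1' : r.toReal ≤ 1 := by
    have := ENNReal.toReal_mono ENNReal.one_ne_top hr
    simpa using this
  have hr2' : 1 / 2 < r.toReal := by
    have := (ENNReal.toReal_lt_toReal (by simp) hrt).2 hr2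
    simpa using this
  have er : (r⁻¹).toReal = 1 / r.toReal := by rw [ENNReal.toReal_inv, one_div]
  rw [e1, e2, e3] at hsum
  have hS : 1 / p₁.toReal + 1 / p₂.toReal + 1 / p₃.toReal < 2 := by
    rw [← hsum, er, div_lt_iff₀ hr0']
    linarith
  have hsr : r.toReal / p₁.toReal + r.toReal / p₂.toReal + r.toReal / p₃.toReal = 1 := by
    have : r.toReal / p₁.toReal + r.toReal / p₂.toReal + r.toReal / p₃.toReal =
        r.toReal * (1 / p₁.toReal + 1 / p₂.toReal + 1 / p₃.toReal) := by ring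
    rw [this, ← hsum, er, mul_one_div_cancel hr0'.ne']
  rw [e1] at g1
  rw [e2] at g2
  rw [e3] at g3
  rw [hsum] at g4
  obtain ⟨q, β, p, b0, b1, bs, hq, hqp, j1, j2, j3, C₀, hC₀, HR⟩ :=
    exists_exps k1 k2 k3 hS hs g1 g2 g3 g4
  rw [← j1, ← j2, ← j3] at hsr
  obtain ⟨C, hC, HM⟩ := eL_mainV b0 b1 bs hq hqp hr0' hr1' hsr
  refine ⟨C * (1 + C₀ * 2 ^ s), ?_⟩
  intro f₁ f₂ f₃ ε R hε hR
  obtain ⟨n, hn1, hn2, hn3⟩ := scalesW hε hR
  have hn0 : (0 : ℝ) ≤ ((n + 1 : ℕ) : ℝ) := Nat.cast_nonneg _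
  set P : ℝ := C₀ * (1 + ((n + 1 : ℕ) : ℝ)) ^ s with hP
  have hP0 : 0 ≤ P := by positivity
  have h6 := HM n P hP0 (HR (n + 1) (by omega)) f₁ f₂ f₃ f₁.continuous f₂.continuous f₃.continuous
    ε R hε hR hn1 hn2
  rw [j1, j2, j3, ENNReal.ofReal_toReal hrt, ENNReal.ofReal_toReal t1, ENNReal.ofReal_toReal t2,
    ENNReal.ofReal_toReal t3] at h6
  refine h6.trans ?_
  refine mul_le_mul_left (mul_le_mul_left (mul_le_mul_left (ENNReal.ofReal_le_ofReal ?_) _) _) _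
  have hL : 1 ≤ 1 + Real.log (R / ε) := by
    have : 0 ≤ Real.log (R / ε) := Real.log_nonneg ((one_le_div hε).2 hR.le)
    linarith
  have h7 : P ≤ C₀ * 2 ^ s * (1 + Real.log (R / ε)) ^ s := by
    rw [hP, mul_assoc, ← Real.mul_rpow (by norm_num) (by linarith)]
    exact mul_le_mul_of_nonneg_left (Real.rpow_le_rpow (by linarith) hn3 hs.le) hC₀
  have h8 : 1 ≤ (1 + Real.log (R / ε)) ^ s := Real.one_le_rpow hL hs.le
  rw [mul_assoc]
  refine mul_le_mul_of_nonneg_left ?_ hC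
  have h9 : 0 ≤ C₀ * 2 ^ s := by positivity
  nlinarith

end

end Vale.Agent.P141.H530.V
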