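import Vale.Agent.P141.H530.V.CplxW
import Vale.Agent.P141.H530.V.FinW

/-!
# P141, exponents `1/2 < r ≤ 1`: powers of the logarithm, all tuples, `p_i ≤ ∞`
-/

namespace Vale.Agent.P141.H530.V

open MeasureTheory Filter Topology
open scoped ENNReal NNReal SchwartzMap
open Vale.Agent.P141 (truncTHT IsHolderTuple)

noncomputable section

theorem inv_real {p : ℝ≥0∞} (h : 1 < p) : 0 ≤ (p⁻¹).toReal ∧ (p⁻¹).toReal < 1 := by
  refine ⟨ENNReal.toReal_nonneg, ?_⟩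
  have h1 : p⁻¹ < (1 : ℝ≥0∞)⁻¹ := ENNReal.inv_lt_inv.2 h
  have h2 := (ENNReal.toReal_lt_toReal (ne_top_of_lt h1) (by simp)).2 h1
  simpa using h2

theorem qoneW {p : ℝ≥0∞} {D b : ℝ} (hp : 1 < p) (hD : (p⁻¹).toReal < D) (hb : (p⁻¹).toReal < b) :
    ∃ q, 1 < q * D ∧ 1 / b < q ∧ ENNReal.ofReal q < p := by
  obtain ⟨h0, h1⟩ := inv_real hp
  by_cases h : p = ∞
  · have hD0 : 0 < D := h0.trans_lt hD
    have hb0 : 0 < b := h0.trans_lt hb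
    refine ⟨1 / D + 1 / b + 1, ?_, ?_, ?_⟩
    · have e : (1 / D + 1 / b + 1) * D = 1 + (1 / b + 1) * D := by
        field_simp
        ring
      rw [e]
      have : 0 < (1 / b + 1) * D := by positivity
      linarith
    · have : 0 < 1 / D := by positivity
      linarith
    · rw [h]; exact ENNReal.ofReal_lt_top
  · obtain ⟨k1, e1⟩ := top_real hp h
    have k0 : 0 < p.toReal := by linarith
    rw [e1] at hD hb
    obtain ⟨q, x, y, z⟩ := qone k0 rfl hD hb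
    exact ⟨q, x, y, (ENNReal.ofReal_lt_iff_lt_toReal (by
      have h2 : 0 < b := by
        have : 0 < 1 / p.toReal := by positivity
        linarith
      have h3 : 0 < 1 / b := by positivity
      linarith) h).2 z⟩

/-- the root estimate at three exponents above `p`, power `s` -/
theorem exists_expsW {P1 P2 P3 : ℝ≥0∞} {s : ℝ} (h1 : 1 < P1) (h2 : 1 < P2) (h3 : 1 < P3)
    (hS : (P1⁻¹).toReal + (P2⁻¹).toReal + (P3⁻¹).toReal < 2) (hs : 0 < s)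
    (g1 : 2 * (P1⁻¹).toReal - 1 < s) (g2 : 2 * (P2⁻¹).toReal - 1 < s)
    (g3 : 2 * (P3⁻¹).toReal - 1 < s)
    (g4 : 2 * ((P1⁻¹).toReal + (P2⁻¹).toReal + (P3⁻¹).toReal) - 3 < s) :
    ∃ (q β : Fin 4 → ℝ) (p : Fin 4 → ℝ≥0∞), (∀ j, 0 < β j) ∧ (∀ j, β j ≤ 1) ∧
      β 1 + β 2 + β 3 = 2 ∧ (∀ j, 1 / β j ≤ q j) ∧ (∀ j, ENNReal.ofReal (q j) < p j) ∧
      p 1 = P1 ∧ p 2 = P2 ∧ p 3 = P3 ∧
      ∃ C : ℝ, 0 ≤ C ∧ ∀ n : ℕ, 1 ≤ n → RootV q n (C * (1 + (n : ℝ)) ^ s) := by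
  obtain ⟨a1p, a1l⟩ := inv_real h1
  obtain ⟨a2p, a2l⟩ := inv_real h2
  obtain ⟨a3p, a3l⟩ := inv_real h3
  obtain ⟨θ, d1, d2, d3, t0, tl, ts, ⟨f1, e1, f1'⟩, ⟨f2, e2, f2'⟩, ⟨f3, e3, f3'⟩, es⟩ :=
    param a1l a2l a3l hS hs g1 g2 g3 g4
  obtain ⟨b1, b2, b3, v1, v1', v2, v2', v3, v3', vs⟩ := three a1l a2l a3l hS
  obtain ⟨q', q2, w1, w2, w3⟩ := qexp t0 tl (D1 := (1 - θ) / 2 + θ * d1 - (P1⁻¹).toReal)
    (D2 := (1 - θ) / 2 + θ * d2 - (P2⁻¹).toReal) (D3 := (1 - θ) / 2 + θ * d3 - (P3⁻¹).toReal)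
    (by linarith) (by linarith) (by linarith)
  obtain ⟨r1, x1, y1, z1⟩ := qoneW (D := (1 - θ) / q' + θ * d1) h1 (by linarith) v1
  obtain ⟨r2, x2, y2, z2⟩ := qoneW (D := (1 - θ) / q' + θ * d2) h2 (by linarith) v2
  obtain ⟨r3, x3, y3, z3⟩ := qoneW (D := (1 - θ) / q' + θ * d3) h3 (by linarith) v3
  obtain ⟨C, hC, HV⟩ := rootV_of_param t0 tl ts (q := ![2, r1, r2, r3]) (β := ![1, d1, d2, d3]) q2
    (fun j => by
      fin_cases j
      · exact one_pos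
      · exact f1
      · exact f2
      · exact f3)
    (fun j => by
      fin_cases j
      · exact le_rfl
      · exact e1
      · exact e2
      · exact e3) es
    (fun j hj => by
      fin_cases j
      · exact absurd rfl hj
      · exact x1
      · exact x2
      · exact x3)
  refine ⟨![2, r1, r2, r3], ![1, b1, b2, b3], ![3, P1, P2, P3], ?_, ?_, vs, ?_, ?_, rfl, rfl, rfl,
    C, hC, HV⟩
  · intro j
    fin_cases j
    · exact one_pos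
    · exact a1p.trans_lt v1
    · exact a2p.trans_lt v2
    · exact a3p.trans_lt v3
  · intro j
    fin_cases j
    · exact le_rfl
    · exact v1'
    · exact v2'
    · exact v3'
  · intro j
    fin_cases j
    · show (1 : ℝ) / 1 ≤ 2; norm_num
    · exact y1.le
    · exact y2.le
    · exact y3.le
  · intro j
    fin_cases j
    · show ENNReal.ofReal (2 : ℝ) < 3
      norm_num
    · exact z1
    · exact z2
    · exact z3

/-- **powers of the logarithm for `1 / 2 < r ≤ 1`, all Hölder tuples** -/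
theorem log_power_le_oneW {p₁ p₂ p₃ r : ℝ≥0∞} (h : IsHolderTuple p₁ p₂ p₃ r)
    (hr2 : 1 / 2 < r) (hr : r ≤ 1)
    {s : ℝ} (hs : 0 < s) (g1 : 2 * (p₁⁻¹).toReal - 1 < s) (g2 : 2 * (p₂⁻¹).toReal - 1 < s)
    (g3 : 2 * (p₃⁻¹).toReal - 1 < s) (g4 : 2 * (r⁻¹).toReal - 3 < s) :
    ∃ C : ℝ, ∀ f₁ f₂ f₃ : 𝓢(ℝ, ℂ), ∀ ε R : ℝ, 0 < ε → ε < R →
      eLpNorm (truncTHT f₁ f₂ f₃ ε R) r volume ≤
        ENNReal.ofReal (C * (1 + Real.log (R / ε)) ^ s) *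
          eLpNorm f₁ p₁ volume * eLpNorm f₂ p₂ volume * eLpNorm f₃ p₃ volume := by
  have n1 : p₁⁻¹ ≠ ∞ := ENNReal.inv_ne_top.2 (zero_lt_one.trans h.one_lt_p₁).ne'
  have n2 : p₂⁻¹ ≠ ∞ := ENNReal.inv_ne_top.2 (zero_lt_one.trans h.one_lt_p₂).ne'
  have n3 : p₃⁻¹ ≠ ∞ := ENNReal.inv_ne_top.2 (zero_lt_one.trans h.one_lt_p₃).ne'
  have hsum : (r⁻¹).toReal = (p₁⁻¹).toReal + (p₂⁻¹).toReal + (p₃⁻¹).toReal := by
    rw [h.holder, ENNReal.toReal_add (ENNReal.add_ne_top.2 ⟨n1, n2⟩) n3, ENNReal.toReal_add n1 n2]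
  have hrt : r ≠ ∞ := h.r_lt_top.ne
  have hr0' : 0 < r.toReal := ENNReal.toReal_pos h.r_pos.ne' hrt
  have hr1' : r.toReal ≤ 1 := by
    have := ENNReal.toReal_mono ENNReal.one_ne_top hr
    simpa using this
  have hr2' : 1 / 2 < r.toReal := by
    have := (ENNReal.toReal_lt_toReal (by simp) hrt).2 hr2
    simpa using this
  have er : (r⁻¹).toReal = 1 / r.toReal := by rw [ENNReal.toReal_inv, one_div]
  have hS : (p₁⁻¹).toReal + (p₂⁻¹).toReal + (p₃⁻¹).toReal < 2 := by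
    rw [← hsum, er, div_lt_iff₀ hr0']
    linarith
  have hsr : r.toReal * (p₁⁻¹).toReal + r.toReal * (p₂⁻¹).toReal + r.toReal * (p₃⁻¹).toReal = 1 := by
    rw [← mul_add, ← mul_add, ← hsum, er, mul_one_div_cancel hr0'.ne']
  rw [hsum] at g4
  obtain ⟨q, β, p, b0, b1, bs, hq, hqp, j1, j2, j3, C₀, hC₀, HR⟩ :=
    exists_expsW h.one_lt_p₁ h.one_lt_p₂ h.one_lt_p₃ hS hs g1 g2 g3 g4
  rw [← j1, ← j2, ← j3] at hsr
  obtain ⟨C, hC, HM⟩ := eL_mainW b0 b1 bs hq hqp hr0' hr1' hsr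
  refine ⟨C * (1 + C₀ * 2 ^ s), ?_⟩
  intro f₁ f₂ f₃ ε R hε hR
  obtain ⟨n, hn1, hn2, hn3⟩ := scalesW hε hR
  have hn0 : (0 : ℝ) ≤ ((n + 1 : ℕ) : ℝ) := Nat.cast_nonneg _
  set P : ℝ := C₀ * (1 + ((n + 1 : ℕ) : ℝ)) ^ s with hP
  have hP0 : 0 ≤ P := by positivity
  have h6 := HM n P hP0 (HR (n + 1) (by omega)) f₁ f₂ f₃ f₁.continuous f₂.continuous f₃.continuous
    ε R hε hR hn1 hn2
  rw [j1, j2, j3, ENNReal.ofReal_toReal hrt] at h6
  refine h6.trans ?_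
  refine mul_le_mul_left (mul_le_mul_left (mul_le_mul_left (ENNReal.ofReal_le_ofReal ?_) _) _) _
  have hL : 1 ≤ 1 + Real.log (R / ε) := by
    have : 0 ≤ Real.log (R / ε) := Real.log_nonneg ((one_le_div hε).2 hR.le)
    linarith
  have h7 : P ≤ C₀ * 2 ^ s * (1 + Real.log (R / ε)) ^ s := by
    rw [hP, mul_assoc, ← Real.mul_rpow (by norm_num) (by linarith)]
    exact mul_le_mul_of_nonneg_left (Real.rpow_le_rpow (by linarith) hn3 hs.le) hC₀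
  have h8 : 1 ≤ (1 + Real.log (R / ε)) ^ s := Real.one_le_rpow hL hs.le
  rw [mul_assoc]
  refine mul_le_mul_of_nonneg_left ?_ hC
  have h9 : 0 ≤ C₀ * 2 ^ s := by positivity
  nlinarith

end

end Vale.Agent.P141.H530.V
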