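import Vale.Agent.P141.H530.V.Clo

/-!
# P141, `r > 1`, closed faces: from forms at mixed exponents to the truncations
-/

namespace Vale.Agent.P141.H530.V

open MeasureTheory Set Filter Topology
open scoped ENNReal ComplexConjugate SchwartzMap
open Vale.Agent.P141 Vale.Agent.P141.H97 Vale.Agent.P141.H115 Vale.Agent.P141.PL.H620

/-- the exponents of a tuple -/
noncomputable def dt (p₁ p₂ p₃ r : ℝ≥0∞) : Fin 4 → ℝ :=
  ![1 - (r⁻¹).toReal, (p₁⁻¹).toReal, (p₂⁻¹).toReal, (p₃⁻¹).toReal]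

theorem trunc_lim {p₁ p₂ p₃ r : ℝ≥0∞} (h : IsHolderTuple p₁ p₂ p₃ r) (hr : 1 < r)
    {σ C' : ℝ} (hC' : 0 ≤ C')
    (hform : ∀ η : ℝ, 0 < η → η < 1 → ∀ ε R : ℝ, 0 < ε → ε < R →
      ∀ f : Fin 4 → ℝ → ℂ, (∀ i, Simp (f i)) →
      ‖QF ε R sl f‖ ≤ C' * (1 + Real.log (R / ε)) ^ σ *
        ∏ i, (NN (f i) (1 / mx η (dt p₁ p₂ p₃ r) i)) ^ (mx η (dt p₁ p₂ p₃ r) i)) :
    ∀ f₁ f₂ f₃ : 𝓢(ℝ, ℂ), ∀ ε R : ℝ, 0 < ε → ε < R →
      eLpNorm (truncTHT f₁ f₂ f₃ ε R) r volume ≤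
        ENNReal.ofReal (C' * (1 + Real.log (R / ε)) ^ σ) *
          eLpNorm f₁ p₁ volume * eLpNorm f₂ p₂ volume * eLpNorm f₃ p₃ volume := by
  have z : ∀ {p : ℝ≥0∞}, 1 < p → p ≠ 0 := fun hp => (zero_lt_one.trans hp).ne'
  have i₁ : p₁⁻¹ ≠ ∞ := ENNReal.inv_ne_top.2 (z h.one_lt_p₁)
  have i₂ : p₂⁻¹ ≠ ∞ := ENNReal.inv_ne_top.2 (z h.one_lt_p₂)
  have i₃ : p₃⁻¹ ≠ ∞ := ENNReal.inv_ne_top.2 (z h.one_lt_p₃)
  set a₁ : ℝ := (p₁⁻¹).toReal with ha₁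
  set a₂ : ℝ := (p₂⁻¹).toReal with ha₂
  set a₃ : ℝ := (p₃⁻¹).toReal with ha₃
  set u : ℝ := (r⁻¹).toReal with hu
  have n₁ : 0 ≤ a₁ := ENNReal.toReal_nonneg
  have n₂ : 0 ≤ a₂ := ENNReal.toReal_nonneg
  have n₃ : 0 ≤ a₃ := ENNReal.toReal_nonneg
  have hu1 : u < 1 := inv_lt_one' hr
  have hu0 : 0 < u := inv_pos' (z hr) h.r_lt_top.ne
  have hsum : u = a₁ + a₂ + a₃ := by
    rw [hu, h.holder, ENNReal.toReal_add (ENNReal.add_ne_top.2 ⟨i₁, i₂⟩) i₃,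
      ENNReal.toReal_add i₁ i₂]
  set d : Fin 4 → ℝ := dt p₁ p₂ p₃ r with hd
  have hd0 : ∀ i, 0 ≤ d i := by
    intro i
    fin_cases i
    · exact sub_nonneg.2 hu1.le
    · exact n₁
    · exact n₂
    · exact n₃
  intro f₁ f₂ f₃ ε R hε hR
  have hLg : 0 ≤ Real.log (R / ε) := Real.log_nonneg ((one_le_div hε).2 hR.le)
  set ηn : ℕ → ℝ := fun n => 1 / ((n : ℝ) + 2) with hηn
  have η0 : ∀ n, 0 < ηn n := fun n => by simp only [hηn]; positivity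
  have η1 : ∀ n, ηn n < 1 := fun n => by
    simp only [hηn]
    rw [div_lt_one (by positivity)]
    linarith [(Nat.cast_nonneg n : (0 : ℝ) ≤ n)]
  have ηt : Tendsto ηn atTop (𝓝 0) := by
    have h1 : Tendsto (fun n : ℕ => ((n : ℝ) + 2)) atTop atTop :=
      tendsto_atTop_add_const_right _ _ tendsto_natCast_atTop_atTop
    refine h1.inv_tendsto_atTop.congr fun n => ?_
    simp only [hηn, Pi.inv_apply, one_div]
  set q : ℕ → ℝ≥0∞ → ℝ≥0∞ := fun n p =>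
    (ENNReal.ofReal (1 - ηn n) * p⁻¹ + ENNReal.ofReal (ηn n) * 4⁻¹)⁻¹ with hq
  have hqi : ∀ n p, (q n p)⁻¹ = ENNReal.ofReal (1 - ηn n) * p⁻¹ + ENNReal.ofReal (ηn n) * 4⁻¹ :=
    fun n p => by simp only [hq, inv_inv]
  have hqt : ∀ n (p : ℝ≥0∞), p⁻¹ ≠ ∞ → (q n p)⁻¹ ≠ ∞ ∧
      ((q n p)⁻¹).toReal = (1 - ηn n) * (p⁻¹).toReal + ηn n / 4 := by
    intro n p hp
    have t1 : ENNReal.ofReal (1 - ηn n) * p⁻¹ ≠ ∞ := ENNReal.mul_ne_top ENNReal.ofReal_ne_top hp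
    have t2 : ENNReal.ofReal (ηn n) * 4⁻¹ ≠ ∞ := ENNReal.mul_ne_top ENNReal.ofReal_ne_top (by simp)
    rw [hqi]
    refine ⟨ENNReal.add_ne_top.2 ⟨t1, t2⟩, ?_⟩
    rw [ENNReal.toReal_add t1 t2, ENNReal.toReal_mul, ENNReal.toReal_mul,
      ENNReal.toReal_ofReal (by linarith [η1 n]), ENNReal.toReal_ofReal (η0 n).le,
      ENNReal.toReal_inv]
    norm_num
    ring
  set s : ℕ → ℝ := fun n => (1 - ηn n) * u + 3 * ηn n / 4 with hs
  have s0 : ∀ n, 0 < s n := fun n => by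
    have h1 := η0 n
    have h2 : 0 < (1 - ηn n) * u := mul_pos (by linarith [η1 n]) hu0
    simp only [hs]
    linarith
  have st : Tendsto s atTop (𝓝 u) := by
    have h1 : Tendsto (fun n => (1 - ηn n) * u + 3 * ηn n / 4) atTop
        (𝓝 ((1 - 0) * u + 3 * 0 / 4)) :=
      ((ηt.const_sub 1).mul_const u).add ((ηt.const_mul 3).div_const 4)
    simpa using h1
  -- the exponents
  have hr' : r = ENNReal.ofReal u⁻¹ := by
    rw [ENNReal.ofReal_inv_of_pos hu0, hu, ENNReal.ofReal_toReal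
      (ENNReal.inv_ne_top.2 h.r_pos.ne'), inv_inv]
  have e0 : truncTHT f₁ f₂ f₃ ε R = TT ε R 1 2 3 f₁ f₂ f₃ := by
    funext x
    exact (TT_eq ε R f₁ f₂ f₃ x).symm
  have hm : AEStronglyMeasurable (TT ε R 1 2 3 f₁ f₂ f₃) volume :=
    (TT_meas (nice_schwartz f₁) (nice_schwartz f₂) (nice_schwartz f₃)).aestronglyMeasurable
  set A : 𝓢(ℝ, ℂ) → ℝ≥0∞ → ℝ := fun f p => (eLpNorm f p volume).toReal with hA
  set Bf : 𝓢(ℝ, ℂ) → ℝ := fun f => max (eLpNorm f 4 volume).toReal 1 with hBf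
  set K : ℝ := C' * (1 + Real.log (R / ε)) ^ σ with hK
  have hK0 : 0 ≤ K := by positivity
  set X : ℕ → 𝓢(ℝ, ℂ) → ℝ≥0∞ → ℝ := fun n f p => A f p ^ (1 - ηn n) * Bf f ^ ηn n with hX
  have hX0 : ∀ n f p, 0 ≤ X n f p := fun n f p =>
    mul_nonneg (Real.rpow_nonneg ENNReal.toReal_nonneg _)
      (Real.rpow_nonneg (le_max_of_le_right zero_le_one) _)
  have hXt : ∀ f p, Tendsto (fun n => X n f p) atTop (𝓝 (A f p)) := fun f p =>
    tendsto_mix (le_max_right _ _) ηt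
  have hfin : eLpNorm (TT ε R 1 2 3 f₁ f₂ f₃) (ENNReal.ofReal u⁻¹) volume ≤
      ENNReal.ofReal (K * A f₁ p₁ * A f₂ p₂ * A f₃ p₃) := by
    refine eLpNorm_le_of_tendsto hm (ρ := u⁻¹) (inv_pos.2 hu0)
      (ρn := fun n => (s n)⁻¹) (fun n => inv_pos.2 (s0 n)) (st.inv₀ hu0.ne')
      (Yn := fun n => K * X n f₁ p₁ * X n f₂ p₂ * X n f₃ p₃) (fun n => ?_) ?_ fun n => ?_
    · exact mul_nonneg (mul_nonneg (mul_nonneg hK0 (hX0 _ _ _)) (hX0 _ _ _)) (hX0 _ _ _)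
    · exact (((hXt f₁ p₁).const_mul K).mul (hXt f₂ p₂)).mul (hXt f₃ p₃)
    · obtain ⟨t₁, v₁⟩ := hqt n p₁ i₁
      obtain ⟨t₂, v₂⟩ := hqt n p₂ i₂
      obtain ⟨t₃, v₃⟩ := hqt n p₃ i₃
      have hrn : (ENNReal.ofReal (s n)⁻¹)⁻¹ = (q n p₁)⁻¹ + (q n p₂)⁻¹ + (q n p₃)⁻¹ := by
        rw [ENNReal.ofReal_inv_of_pos (s0 n), inv_inv, ← ENNReal.ofReal_toReal t₁,
          ← ENNReal.ofReal_toReal t₂, ← ENNReal.ofReal_toReal t₃,
          ← ENNReal.ofReal_add ENNReal.toReal_nonneg ENNReal.toReal_nonneg,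
          ← ENNReal.ofReal_add (add_nonneg ENNReal.toReal_nonneg ENNReal.toReal_nonneg)
            ENNReal.toReal_nonneg, v₁, v₂, v₃]
        congr 1
        simp only [hs]
        rw [hsum]
        ring
      have hrt : ((ENNReal.ofReal (s n)⁻¹)⁻¹).toReal = s n := by
        rw [ENNReal.ofReal_inv_of_pos (s0 n), inv_inv, ENNReal.toReal_ofReal (s0 n).le]
      have k0 := η0 n
      have k1 := η1 n
      have hs1 : 1 - s n = (1 - ηn n) * (1 - u) + ηn n / 4 := by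
        simp only [hs]
        ring
      have hdd : dd (q n p₁) (q n p₂) (q n p₃) (ENNReal.ofReal (s n)⁻¹) = mx (ηn n) d := by
        funext i
        fin_cases i
        · show 1 - ((ENNReal.ofReal (s n)⁻¹)⁻¹).toReal = (1 - ηn n) * (1 - u) + ηn n / 4
          rw [hrt, hs1]
        · show ((q n p₁)⁻¹).toReal = (1 - ηn n) * a₁ + ηn n / 4
          rw [v₁]
        · show ((q n p₂)⁻¹).toReal = (1 - ηn n) * a₂ + ηn n / 4
          rw [v₂]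
        · show ((q n p₃)⁻¹).toReal = (1 - ηn n) * a₃ + ηn n / 4
          rw [v₃]
      have hpos : ∀ i, 0 < dd (q n p₁) (q n p₂) (q n p₃) (ENNReal.ofReal (s n)⁻¹) i := by
        intro i
        rw [hdd]
        exact mix_pos k0 k1 (hd0 i)
      have h1 := op_of_form hε (A := K) hK0 hpos hrn
        (fun f hf => by rw [hdd]; exact hform (ηn n) k0 k1 ε R hε hR f hf)
        (nice_schwartz f₁) (nice_schwartz f₂) (nice_schwartz f₃)
      refine h1.trans ?_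
      rw [ENNReal.ofReal_mul (mul_nonneg (mul_nonneg hK0 (hX0 _ _ _)) (hX0 _ _ _)),
        ENNReal.ofReal_mul (mul_nonneg hK0 (hX0 _ _ _)), ENNReal.ofReal_mul hK0]
      refine mul_le_mul' (mul_le_mul' (mul_le_mul' le_rfl ?_) ?_) ?_
      · exact schwartz_mix f₁ k0 k1 (hqi n p₁)
      · exact schwartz_mix f₂ k0 k1 (hqi n p₂)
      · exact schwartz_mix f₃ k0 k1 (hqi n p₃)
  rw [hr', e0]
  refine hfin.trans (le_of_eq ?_)
  have hAe : ∀ (f : 𝓢(ℝ, ℂ)) (p : ℝ≥0∞), ENNReal.ofReal (A f p) = eLpNorm f p volume :=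
    fun f p => ENNReal.ofReal_toReal (f.memLp p volume).eLpNorm_ne_top
  rw [ENNReal.ofReal_mul (mul_nonneg (mul_nonneg hK0 ENNReal.toReal_nonneg)
    ENNReal.toReal_nonneg), ENNReal.ofReal_mul (mul_nonneg hK0 ENNReal.toReal_nonneg),
    ENNReal.ofReal_mul hK0, hAe, hAe, hAe]

end Vale.Agent.P141.H530.V
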