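import Vale.Agent.P141.H530.V.Edge
import Vale.Agent.P141.H530.V.Lim4
import Vale.Agent.P141.H530.V.FinY

/-!
# P141: powers of the logarithm at every Hölder tuple with `r > 1 / 2`
-/

namespace Vale.Agent.P141.H530.V

open MeasureTheory Set Filter Topology
open scoped ENNReal ComplexConjugate SchwartzMap
open Vale.Agent.P141 Vale.Agent.P141.H97 Vale.Agent.P141.H115 Vale.Agent.P141.PL.H620

/-- **the form near a point of the edge `0, i`** -/
theorem form_edge {i : Fin 4} (hi : i ≠ 0) {d : Fin 4 → ℝ} (hz : ∀ j, j ≠ 0 → j ≠ i → d j = 0)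
    (h0 : 0 < d 0) (hi0 : 0 < d i) (hs : d 0 + d i = 1) {σ : ℝ} (hσ : 0 < σ)
    (g0 : 2 * d 0 - 1 < σ) (gi : 2 * d i - 1 < σ) :
    ∃ C : ℝ, 0 ≤ C ∧ ∀ η : ℝ, 0 < η → η < 1 → ∀ ε R : ℝ, 0 < ε → ε < R →
      ∀ f : Fin 4 → ℝ → ℂ, (∀ i, Simp (f i)) →
      ‖QF ε R sl f‖ ≤ C * (1 + Real.log (R / ε)) ^ σ *
        ∏ i, (NN (f i) (1 / mx η d i)) ^ (mx η d i) := by
  obtain ⟨t, ht1, ht2⟩ := exists_between (show max 0 (max (2 * d 0 - 1) (2 * d i - 1)) < min σ 1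
    from max_lt (lt_min hσ one_pos) (max_lt (lt_min g0 (by linarith)) (lt_min gi (by linarith))))
  have t0 : 0 < t := (le_max_left _ _).trans_lt ht1
  have ta : 2 * d 0 - 1 < t := ((le_max_left _ _).trans (le_max_right _ _)).trans_lt ht1
  have tb : 2 * d i - 1 < t := ((le_max_right _ _).trans (le_max_right _ _)).trans_lt ht1
  have ts : t < σ := ht2.trans_le (min_le_left _ _)
  have t1 : t < 1 := ht2.trans_le (min_le_right _ _)
  set c : Fin 4 → ℝ := fun j => (d j - (1 - t) * em i j) / t with hc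
  have e0 : em i 0 = 1 / 2 := by simp [em]
  have ei : em i i = 1 / 2 := by simp [em]
  have ez : ∀ j, j ≠ 0 → j ≠ i → em i j = 0 := fun j h1 h2 => by simp [em, h1, h2]
  have hc0 : ∀ j, 0 ≤ c j := by
    intro j
    refine div_nonneg ?_ t0.le
    by_cases h1 : j = 0
    · rw [h1, e0]; linarith
    · by_cases h2 : j = i
      · rw [h2, ei]; linarith
      · rw [ez j h1 h2, hz j h1 h2]; linarith
  have hds : ∑ j, d j = 1 := by
    rw [← Finset.add_sum_erase _ _ (Finset.mem_univ (0 : Fin 4)),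
      ← Finset.add_sum_erase _ _ (Finset.mem_erase.2 ⟨hi, Finset.mem_univ i⟩), ← add_assoc, hs,
      Finset.sum_eq_zero, add_zero]
    intro j hj
    rw [Finset.mem_erase, Finset.mem_erase] at hj
    exact hz j hj.2.1 hj.1
  have hcs : ∑ j, c j = 1 := by
    simp only [hc]
    rw [← Finset.sum_div, Finset.sum_sub_distrib, ← Finset.mul_sum, hds, em_sum hi,
      div_eq_one_iff_eq t0.ne']
    ring
  have hdc : ∀ j, d j = (1 - t) * em i j + t * c j := by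
    intro j
    simp only [hc]
    field_simp
    ring
  obtain ⟨C', hC'0, hC'⟩ := form_mid hi (show 0 < σ - t by linarith)
  refine ⟨C' ^ (1 - t) * 2 ^ t, by positivity, fun η hη0 hη1 ε R hε hR f hf => ?_⟩
  have hL : 0 ≤ Real.log (R / ε) := Real.log_nonneg ((one_le_div hε).2 hR.le)
  set L := Real.log (R / ε) with hLd
  have ma0 : ∀ j, 0 < mx η (em i) j := fun j => mix_pos hη0 hη1 (em_nonneg i j)
  have mc0 : ∀ j, 0 < mx η c j := fun j => mix_pos hη0 hη1 (hc0 j)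
  have h := interp2 (b := sl) (A := C' * (1 + L) ^ (σ - t)) (B := 2 * L) (θ := t) hε (by positivity)
    (by positivity) ma0 mc0 t0.le t1.le
    (fun g hg => hC' η hη0 hη1 ε R hε hR g fun i => CB.of_simp (hg i))
    (fun g hg => trivial_bound hε hR sl mc0 (mx_sum hcs η) g hg) (d := mx η d)
    (fun j => by unfold mx; rw [hdc j]; ring) f hf
  refine h.trans ?_
  have hP : 0 ≤ ∏ i, (NN (f i) (1 / mx η d i)) ^ (mx η d i) :=
    Finset.prod_nonneg fun i _ => Real.rpow_nonneg (NN_nonneg _ _) _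
  refine mul_le_mul_of_nonneg_right ?_ hP
  have h1 : (C' * (1 + L) ^ (σ - t)) ^ (1 - t) ≤ C' ^ (1 - t) * (1 + L) ^ (σ - t) := by
    rw [Real.mul_rpow hC'0 (by positivity)]
    refine mul_le_mul_of_nonneg_left ?_ (by positivity)
    rw [← Real.rpow_mul (by linarith)]
    refine Real.rpow_le_rpow_of_exponent_le (by linarith) ?_
    nlinarith
  have h2 : (2 * L) ^ t ≤ 2 ^ t * (1 + L) ^ t := by
    rw [← Real.mul_rpow (by norm_num) (by linarith)]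
    exact Real.rpow_le_rpow (by positivity) (by linarith) t0.le
  calc (C' * (1 + L) ^ (σ - t)) ^ (1 - t) * (2 * L) ^ t
      ≤ (C' ^ (1 - t) * (1 + L) ^ (σ - t)) * (2 ^ t * (1 + L) ^ t) := by gcongr
    _ = C' ^ (1 - t) * 2 ^ t * ((1 + L) ^ (σ - t) * (1 + L) ^ t) := by ring
    _ = C' ^ (1 - t) * 2 ^ t * (1 + L) ^ σ := by
        rw [← Real.rpow_add (by linarith)]
        congr 2
        ring

/-- **every Hölder tuple with `r > 1`** -/
theorem log_power_gt_one {p₁ p₂ p₃ r : ℝ≥0∞} (h : IsHolderTuple p₁ p₂ p₃ r) (hr : 1 < r)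
    {σ : ℝ} (hσ : 0 < σ) (g1 : 2 * (p₁⁻¹).toReal - 1 < σ) (g2 : 2 * (p₂⁻¹).toReal - 1 < σ)
    (g3 : 2 * (p₃⁻¹).toReal - 1 < σ) (g4 : 1 - 2 * (r⁻¹).toReal < σ) :
    ∃ C : ℝ, ∀ f₁ f₂ f₃ : 𝓢(ℝ, ℂ), ∀ ε R : ℝ, 0 < ε → ε < R →
      eLpNorm (truncTHT f₁ f₂ f₃ ε R) r volume ≤
        ENNReal.ofReal (C * (1 + Real.log (R / ε)) ^ σ) *
          eLpNorm f₁ p₁ volume * eLpNorm f₂ p₂ volume * eLpNorm f₃ p₃ volume := by
  have z : ∀ {p : ℝ≥0∞}, 1 < p → p ≠ 0 := fun hp => (zero_lt_one.trans hp).ne'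
  have i₁ : p₁⁻¹ ≠ ∞ := ENNReal.inv_ne_top.2 (z h.one_lt_p₁)
  have i₂ : p₂⁻¹ ≠ ∞ := ENNReal.inv_ne_top.2 (z h.one_lt_p₂)
  have i₃ : p₃⁻¹ ≠ ∞ := ENNReal.inv_ne_top.2 (z h.one_lt_p₃)
  have n₁ : 0 ≤ (p₁⁻¹).toReal := ENNReal.toReal_nonneg
  have n₂ : 0 ≤ (p₂⁻¹).toReal := ENNReal.toReal_nonneg
  have n₃ : 0 ≤ (p₃⁻¹).toReal := ENNReal.toReal_nonneg
  have hu1 : (r⁻¹).toReal < 1 := inv_lt_one' hr
  have hu0 : 0 < (r⁻¹).toReal := inv_pos' (z hr) h.r_lt_top.ne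
  have hsum : (r⁻¹).toReal = (p₁⁻¹).toReal + (p₂⁻¹).toReal + (p₃⁻¹).toReal := by
    rw [h.holder, ENNReal.toReal_add (ENNReal.add_ne_top.2 ⟨i₁, i₂⟩) i₃,
      ENNReal.toReal_add i₁ i₂]
  set d : Fin 4 → ℝ := dt p₁ p₂ p₃ r with hd
  have e0 : d 0 = 1 - (r⁻¹).toReal := rfl
  have e1 : d 1 = (p₁⁻¹).toReal := rfl
  have e2 : d 2 = (p₂⁻¹).toReal := rfl
  have e3 : d 3 = (p₃⁻¹).toReal := rfl
  have hd0 : ∀ i, 0 ≤ d i := by
    intro i
    fin_cases i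
    · exact sub_nonneg.2 hu1.le
    · exact n₁
    · exact n₂
    · exact n₃
  -- the edges
  have edge : ∀ i : Fin 4, i ≠ 0 → (∀ j, j ≠ 0 → j ≠ i → d j = 0) → d i = (r⁻¹).toReal →
      ∃ C : ℝ, ∀ f₁ f₂ f₃ : 𝓢(ℝ, ℂ), ∀ ε R : ℝ, 0 < ε → ε < R →
        eLpNorm (truncTHT f₁ f₂ f₃ ε R) r volume ≤
        ENNReal.ofReal (C * (1 + Real.log (R / ε)) ^ σ) *
          eLpNorm f₁ p₁ volume * eLpNorm f₂ p₂ volume * eLpNorm f₃ p₃ volume := by
    intro i hi hz hdi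
    obtain ⟨C, hC, hform⟩ := form_edge hi hz (by rw [e0]; linarith) (by rw [hdi]; exact hu0)
      (by rw [e0, hdi]; ring) hσ (by rw [e0]; linarith) (by
        fin_cases i
        · exact absurd rfl hi
        · exact g1
        · exact g2
        · exact g3)
    exact ⟨C, trunc_lim h hr hC hform⟩
  by_cases z12 : p₁ = ∞ ∧ p₂ = ∞
  · have a1 : (p₁⁻¹).toReal = 0 := by rw [z12.1]; simp
    have a2 : (p₂⁻¹).toReal = 0 := by rw [z12.2]; simp
    refine edge 3 (by decide) (fun j h1 h2 => ?_) (by rw [e3]; linarith)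
    fin_cases j
    · exact absurd rfl h1
    · exact a1
    · exact a2
    · exact absurd rfl h2
  by_cases z13 : p₁ = ∞ ∧ p₃ = ∞
  · have a1 : (p₁⁻¹).toReal = 0 := by rw [z13.1]; simp
    have a3 : (p₃⁻¹).toReal = 0 := by rw [z13.2]; simp
    refine edge 2 (by decide) (fun j h1 h2 => ?_) (by rw [e2]; linarith)
    fin_cases j
    · exact absurd rfl h1
    · exact a1
    · exact absurd rfl h2
    · exact a3
  by_cases z23 : p₂ = ∞ ∧ p₃ = ∞
  · have a2 : (p₂⁻¹).toReal = 0 := by rw [z23.1]; simp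
    have a3 : (p₃⁻¹).toReal = 0 := by rw [z23.2]; simp
    refine edge 1 (by decide) (fun j h1 h2 => ?_) (by rw [e1]; linarith)
    fin_cases j
    · exact absurd rfl h1
    · exact absurd rfl h2
    · exact a2
    · exact a3
  -- at most one infinite exponent
  rw [not_and_or] at z12 z13 z23
  have pz : ∀ {p : ℝ≥0∞}, 1 < p → p ≠ ∞ → 0 < (p⁻¹).toReal := fun hp ht => inv_pos' (z hp) ht
  have q12 : 0 < (p₁⁻¹).toReal + (p₂⁻¹).toReal := by
    rcases z12 with t | t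
    · linarith [pz h.one_lt_p₁ t]
    · linarith [pz h.one_lt_p₂ t]
  have q13 : 0 < (p₁⁻¹).toReal + (p₃⁻¹).toReal := by
    rcases z13 with t | t
    · linarith [pz h.one_lt_p₁ t]
    · linarith [pz h.one_lt_p₃ t]
  have q23 : 0 < (p₂⁻¹).toReal + (p₃⁻¹).toReal := by
    rcases z23 with t | t
    · linarith [pz h.one_lt_p₂ t]
    · linarith [pz h.one_lt_p₃ t]
  have hds : ∑ i, d i = 1 := by
    rw [Fin.sum_univ_four, e0, e1, e2, e3]
    linarith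
  have hdz : ∀ i j, i ≠ j → 0 < d i + d j := by
    intro i j hij
    fin_cases i <;> fin_cases j <;> first | exact absurd rfl hij | skip
    all_goals simp only [Fin.zero_eta, Fin.mk_one, Fin.reduceFinMk, e0, e1, e2, e3]
    all_goals linarith
  have hdσ : ∀ i, 2 * d i - 1 < σ := by
    intro i
    fin_cases i
    · show 2 * (1 - (r⁻¹).toReal) - 1 < σ
      linarith
    · exact g1
    · exact g2
    · exact g3
  obtain ⟨m, HU⟩ := hypU
  obtain ⟨C', hC', hform⟩ := form_C HU hd0 hds hdz hσ hdσ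
  exact ⟨C', trunc_lim h hr hC' hform⟩

/-- **every Hölder tuple with `r > 1 / 2`** -/
theorem log_power_all {p₁ p₂ p₃ r : ℝ≥0∞} (h : IsHolderTuple p₁ p₂ p₃ r) (hr : 1 / 2 < r)
    {s : ℝ} (hs : 0 < s) (g1 : 2 * (p₁⁻¹).toReal - 1 < s) (g2 : 2 * (p₂⁻¹).toReal - 1 < s)
    (g3 : 2 * (p₃⁻¹).toReal - 1 < s) (g4 : 1 - 2 * (r⁻¹).toReal < s)
    (g5 : 2 * (r⁻¹).toReal - 3 < s) :
    ∃ C : ℝ, ∀ f₁ f₂ f₃ : 𝓢(ℝ, ℂ), ∀ ε R : ℝ, 0 < ε → ε < R →
      eLpNorm (truncTHT f₁ f₂ f₃ ε R) r volume ≤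
        ENNReal.ofReal (C * (1 + Real.log (R / ε)) ^ s) *
          eLpNorm f₁ p₁ volume * eLpNorm f₂ p₂ volume * eLpNorm f₃ p₃ volume := by
  rcases le_or_gt r 1 with h1 | h1
  · exact log_power_le_oneW h hr h1 hs g1 g2 g3 g5
  · exact log_power_gt_one h h1 hs g1 g2 g3 g4

end Vale.Agent.P141.H530.V
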