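import Vale.Agent.P141.PL.H620.Tup
import Vale.Agent.P141.PL.H620.Closed

/-!
# P141, one infinite exponent: powers of the logarithm on the open faces of the simplex
-/

namespace Vale.Agent.P141.H530.V

open MeasureTheory Set Filter Topology
open scoped ENNReal ComplexConjugate SchwartzMap
open Vale.Agent.P141 Vale.Agent.P141.H97 Vale.Agent.P141.H115 Vale.Agent.P141.PL.H620

/-- four numbers cut at `1 / 2` -/
theorem cut4 {x0 x1 x2 x3 : ℝ} (h0 : 0 ≤ x0) (h1 : 0 ≤ x1) (h2 : 0 ≤ x2) (h3 : 0 ≤ x3)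
    (hs : 1 < x0 + x1 + x2 + x3)
    (k0 : 1 / 2 < x1 + x2 + x3) (k1 : 1 / 2 < x0 + x2 + x3) (k2 : 1 / 2 < x0 + x1 + x3)
    (k3 : 1 / 2 < x0 + x1 + x2) (m01 : 0 < x0 + x1) (m02 : 0 < x0 + x2) (m03 : 0 < x0 + x3)
    (m12 : 0 < x1 + x2) (m13 : 0 < x1 + x3) (m23 : 0 < x2 + x3) :
    1 < min x0 (1 / 2) + min x1 (1 / 2) + min x2 (1 / 2) + min x3 (1 / 2) := by
  rcases le_total x0 (1 / 2) with u0 | u0 <;> rcases le_total x1 (1 / 2) with u1 | u1 <;>
    rcases le_total x2 (1 / 2) with u2 | u2 <;> rcases le_total x3 (1 / 2) with u3 | u3 <;>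
    simp only [min_eq_left, min_eq_right, u0, u1, u2, u3] <;> linarith

/-- decomposition of an exponent vector with at most one zero -/
theorem exists_lineC {d : Fin 4 → ℝ} (hd : ∀ i, 0 ≤ d i) (hs : ∑ i, d i = 1)
    (hz : ∀ i j, i ≠ j → 0 < d i + d j) {s : ℝ} (hs0 : 0 < s)
    (hs1 : s < 1) (hsd : ∀ i, 2 * d i - 1 < s) :
    ∃ D : ℝ, D < 1 / 2 ∧ 1 / 4 ≤ D ∧ ∃ a c : Fin 4 → ℝ, (∀ i, 0 ≤ a i) ∧ (∀ i, a i ≤ D) ∧
      ∑ i, a i = 1 ∧ (∀ i, 0 ≤ c i) ∧ ∑ i, c i = 1 ∧ ∀ i, d i = (1 - s) * a i + s * c i := by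
  have h1s : 0 < 1 - s := by linarith
  set x : Fin 4 → ℝ := fun i => d i / (1 - s) with hx
  have hx0 : ∀ i, 0 ≤ x i := fun i => div_nonneg (hd i) h1s.le
  have hxd : ∀ i, x i * (1 - s) = d i := fun i => div_mul_cancel₀ _ h1s.ne'
  rw [Fin.sum_univ_four] at hs
  have e0 := hxd 0
  have e1 := hxd 1
  have e2 := hxd 2
  have e3 := hxd 3
  have hsum : (x 0 + x 1 + x 2 + x 3) * (1 - s) = 1 := by linarith
  have hS : 1 < x 0 + x 1 + x 2 + x 3 := by
    by_contra hc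
    push Not at hc
    nlinarith
  have hk : ∀ i : Fin 4, ∀ y : ℝ, y * (1 - s) = 1 - d i → 1 / 2 < y := by
    intro i y hy
    by_contra hc
    push Not at hc
    have h2 := hsd i
    nlinarith
  have hm : ∀ i j : Fin 4, i ≠ j → 0 < x i + x j := by
    intro i j hij
    have h2 := hz i j hij
    have h3 : x i + x j = (d i + d j) / (1 - s) := by simp only [hx]; ring
    rw [h3]
    positivity
  have hcut := cut4 (hx0 0) (hx0 1) (hx0 2) (hx0 3) hS
    (hk 0 _ (by linarith)) (hk 1 _ (by linarith)) (hk 2 _ (by linarith)) (hk 3 _ (by linarith))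
    (hm 0 1 (by decide)) (hm 0 2 (by decide)) (hm 0 3 (by decide)) (hm 1 2 (by decide))
    (hm 1 3 (by decide)) (hm 2 3 (by decide))
  set G : ℝ := min (x 0) (1 / 2) + min (x 1) (1 / 2) + min (x 2) (1 / 2) + min (x 3) (1 / 2) with hG
  set δ : ℝ := min ((G - 1) / 4) (1 / 4) with hδ
  have hδ0 : 0 < δ := lt_min (by linarith) (by norm_num)
  have hδ1 : 4 * δ ≤ G - 1 := by
    have := min_le_left ((G - 1) / 4) (1 / 4)
    linarith
  have hδ2 : δ ≤ 1 / 4 := min_le_right _ _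
  set D : ℝ := 1 / 2 - δ with hD
  have hmin : ∀ i, min (x i) (1 / 2) - δ ≤ min (x i) D := by
    intro i
    refine le_min ?_ ?_
    · linarith [min_le_left (x i) (1 / 2)]
    · linarith [min_le_right (x i) (1 / 2)]
  set g : Fin 4 → ℝ := fun i => min (x i) D with hg
  have hg0 : ∀ i, 0 ≤ g i := fun i => le_min (hx0 i) (by linarith)
  set T : ℝ := g 0 + g 1 + g 2 + g 3 with hT
  have hT1 : 1 ≤ T := by
    have i0 := hmin 0
    have i1 := hmin 1
    have i2 := hmin 2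
    have i3 := hmin 3
    simp only [hT, hg]
    linarith
  have hT0 : 0 < T := by linarith
  have hgT : ∀ i, g i / T ≤ g i := fun i => div_le_self (hg0 i) hT1
  refine ⟨D, by linarith, by linarith, fun i => g i / T, fun i => (d i - (1 - s) * (g i / T)) / s,
    ?_, ?_, ?_, ?_, ?_, ?_⟩
  · exact fun i => div_nonneg (hg0 i) hT0.le
  · exact fun i => (hgT i).trans (min_le_right _ _)
  · rw [Fin.sum_univ_four, ← add_div, ← add_div, ← add_div, ← hT, div_self hT0.ne']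
  · intro i
    refine div_nonneg ?_ hs0.le
    have h2 : g i / T ≤ x i := (hgT i).trans (min_le_left _ _)
    have h3 := mul_le_mul_of_nonneg_left h2 h1s.le
    rw [mul_comm (1 - s) (x i), hxd i] at h3
    linarith
  · rw [Fin.sum_univ_four, ← add_div, ← add_div, ← add_div]
    have h2 : g 0 / T + g 1 / T + g 2 / T + g 3 / T = 1 := by
      rw [← add_div, ← add_div, ← add_div, ← hT, div_self hT0.ne']
    have h3 : d 0 - (1 - s) * (g 0 / T) + (d 1 - (1 - s) * (g 1 / T)) +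
        (d 2 - (1 - s) * (g 2 / T)) + (d 3 - (1 - s) * (g 3 / T)) =
        (d 0 + d 1 + d 2 + d 3) - (1 - s) * (g 0 / T + g 1 / T + g 2 / T + g 3 / T) := by ring
    rw [h3, h2, hs]
    rw [div_eq_one_iff_eq hs0.ne']
    ring
  · intro i
    field_simp
    ring

/-- the mixed exponents -/
noncomputable def mx (η : ℝ) (d : Fin 4 → ℝ) : Fin 4 → ℝ := fun i => (1 - η) * d i + η / 4

/-- the form near a vector with at most one zero, one constant -/
theorem form_C {m : ℕ} (H : HypU m) {d : Fin 4 → ℝ} (hd : ∀ i, 0 ≤ d i) (hs : ∑ i, d i = 1)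
    (hz : ∀ i j, i ≠ j → 0 < d i + d j) {s : ℝ} (hs0 : 0 < s) (hsd : ∀ i, 2 * d i - 1 < s) :
    ∃ C : ℝ, 0 ≤ C ∧ ∀ η : ℝ, 0 < η → η < 1 → ∀ ε R : ℝ, 0 < ε → ε < R →
      ∀ f : Fin 4 → ℝ → ℂ, (∀ i, Simp (f i)) →
      ‖QF ε R sl f‖ ≤ C * (1 + Real.log (R / ε)) ^ s *
        ∏ i, (NN (f i) (1 / mx η d i)) ^ (mx η d i) := by
  have hd1 : ∀ i, d i < 1 := by
    intro i
    obtain ⟨l, hli, hll⟩ := ex_two i i
    obtain ⟨l', hli', hll'⟩ := ex_two i l
    have h2 : ∑ x ∈ ({i, l, l'} : Finset (Fin 4)), d x ≤ ∑ i, d i :=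
      Finset.sum_le_sum_of_subset_of_nonneg (Finset.subset_univ _) fun x _ _ => hd x
    rw [Finset.sum_insert, Finset.sum_insert, Finset.sum_singleton] at h2
    · have := hz l l' hll'.symm
      linarith
    · simp [hll'.symm]
    · simp [hli.symm, hli'.symm]
  -- an intermediate exponent
  obtain ⟨t, ht0, hts, ht1, htd⟩ : ∃ t : ℝ, 0 < t ∧ t < s ∧ t < 1 ∧ ∀ i, 2 * d i - 1 < t := by
    obtain ⟨j, -, hj⟩ := Finset.exists_max_image Finset.univ d ⟨0, Finset.mem_univ _⟩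
    have hlt : max 0 (2 * d j - 1) < min s 1 := by
      rw [max_lt_iff, lt_min_iff, lt_min_iff]
      exact ⟨⟨hs0, one_pos⟩, hsd j, by linarith [hd1 j]⟩
    obtain ⟨t, h1, h2⟩ := exists_between hlt
    rw [max_lt_iff] at h1
    rw [lt_min_iff] at h2
    exact ⟨t, h1.1, h2.1, h2.2, fun i => by linarith [hj i (Finset.mem_univ i), h1.2]⟩
  obtain ⟨D, hD, hD4, a, c, ha0, haD, has, hc0, hcs, hdac⟩ := exists_lineC hd hs hz ht0 ht1 htd
  obtain ⟨C', hC'0, hC'⟩ := form_U H hD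
  obtain ⟨K, hK0, hK⟩ := LL_pow m (show 0 < s - t by linarith)
  refine ⟨(C' * K) ^ (1 - t) * 2 ^ t, by positivity, fun η hη0 hη1 ε R hε hR f hf => ?_⟩
  have hL : 0 ≤ Real.log (R / ε) := Real.log_nonneg ((one_le_div hε).2 hR.le)
  set L := Real.log (R / ε) with hLd
  have hLL := LL_ge hε hR
  have ma0 : ∀ i, 0 < mx η a i := fun i => mix_pos hη0 hη1 (ha0 i)
  have mc0 : ∀ i, 0 < mx η c i := fun i => mix_pos hη0 hη1 (hc0 i)
  have maD : ∀ i, mx η a i ≤ D := fun i => mix_le hη0 hη1 (haD i) hD4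
  have msum : ∀ e : Fin 4 → ℝ, ∑ i, e i = 1 → ∑ i, mx η e i = 1 := by
    intro e he
    rw [Fin.sum_univ_four] at he ⊢
    unfold mx
    linear_combination (1 - η) * he
  have h := interp2 (b := sl) (A := C' * LL ε R ^ m) (B := 2 * L) (θ := t) hε (by positivity)
    (by positivity) ma0 mc0 ht0.le ht1.le
    (fun g hg => hC' _ ma0 maD (msum a has) ε R hε hR g fun i => CB.of_simp (hg i))
    (fun g hg => trivial_bound hε hR sl mc0 (msum c hcs) g hg) (d := mx η d)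
    (fun i => by unfold mx; rw [hdac i]; ring) f hf
  refine h.trans ?_
  have hP : 0 ≤ ∏ i, (NN (f i) (1 / mx η d i)) ^ (mx η d i) :=
    Finset.prod_nonneg fun i _ => Real.rpow_nonneg (NN_nonneg _ _) _
  refine mul_le_mul_of_nonneg_right ?_ hP
  have h1 : (C' * LL ε R ^ m) ^ (1 - t) ≤ (C' * K) ^ (1 - t) * (1 + L) ^ (s - t) := by
    have h2 : C' * LL ε R ^ m ≤ C' * K * (1 + L) ^ (s - t) := by
      rw [mul_assoc]
      exact mul_le_mul_of_nonneg_left (hK ε R hε hR) hC'0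
    refine (Real.rpow_le_rpow (by positivity) h2 (by linarith)).trans ?_
    rw [Real.mul_rpow (by positivity) (by positivity)]
    refine mul_le_mul_of_nonneg_left ?_ (by positivity)
    rw [← Real.rpow_mul (by linarith)]
    refine Real.rpow_le_rpow_of_exponent_le (by linarith) ?_
    nlinarith
  have h2 : (2 * L) ^ t ≤ 2 ^ t * (1 + L) ^ t := by
    rw [← Real.mul_rpow (by norm_num) (by linarith)]
    exact Real.rpow_le_rpow (by positivity) (by linarith) ht0.le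
  calc (C' * LL ε R ^ m) ^ (1 - t) * (2 * L) ^ t
      ≤ ((C' * K) ^ (1 - t) * (1 + L) ^ (s - t)) * (2 ^ t * (1 + L) ^ t) := by gcongr
    _ = (C' * K) ^ (1 - t) * 2 ^ t * ((1 + L) ^ (s - t) * (1 + L) ^ t) := by ring
    _ = (C' * K) ^ (1 - t) * 2 ^ t * (1 + L) ^ s := by
        rw [← Real.rpow_add (by linarith)]
        congr 2
        ring

end Vale.Agent.P141.H530.V
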