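import Vale.Agent.P141.H530.V.DiscV
import Vale.Agent.P141.H530.Coset

/-!
# P141, exponents `r < 1`: the region operator on the line, bound in `L¹`, exponent `q`
-/

namespace Vale.Agent.P141.H530.V

open Finset MeasureTheory
open scoped ENNReal
open Vale.Agent.P141.PL.H571 (W mem_cell card_cell)
open Vale.Agent.P141.PL.H620 (HH sg pts uu mo sm HH_supp)

noncomputable section

/-- the window sums of the samples -/
def WinV (q : Fin 4 → ℝ) (f : Fin 4 → ℝ → ℝ) (h : ℝ) (l : Fin 4 → ℝ) (R : ℕ → ℝ → Prop) : Prop :=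
  ∀ k X, R k X → ∀ j, j ≠ 0 → ∑ y ∈ Ico (-(16 * 2 ^ k) : ℤ) (16 * 2 ^ k), |f j (X + h * y)| ^ q j ≤
    2 ^ (k + 5) * l j ^ q j

/-- **the estimate on one coset** -/
theorem cosetV {q : Fin 4 → ℝ} {n₀ : ℕ} {P : ℝ} (hP : 0 ≤ P) (H : RootV q n₀ P) {o : ℤ} (ho : o = 1 ∨ o = -1)
    {f : Fin 4 → ℝ → ℝ} (hf : ∀ j, ∃ M : ℝ, ∀ x, M < |x| → f j x = 0) {h : ℝ} (hh : 0 < h)
    {l : Fin 4 → ℝ} (hl : ∀ j, 0 < l j) (hl0 : l 0 = 1) {k0 K : ℕ} (hk0 : 1 ≤ k0)
    (hK : K < k0 + n₀)
    (R : ℕ → ℝ → Prop) [∀ k X, Decidable (R k X)] (hc : Conv h R) (hw : WinV q f h l R)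
    {D : Set ℝ} (hD : ∀ k ∈ Icc k0 K, ∀ X, R k X → ∀ x, X ≤ x → x ≤ X + h * 2 ^ k → x ∈ D) (x0 : ℝ)
    (E : Finset ℤ) :
    ∃ Z : Finset ℤ, (∀ n ∈ Z, x0 + h * n ∈ D) ∧
      ∑ n ∈ E, |Fop f o h k0 K R (x0 + h * n)| ≤ P * (∏ j, l j) * (Z.card : ℝ) := by
  classical
  set F : ℤ → ℝ := fun n => Fop f o h k0 K R (x0 + h * n) with hF
  set s : ℤ → ℝ := fun n => if n ∈ E then (if 0 ≤ F n then 1 else -1) else 0 with hs
  have hs1 : ∀ n, |s n| ≤ 1 := by
    intro n
    simp only [hs]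
    split_ifs <;> simp
  have hsE : ∀ n, n ∉ E → s n = 0 := fun n hn => by simp only [hs, if_neg hn]
  set g : Fin 4 → ℤ → ℝ := fun j n => if j = 0 then s n else f j (x0 + h * n) with hg
  have hgs : ∀ j, (Function.support (g j)).Finite := by
    intro j
    by_cases hj : j = 0
    · refine (Finset.finite_toSet E).subset fun n hn => ?_
      by_contra hc'
      exact hn (by simp only [hg, if_pos hj]; exact hsE n hc')
    · obtain ⟨M, hM⟩ := hf j
      obtain ⟨L, hL⟩ := exists_nat_ge ((|M| + |x0|) / h)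
      refine (Finset.finite_toSet (Icc (-(L : ℤ)) L)).subset fun n hn => ?_
      by_contra hc'
      apply hn
      simp only [hg, if_neg hj]
      refine hM _ ?_
      have h1 : (L : ℝ) < |(n : ℝ)| := by
        rw [coe_Icc, Set.mem_Icc, not_and_or, not_le, not_le] at hc'
        rw [lt_abs]
        rcases hc' with h2 | h2
        · right
          have : (n : ℝ) < -L := by exact_mod_cast h2
          linarith
        · left
          exact_mod_cast h2
      rw [div_le_iff₀ hh] at hL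
      have h2 := abs_sub_abs_le_abs_sub (h * (n : ℝ)) (-x0)
      rw [abs_mul, abs_of_pos hh, abs_neg, sub_neg_eq_add, add_comm (h * (n : ℝ)) x0] at h2
      have h3 := mul_lt_mul_of_pos_left h1 hh
      have h4 := le_abs_self M
      nlinarith
  -- the region on the integers
  set R' : ℕ → ℤ → Prop := fun k m => k ∈ Icc k0 K ∧ R k (x0 + h * m) with hR'
  have hcast : ∀ (m : ℤ) (k : ℕ), x0 + h * ((m : ℝ) + 2 ^ k) = x0 + h * m + h * 2 ^ k := by
    intro m k; ring
  obtain ⟨Z, hZ, hle⟩ : ∃ Z : Finset ℤ, (∀ n ∈ Z, x0 + h * n ∈ D) ∧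
      ∑ k ∈ Icc 1 K, ((16 : ℝ) ^ k)⁻¹ * ∑' m : ℤ, (if R' k m then |HH k o g m| else 0) ≤
        P * (∏ j, l j) * (Z.card : ℝ) := by
    refine disc_RV hP H ho hgs hl (k0 - 1) K (by omega) R' (fun k m hr => ?_)
      (fun k k' k'' m m' m'' h1 h2 h3 h4 h5 h6 hr hr'' => ?_) (fun y => ?_) (fun k m hr j hj => ?_)
      (fun n => x0 + h * n ∈ D) (fun k m hr n h1 h2 => ?_)
    · have h1 := mem_Icc.1 hr.1
      exact ⟨by omega, h1.2⟩
    · refine ⟨mem_Icc.2 ⟨(mem_Icc.1 hr.1).1.trans h1, h2.trans (mem_Icc.1 hr''.1).2⟩, ?_⟩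
      have c1 : (m' : ℝ) ≤ m := by exact_mod_cast h3
      have c2 : (m : ℝ) + 2 ^ k ≤ m' + 2 ^ k' := by exact_mod_cast h4
      have c3 : (m'' : ℝ) ≤ m' := by exact_mod_cast h5
      have c4 : (m' : ℝ) + 2 ^ k' ≤ m'' + 2 ^ k'' := by exact_mod_cast h6
      refine hc k k' k'' _ _ _ h1 h2 ?_ ?_ ?_ ?_ hr.2 hr''.2
      · nlinarith
      · have := mul_le_mul_of_nonneg_left c2 hh.le
        linarith [hcast m k, hcast m' k']
      · nlinarith
      · have := mul_le_mul_of_nonneg_left c4 hh.le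
        linarith [hcast m' k', hcast m'' k'']
    · rw [hl0]
      simp only [hg, if_pos]
      exact hs1 y
    · have h1 := hw k _ hr.2 j hj
      refine le_trans (le_of_eq ?_) h1
      have h2 := sum_shift (F := fun y : ℤ => |g j y| ^ q j) (-(16 * 2 ^ k)) (16 * 2 ^ k) m
      have e1 : -(16 * 2 ^ k) + m = m - 16 * 2 ^ k := by ring
      have e2 : 16 * 2 ^ k + m = m + 16 * 2 ^ k := by ring
      rw [e1, e2] at h2
      rw [← h2]
      refine sum_congr rfl fun y _ => ?_
      simp only [hg, if_neg hj]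
      congr 3
      push_cast
      ring
    · have c1 : (m : ℝ) ≤ n := by exact_mod_cast h1
      have c2 : (n : ℝ) ≤ m + 2 ^ k := by exact_mod_cast h2.le
      refine hD k hr.1 _ hr.2 _ (by nlinarith) ?_
      have := mul_le_mul_of_nonneg_left c2 hh.le
      linarith [hcast m k]
  refine ⟨Z, hZ, le_trans ?_ hle⟩
  -- duality
  have e1 : ∑ n ∈ E, |F n| = ∑ n ∈ E, s n * F n := by
    refine sum_congr rfl fun n hn => ?_
    simp only [hs, if_pos hn]
    split_ifs with h0
    · rw [abs_of_nonneg h0, one_mul]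
    · rw [abs_of_neg (not_le.1 h0)]; ring
  have e2 : ∀ k ∈ Icc k0 K, ∑ n ∈ E, s n * Sk f o h k (R k) (x0 + h * n) =
      ((16 : ℝ) ^ k)⁻¹ * ∑' m : ℤ, (if R' k m then HH k o g m else 0) := by
    intro k hk
    have hφ : ∀ y : Fin 4 → ℕ, (Function.support fun m : ℤ => (∏ i, sg k (y i)) *
        (if R' k m then ∏ j : Fin 4, g j (m + mo y - ((j : ℕ) : ℤ) * uu k o y) else 0)).Finite := by
      intro y
      have h1 : ((fun m : ℤ => m + mo y) ⁻¹' (E : Set ℤ)).Finite := by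
        refine (Finset.finite_toSet E).preimage (Function.Injective.injOn ?_)
        intro a b hab
        simpa using hab
      refine h1.subset fun m hm => ?_
      by_contra hc'
      apply hm
      have h0 : ∏ j : Fin 4, g j (m + mo y - ((j : ℕ) : ℤ) * uu k o y) = 0 := by
        refine Finset.prod_eq_zero (Finset.mem_univ (0 : Fin 4)) ?_
        simp only [hg, if_pos]
        refine hsE _ ?_
        simpa using hc'
      simp only [h0, ite_self, mul_zero]
    have e3 : ∀ m : ℤ, (if R' k m then HH k o g m else 0) = ∑ y ∈ pts k, (∏ i, sg k (y i)) *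
        (if R' k m then ∏ j : Fin 4, g j (m + mo y - ((j : ℕ) : ℤ) * uu k o y) else 0) := by
      intro m
      by_cases hr : R' k m
      · simp only [if_pos hr, HH]
      · simp only [if_neg hr, mul_zero, sum_const_zero]
    simp only [e3]
    rw [Summable.tsum_finsetSum fun y _ => sm (hφ y)]
    unfold Sk
    have e4 : ∀ n : ℤ, s n * (((16 : ℝ) ^ k)⁻¹ * ∑ y ∈ pts k, (∏ i, sg k (y i)) *
        (if R k (x0 + h * n - h * (mo y : ℤ)) then wx f (x0 + h * n) (h * (uu k o y : ℤ)) else 0)) =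
        ((16 : ℝ) ^ k)⁻¹ * ∑ y ∈ pts k, (∏ i, sg k (y i)) *
        (if R k (x0 + h * n - h * (mo y : ℤ)) then s n * wx f (x0 + h * n) (h * (uu k o y : ℤ))
          else 0) := by
      intro n
      rw [mul_left_comm, mul_sum]
      congr 1
      refine sum_congr rfl fun y _ => ?_
      split_ifs
      · ring
      · ring
    simp only [e4]
    rw [← mul_sum, sum_comm]
    congr 1
    refine sum_congr rfl fun y _ => ?_
    rw [← (Equiv.subRight (mo y)).tsum_eq, ← mul_sum, tsum_mul_left]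
    congr 1
    rw [tsum_eq_sum (s := E)]
    · refine sum_congr rfl fun n _ => ?_
      simp only [Equiv.subRight_apply]
      have e5 : x0 + h * (((n - mo y : ℤ) : ℤ) : ℝ) = x0 + h * n - h * (mo y : ℤ) := by
        push_cast; ring
      have e6 : R' k (n - mo y) ↔ R k (x0 + h * n - h * (mo y : ℤ)) := by
        simp only [hR', hk, true_and, e5]
      have e7 : ∏ j : Fin 4, g j (n - mo y + mo y - ((j : ℕ) : ℤ) * uu k o y) =
          s n * wx f (x0 + h * n) (h * (uu k o y : ℤ)) := by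
        rw [Fin.prod_univ_four]
        simp only [hg, if_pos, Fin.val_zero, Fin.val_one, Fin.val_two,
          show ((3 : Fin 4) : ℕ) = 3 from rfl, show (1 : Fin 4) ≠ 0 from by decide,
          show (2 : Fin 4) ≠ 0 from by decide, show (3 : Fin 4) ≠ 0 from by decide, if_false,
          wx]
        have a0 : n - mo y + mo y - ((0 : ℕ) : ℤ) * uu k o y = n := by push_cast; ring
        rw [a0]
        have a1 : x0 + h * ((n - mo y + mo y - ((1 : ℕ) : ℤ) * uu k o y : ℤ) : ℝ) =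
            x0 + h * n - h * (uu k o y : ℤ) := by push_cast; ring
        have a2 : x0 + h * ((n - mo y + mo y - ((2 : ℕ) : ℤ) * uu k o y : ℤ) : ℝ) =
            x0 + h * n - 2 * (h * (uu k o y : ℤ)) := by push_cast; ring
        have a3 : x0 + h * ((n - mo y + mo y - ((3 : ℕ) : ℤ) * uu k o y : ℤ) : ℝ) =
            x0 + h * n - 3 * (h * (uu k o y : ℤ)) := by push_cast; ring
        rw [a1, a2, a3]
        ring
      by_cases hr : R k (x0 + h * n - h * (mo y : ℤ))
      · rw [if_pos hr, if_pos (e6.2 hr), e7]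
      · rw [if_neg hr, if_neg fun h' => hr (e6.1 h')]
    · intro n hn
      simp only [Equiv.subRight_apply]
      have h0 : ∏ j : Fin 4, g j (n - mo y + mo y - ((j : ℕ) : ℤ) * uu k o y) = 0 := by
        refine Finset.prod_eq_zero (Finset.mem_univ (0 : Fin 4)) ?_
        simp only [hg, if_pos]
        refine hsE _ ?_
        simpa using hn
      rw [h0, ite_self]
  rw [e1]
  have e8 : ∑ n ∈ E, s n * F n = ∑ k ∈ Icc k0 K, ((16 : ℝ) ^ k)⁻¹ *
      ∑' m : ℤ, (if R' k m then HH k o g m else 0) := by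
    rw [← sum_congr rfl e2, sum_comm]
    refine sum_congr rfl fun n _ => ?_
    simp only [hF, Fop]
    rw [mul_sum]
  rw [e8]
  have hsub : Icc k0 K ⊆ Icc 1 K := Icc_subset_Icc_left hk0
  have hsupp : ∀ k, (Function.support fun m : ℤ => (if R' k m then HH k o g m else 0)).Finite :=
    fun k => (HH_supp hgs k o).subset fun m hm h0 => hm (by simp only [h0, ite_self])
  have hsupp2 : ∀ k, (Function.support fun m : ℤ => (if R' k m then |HH k o g m| else 0)).Finite :=
    fun k => (HH_supp hgs k o).subset fun m hm h0 => hm (by simp only [h0, abs_zero, ite_self])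
  refine le_trans ?_ (sum_le_sum_of_subset_of_nonneg hsub fun k _ _ => ?_)
  · refine sum_le_sum fun k _ => mul_le_mul_of_nonneg_left ?_ (by positivity)
    refine (sm (hsupp k)).tsum_le_tsum (fun m => ?_) (sm (hsupp2 k))
    split_ifs
    · exact le_abs_self _
    · exact le_rfl
  · refine mul_nonneg (by positivity) (tsum_nonneg fun m => ?_)
    split_ifs
    · exact abs_nonneg _
    · exact le_rfl

/-- **the bound in `L¹` on the line** -/
theorem l1_boundV {q : Fin 4 → ℝ} {n₀ : ℕ} {P : ℝ} (hP : 0 ≤ P) (H : RootV q n₀ P) {o : ℤ} (ho : o = 1 ∨ o = -1)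
    {f : Fin 4 → ℝ → ℝ} (hfm : ∀ j, Measurable (f j))
    (hf : ∀ j, ∃ M : ℝ, ∀ x, M < |x| → f j x = 0) {h : ℝ} (hh : 0 < h)
    {l : Fin 4 → ℝ} (hl : ∀ j, 0 < l j) (hl0 : l 0 = 1) {k0 K : ℕ} (hk0 : 1 ≤ k0)
    (hK : K < k0 + n₀)
    (R : ℕ → ℝ → Prop) [∀ k X, Decidable (R k X)] (hRm : ∀ k, MeasurableSet {X | R k X})
    (hc : Conv h R) (hw : WinV q f h l R)
    {D : Set ℝ} (hDm : MeasurableSet D)
    (hD : ∀ k ∈ Icc k0 K, ∀ X, R k X → ∀ x, X ≤ x → x ≤ X + h * 2 ^ k → x ∈ D) :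
    ∫⁻ x, ‖Fop f o h k0 K R x‖ₑ ≤ ENNReal.ofReal (P * ∏ j, l j) * volume D := by
  have hL : 0 ≤ P * ∏ j, l j := mul_nonneg hP (prod_nonneg fun j _ => (hl j).le)
  have hFm := Fop_meas hfm o h k0 K hRm
  rw [unfoldL hFm.enorm hh]
  have key : ∀ x : ℝ, ∑' n : ℤ, ‖Fop f o h k0 K R (x + h * n)‖ₑ ≤
      ENNReal.ofReal (P * ∏ j, l j) * ∑' n : ℤ, D.indicator (fun _ => (1 : ℝ≥0∞)) (x + h * n) := by
    intro x
    rw [ENNReal.tsum_eq_iSup_sum]
    refine iSup_le fun E => ?_
    obtain ⟨Z, hZ, hle⟩ := cosetV hP H ho hf hh hl hl0 hk0 hK R hc hw hD x E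
    have e1 : ∑ n ∈ E, ‖Fop f o h k0 K R (x + h * n)‖ₑ =
        ENNReal.ofReal (∑ n ∈ E, |Fop f o h k0 K R (x + h * n)|) := by
      rw [ENNReal.ofReal_sum_of_nonneg fun _ _ => abs_nonneg _]
      exact sum_congr rfl fun n _ => Real.enorm_eq_ofReal_abs _
    rw [e1]
    refine (ENNReal.ofReal_le_ofReal hle).trans ?_
    rw [ENNReal.ofReal_mul hL]
    refine mul_le_mul_right ?_ _
    have e2 : ENNReal.ofReal (Z.card : ℝ) =
        ∑ n ∈ Z, D.indicator (fun _ => (1 : ℝ≥0∞)) (x + h * n) := by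
      rw [ENNReal.ofReal_natCast, Finset.sum_congr rfl fun n hn =>
        Set.indicator_of_mem (hZ n hn) (fun _ => (1 : ℝ≥0∞)), sum_const, nsmul_eq_mul, mul_one]
    rw [e2]
    exact ENNReal.sum_le_tsum Z
  refine (lintegral_mono key).trans ?_
  rw [lintegral_const_mul' _ _ ENNReal.ofReal_ne_top]
  have hDi : Measurable (D.indicator fun _ => (1 : ℝ≥0∞)) := measurable_const.indicator hDm
  rw [← unfoldL hDi hh, lintegral_indicator_const hDm, one_mul]

end

end Vale.Agent.P141.H530.V
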