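import Vale.Agent.P141.H530.V.RealW
import Vale.Agent.P141.H530.FinalR

/-!
# P141, exponents `r ≤ 1`: complex functions, exponents `p_j ≤ ∞`
-/

namespace Vale.Agent.P141.H530.V

open MeasureTheory Filter Topology
open scoped ENNReal NNReal
open Vale.Agent.P141 (truncTHT)

noncomputable section

/-- complex functions with compact support -/
theorem cplx_compactW {q β : Fin 4 → ℝ} {p : Fin 4 → ℝ≥0∞} {r : ℝ}
    (hβ0 : ∀ j, 0 < β j) (hβ1 : ∀ j, β j ≤ 1) (hβ : β 1 + β 2 + β 3 = 2)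
    (hq : ∀ j, 1 / β j ≤ q j) (hqp : ∀ j, ENNReal.ofReal (q j) < p j)
    (hr0 : 0 < r) (hr1 : r ≤ 1) (hr : r * ((p 1)⁻¹).toReal + r * ((p 2)⁻¹).toReal + r * ((p 3)⁻¹).toReal = 1) :
    ∃ C : ℝ≥0∞, C ≠ ∞ ∧ ∀ (n : ℕ) (P : ℝ), 0 ≤ P → RootV q (n + 1) P →
      ∀ g₁ g₂ g₃ : ℝ → ℂ, Continuous g₁ → Continuous g₂ → Continuous g₃ →
      HasCompactSupport g₁ → HasCompactSupport g₂ → HasCompactSupport g₃ →
      ∀ ε R : ℝ, 0 < ε → ε < R → 2 ^ n * ε ≤ R → R ≤ 2 * (2 ^ n * ε) →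
      ∫⁻ x, ‖truncTHT g₁ g₂ g₃ ε R x‖ₑ ^ r ≤ C * ENNReal.ofReal ((1 + P) ^ r) *
        (eLpNorm g₁ (p 1) volume ^ r * eLpNorm g₂ (p 2) volume ^ r *
          eLpNorm g₃ (p 3) volume ^ r) := by
  obtain ⟨C, hC, H⟩ := real_mainW hβ0 hβ1 hβ hq hqp hr0 hr1 hr
  refine ⟨8 * C, ENNReal.mul_ne_top (by norm_num) hC, ?_⟩
  intro n P hP hRS g₁ g₂ g₃ c1 c2 c3 s1 s2 s3 ε R hε hεR hR1 hR2
  have hfn : ∀ s j, Continuous (fn g₁ g₂ g₃ s j) := by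
    intro s j
    fin_cases j
    · exact continuous_const
    · exact pa_cont _ c1
    · exact pa_cont _ c2
    · exact pa_cont _ c3
  have hfs : ∀ s j, HasCompactSupport (fn g₁ g₂ g₃ s j) := by
    intro s j
    fin_cases j
    · exact HasCompactSupport.zero
    · exact pa_supp _ s1
    · exact pa_supp _ s2
    · exact pa_supp _ s3
  set B : ℝ≥0∞ := C * ENNReal.ofReal ((1 + P) ^ r) *
        (eLpNorm g₁ (p 1) volume ^ r * eLpNorm g₂ (p 2) volume ^ r *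
          eLpNorm g₃ (p 3) volume ^ r) with hB
  have hone : ∀ s, ∫⁻ x, ‖TR (fn g₁ g₂ g₃ s) ε R x‖ₑ ^ r ≤ B := by
    intro s
    refine (H n P hP hRS _ (hfn s) (hfs s) ε R hε hR1 hR2).trans ?_
    rw [hB]
    refine mul_le_mul_right (mul_le_mul' (mul_le_mul' ?_ ?_) ?_) _
    · exact ENNReal.rpow_le_rpow (eLpNorm_mono fun x => pa_le s.1 g₁ x) hr0.le
    · exact ENNReal.rpow_le_rpow (eLpNorm_mono fun x => pa_le s.2.1 g₂ x) hr0.le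
    · exact ENNReal.rpow_le_rpow (eLpNorm_mono fun x => pa_le s.2.2 g₃ x) hr0.le
  have hpt : ∀ x, ‖truncTHT g₁ g₂ g₃ ε R x‖ₑ ^ r ≤
      ∑ s : Bool × Bool × Bool, ‖TR (fn g₁ g₂ g₃ s) ε R x‖ₑ ^ r := by
    intro x
    rw [trunc_sum c1 c2 c3 hε hεR]
    refine (ENNReal.rpow_le_rpow (enorm_sum_le _ _) hr0.le).trans ?_
    refine (rpow_sum_le _ _ hr0 hr1).trans (Finset.sum_le_sum fun s _ => ?_)
    refine ENNReal.rpow_le_rpow (le_of_eq ?_) hr0.le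
    rw [enorm_mul, ka, enorm_mul, enorm_mul, norm_cI, norm_cI, norm_cI, one_mul, one_mul, one_mul,
      ← ofReal_norm, ← ofReal_norm, Complex.norm_real]
  refine (lintegral_mono hpt).trans ?_
  rw [lintegral_finsetSum _ fun s _ => (TR_meas (hfn s) hεR.le).enorm.pow_const _]
  refine (Finset.sum_le_sum fun s _ => hone s).trans (le_of_eq ?_)
  rw [Finset.sum_const, Finset.card_univ, nsmul_eq_mul, hB]
  simp only [Fintype.card_prod, Fintype.card_bool]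
  norm_num
  ring

/-- **complex continuous functions** -/
theorem cplx_mainW {q β : Fin 4 → ℝ} {p : Fin 4 → ℝ≥0∞} {r : ℝ}
    (hβ0 : ∀ j, 0 < β j) (hβ1 : ∀ j, β j ≤ 1) (hβ : β 1 + β 2 + β 3 = 2)
    (hq : ∀ j, 1 / β j ≤ q j) (hqp : ∀ j, ENNReal.ofReal (q j) < p j)
    (hr0 : 0 < r) (hr1 : r ≤ 1) (hr : r * ((p 1)⁻¹).toReal + r * ((p 2)⁻¹).toReal + r * ((p 3)⁻¹).toReal = 1) :
    ∃ C : ℝ≥0∞, C ≠ ∞ ∧ ∀ (n : ℕ) (P : ℝ), 0 ≤ P → RootV q (n + 1) P →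
      ∀ f₁ f₂ f₃ : ℝ → ℂ, Continuous f₁ → Continuous f₂ → Continuous f₃ →
      ∀ ε R : ℝ, 0 < ε → ε < R → 2 ^ n * ε ≤ R → R ≤ 2 * (2 ^ n * ε) →
      ∫⁻ x, ‖truncTHT f₁ f₂ f₃ ε R x‖ₑ ^ r ≤ C * ENNReal.ofReal ((1 + P) ^ r) *
        (eLpNorm f₁ (p 1) volume ^ r * eLpNorm f₂ (p 2) volume ^ r *
          eLpNorm f₃ (p 3) volume ^ r) := by
  obtain ⟨C, hC, H⟩ := cplx_compactW hβ0 hβ1 hβ hq hqp hr0 hr1 hr
  refine ⟨C, hC, ?_⟩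
  intro n P hP hRS f₁ f₂ f₃ c1 c2 c3 ε R hε hεR hR1 hR2
  set F : ℕ → ℝ → ℝ≥0∞ := fun k x =>
    ‖truncTHT (cf k f₁) (cf k f₂) (cf k f₃) ε R x‖ₑ ^ r with hF
  have e1 : ∀ x, ‖truncTHT f₁ f₂ f₃ ε R x‖ₑ ^ r = liminf (fun k => F k x) atTop := by
    intro x
    have h4 : Tendsto (fun k => F k x) atTop (𝓝 (‖truncTHT f₁ f₂ f₃ ε R x‖ₑ ^ r)) := by
      refine tendsto_const_nhds.congr' ?_
      obtain ⟨k₀, hk₀⟩ := exists_nat_gt (|x| + 3 * R)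
      filter_upwards [eventually_ge_atTop k₀] with k hk
      have h5 : |x| + 3 * R ≤ (k : ℝ) := hk₀.le.trans (by exact_mod_cast hk)
      simp only [hF]
      rw [trunc_cut f₁ f₂ f₃ h5]
    exact h4.liminf_eq.symm
  simp only [e1]
  refine (lintegral_liminf_le fun k => (trunc_meas (cf_cont _ c1) (cf_cont _ c2) (cf_cont _ c3)
    hε hεR).enorm.pow_const r).trans ?_
  refine liminf_le_of_frequently_le' (Frequently.of_forall fun k => ?_)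
  refine (H n P hP hRS _ _ _ (cf_cont _ c1) (cf_cont _ c2) (cf_cont _ c3) (cf_supp _ _) (cf_supp _ _)
    (cf_supp _ _) ε R hε hεR hR1 hR2).trans ?_
  refine mul_le_mul_right (mul_le_mul' (mul_le_mul' ?_ ?_) ?_) _
  · exact ENNReal.rpow_le_rpow (eLpNorm_mono fun x => cf_le _ f₁ x) hr0.le
  · exact ENNReal.rpow_le_rpow (eLpNorm_mono fun x => cf_le _ f₂ x) hr0.le
  · exact ENNReal.rpow_le_rpow (eLpNorm_mono fun x => cf_le _ f₃ x) hr0.le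

/-- the bound in terms of the norms -/
theorem eL_mainW {q β : Fin 4 → ℝ} {p : Fin 4 → ℝ≥0∞} {r : ℝ}
    (hβ0 : ∀ j, 0 < β j) (hβ1 : ∀ j, β j ≤ 1) (hβ : β 1 + β 2 + β 3 = 2)
    (hq : ∀ j, 1 / β j ≤ q j) (hqp : ∀ j, ENNReal.ofReal (q j) < p j)
    (hr0 : 0 < r) (hr1 : r ≤ 1) (hr : r * ((p 1)⁻¹).toReal + r * ((p 2)⁻¹).toReal + r * ((p 3)⁻¹).toReal = 1) :
    ∃ C : ℝ, 0 ≤ C ∧ ∀ (n : ℕ) (P : ℝ), 0 ≤ P → RootV q (n + 1) P →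
      ∀ f₁ f₂ f₃ : ℝ → ℂ, Continuous f₁ → Continuous f₂ → Continuous f₃ →
      ∀ ε R : ℝ, 0 < ε → ε < R → 2 ^ n * ε ≤ R → R ≤ 2 * (2 ^ n * ε) →
      eLpNorm (truncTHT f₁ f₂ f₃ ε R) (ENNReal.ofReal r) volume ≤ ENNReal.ofReal (C * (1 + P)) *
        eLpNorm f₁ (p 1) volume * eLpNorm f₂ (p 2) volume *
          eLpNorm f₃ (p 3) volume := by
  obtain ⟨C, hC, H⟩ := cplx_mainW hβ0 hβ1 hβ hq hqp hr0 hr1 hr
  refine ⟨(C ^ (1 / r)).toReal, ENNReal.toReal_nonneg, ?_⟩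
  intro n P hP hRS f₁ f₂ f₃ c1 c2 c3 ε R hε hεR hR1 hR2
  have h4 := H n P hP hRS f₁ f₂ f₃ c1 c2 c3 ε R hε hεR hR1 hR2
  rw [eLpNorm_eq_lintegral_rpow_enorm_toReal (by simpa using hr0) ENNReal.ofReal_ne_top,
    ENNReal.toReal_ofReal hr0.le]
  have h5 := ENNReal.rpow_le_rpow h4 (by positivity : 0 ≤ 1 / r)
  refine h5.trans (le_of_eq ?_)
  have e : ∀ a : ℝ≥0∞, (a ^ r) ^ (1 / r) = a := fun a => by
    rw [← ENNReal.rpow_mul, mul_one_div_cancel hr0.ne', ENNReal.rpow_one]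
  have hC' : C ^ (1 / r) ≠ ∞ := ENNReal.rpow_ne_top_of_nonneg (by positivity) hC
  have hr' : 0 ≤ 1 / r := by positivity
  rw [ENNReal.mul_rpow_of_nonneg _ _ hr', ENNReal.mul_rpow_of_nonneg _ _ hr',
    ENNReal.mul_rpow_of_nonneg _ _ hr', ENNReal.mul_rpow_of_nonneg _ _ hr', e, e, e,
    ← ENNReal.ofReal_rpow_of_nonneg (by linarith : 0 ≤ 1 + P) hr0.le, e,
    ENNReal.ofReal_mul ENNReal.toReal_nonneg, ENNReal.ofReal_toReal hC']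
  ring

end

end Vale.Agent.P141.H530.V
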