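import Vale.Agent.P141.H530.V.TreeV
import Vale.Agent.P141.H530.Disc

/-!
# P141, exponents `r < 1`: the root estimate on a convex region of (scale, position), all positions
-/

namespace Vale.Agent.P141.H530.V

open Finset
open Vale.Agent.P141.PL.H571 (W mem_cell card_cell)
open Vale.Agent.P141.PL.H620 (loc1 nn HH sg pts uu mo tr loc1_nn HH_tr tr_supp HH_supp res_sum_pow
  eight)
open Vale.Agent.P141.PL.H855 (wN Bel ediv_pow_add)

noncomputable section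

/-- **the root estimate on a convex region** -/
theorem disc_RV {q : Fin 4 → ℝ} {n₀ : ℕ} {P : ℝ} (hP : 0 ≤ P) (H : RootV q n₀ P) {o : ℤ} (ho : o = 1 ∨ o = -1)
    {g : Fin 4 → ℤ → ℝ} (hg : ∀ j, (Function.support (g j)).Finite) {l : Fin 4 → ℝ}
    (hl : ∀ j, 0 < l j) (s₀ K : ℕ) (hK₀ : K ≤ s₀ + n₀) (R : ℕ → ℤ → Prop) [∀ k m, Decidable (R k m)]
    (hRk : ∀ k m, R k m → s₀ + 1 ≤ k ∧ k ≤ K)
    (conv : ∀ (k k' k'' : ℕ) (m m' m'' : ℤ), k ≤ k' → k' ≤ k'' → m' ≤ m →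
      m + 2 ^ k ≤ m' + 2 ^ k' → m'' ≤ m' → m' + 2 ^ k' ≤ m'' + 2 ^ k'' → R k m → R k'' m'' →
      R k' m')
    (hg0 : ∀ y, |g 0 y| ≤ l 0)
    (win : ∀ k m, R k m → ∀ j, j ≠ 0 → ∑ y ∈ Ico (m - 16 * 2 ^ k) (m + 16 * 2 ^ k), |g j y| ^ q j ≤
      2 ^ (k + 5) * l j ^ q j)
    (D : ℤ → Prop) (hD : ∀ k m, R k m → ∀ n, m ≤ n → n < m + 2 ^ k → D n) :
    ∃ Z : Finset ℤ, (∀ n ∈ Z, D n) ∧ ∑ k ∈ Icc 1 K, ((16 : ℝ) ^ k)⁻¹ *
      ∑' m : ℤ, (if R k m then |HH k o g m| else 0) ≤ P * (∏ j, l j) * (Z.card : ℝ) := by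
  classical
  have hL : 0 < ∏ j, l j := prod_pos fun j _ => hl j
  set h : ℕ → ℤ → ℝ := fun k m => if R k m then |HH k o g m| else 0 with hh
  have hhs : ∀ k, (Function.support (h k)).Finite := fun k => by
    refine (HH_supp hg k o).subset fun m hm h0 => hm ?_
    simp only [hh, h0, abs_zero, ite_self]
  have hh0 : ∀ k m, 0 ≤ h k m := fun k m => by
    simp only [hh]; split_ifs <;> simp
  -- a bound for the supports
  obtain ⟨L, hLb⟩ : ∃ L : ℕ, ∀ k ∈ Icc 1 K, ∀ m, h k m ≠ 0 → |m| ≤ L := by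
    have h1 : (⋃ k ∈ (Icc 1 K : Finset ℕ), Function.support (h k)).Finite :=
      Set.Finite.biUnion (Finset.finite_toSet _) fun k _ => hhs k
    obtain ⟨V, hV⟩ := (h1.image fun v : ℤ => v.natAbs).bddAbove
    refine ⟨V, fun k hk m hm => ?_⟩
    have := hV ⟨m, Set.mem_biUnion hk hm, rfl⟩
    rw [Int.abs_eq_natAbs]
    exact_mod_cast this
  -- the region
  set R' : ℕ → ℤ → Prop := fun k m => R k m ∧ ∃ z, m ≤ z ∧ z < m + 2 ^ k ∧ |z| ≤ (L : ℤ) with hR'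
  set Bd : ℤ := L + 2 ^ K with hBd
  have hvb : ∀ (a : ℤ) (k : ℕ) (v : ℤ), 0 ≤ a → a < 2 ^ K → R' k (2 ^ k * v + a) →
      v ∈ Icc (-Bd) Bd := by
    intro a k v ha0 ha1 hr
    obtain ⟨hr1, z, hz1, hz2, hz3⟩ := hr
    have hp : (1 : ℤ) ≤ 2 ^ k := one_le_pow₀ (by norm_num)
    have hK2 : (0 : ℤ) < 2 ^ K := by positivity
    have h3 := abs_le.1 hz3
    rw [mem_Icc, hBd]
    constructor
    · by_contra hc
      push Not at hc
      have h4 : v + 1 ≤ 0 := by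
        have : (0 : ℤ) ≤ L := by positivity
        linarith
      have h5 : 2 ^ k * (v + 1) ≤ 1 * (v + 1) := mul_le_mul_of_nonpos_right hp h4
      have h6 : z < 2 ^ k * (v + 1) + a := by linarith
      linarith
    · by_contra hc
      push Not at hc
      have h4 : 0 ≤ v := by
        have : (0 : ℤ) ≤ L := by positivity
        linarith
      have h5 : 1 * v ≤ 2 ^ k * v := mul_le_mul_of_nonneg_right hp h4
      linarith
  set 𝒩 : ℤ → Finset (ℕ × ℤ) := fun a => ((Icc 1 K) ×ˢ (Icc (-Bd) Bd)).filter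
    fun N => R' N.1 (2 ^ N.1 * N.2 + a) with h𝒩
  have hmem : ∀ a : ℤ, 0 ≤ a → a < 2 ^ K → ∀ N, N ∈ 𝒩 a ↔ R' N.1 (2 ^ N.1 * N.2 + a) := by
    intro a ha0 ha1 N
    simp only [h𝒩, mem_filter, mem_product]
    refine ⟨fun h => h.2, fun h => ⟨⟨?_, hvb a _ _ ha0 ha1 h⟩, h⟩⟩
    have := hRk _ _ h.1
    exact mem_Icc.2 ⟨by omega, this.2⟩
  -- the intervals
  have hint : ∀ (a : ℤ) (N : ℕ × ℤ) (k : ℕ), N.1 ≤ k →
      2 ^ (anc N k).1 * (anc N k).2 + a ≤ 2 ^ N.1 * N.2 + a ∧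
      2 ^ N.1 * N.2 + a + 2 ^ N.1 ≤ 2 ^ (anc N k).1 * (anc N k).2 + a + 2 ^ (anc N k).1 := by
    intro a N k hk
    show 2 ^ k * (N.2 / 2 ^ (k - N.1)) + a ≤ _ ∧
      _ ≤ 2 ^ k * (N.2 / 2 ^ (k - N.1)) + a + 2 ^ k
    have hp : (0 : ℤ) < 2 ^ (k - N.1) := by positivity
    have hq : (0 : ℤ) < 2 ^ N.1 := by positivity
    have h1 : 2 ^ (k - N.1) * (N.2 / 2 ^ (k - N.1)) ≤ N.2 := Int.mul_ediv_self_le hp.ne'
    have h2 : N.2 < 2 ^ (k - N.1) * (N.2 / 2 ^ (k - N.1)) + 2 ^ (k - N.1) :=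
      Int.lt_mul_ediv_self_add hp
    have e : (2 : ℤ) ^ k = 2 ^ N.1 * 2 ^ (k - N.1) := by
      rw [← pow_add]; congr 1; omega
    rw [e]
    set q := N.2 / 2 ^ (k - N.1)
    constructor
    · nlinarith
    · have h3 : N.2 + 1 ≤ 2 ^ (k - N.1) * q + 2 ^ (k - N.1) := h2
      nlinarith
  -- the estimate for one translation
  have hone : ∀ a ∈ range (2 ^ K), ∑ N ∈ 𝒩 (a : ℤ), |wN o (tr g a) N| ≤
      P * (∏ j, l j) * (((𝒩 (a : ℤ)).biUnion cell).card : ℝ) := by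
    intro a ha
    have ha0 : (0 : ℤ) ≤ a := by positivity
    have ha1 : (a : ℤ) < 2 ^ K := by exact_mod_cast mem_range.1 ha
    refine treeV hP H ho (tr_supp hg a) hl _ s₀ (fun N hN => ?_) (fun N hN k k' h1 h2 h3 => ?_)
      (fun y => hg0 _) fun N hN j hj => ?_
    · have := hRk _ _ ((hmem a ha0 ha1 N).1 hN).1
      exact ⟨this.1, this.2.trans hK₀⟩
    · rw [hmem a ha0 ha1] at hN h3 ⊢
      have i1 := hint a N k h1
      have i2 := hint a (anc N k) k' h2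
      rw [anc_anc N h1 h2] at i2
      refine ⟨conv _ _ _ _ _ _ h1 h2 i1.1 i1.2 i2.1 i2.2 hN.1 h3.1, ?_⟩
      obtain ⟨z, hz1, hz2, hz3⟩ := hN.2
      exact ⟨z, i1.1.trans hz1, by linarith [i1.2], hz3⟩
    · rw [hmem a ha0 ha1] at hN
      have h1 := win _ _ hN.1 j hj
      have e : ∑ y ∈ W N.1 N.2, |tr g a j y| ^ q j =
          ∑ y ∈ Ico (2 ^ N.1 * N.2 + a - 16 * 2 ^ N.1) (2 ^ N.1 * N.2 + a + 16 * 2 ^ N.1),
            |g j y| ^ q j := by
        unfold W tr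
        rw [sum_shift (F := fun y => |g j y| ^ q j)]
        congr 2 <;> ring
      rw [e]
      exact h1
  -- the set
  set Z : Finset ℤ := (range (2 ^ K)).biUnion fun a => ((𝒩 (a : ℤ)).biUnion cell).image
    fun z => z + (a : ℤ) with hZ
  refine ⟨Z, fun n hn => ?_, ?_⟩
  · obtain ⟨a, ha, hn⟩ := mem_biUnion.1 hn
    obtain ⟨z, hz, rfl⟩ := mem_image.1 hn
    obtain ⟨N, hN, hz⟩ := mem_biUnion.1 hz
    have ha0 : (0 : ℤ) ≤ a := by positivity
    have ha1 : (a : ℤ) < 2 ^ K := by exact_mod_cast mem_range.1 ha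
    rw [hmem a ha0 ha1] at hN
    unfold cell at hz
    rw [mem_Ico, mul_add, mul_one] at hz
    exact hD _ _ hN.1 _ (by linarith [hz.1]) (by linarith [hz.2])
  have hcard : ∀ a ∈ range (2 ^ K), (((𝒩 (a : ℤ)).biUnion cell).card : ℝ) ≤ Z.card := by
    intro a ha
    have h1 : (((𝒩 (a : ℤ)).biUnion cell).image fun z => z + (a : ℤ)).card =
        ((𝒩 (a : ℤ)).biUnion cell).card :=
      card_image_of_injective _ fun x y hxy => by simpa using hxy
    rw [← h1]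
    exact_mod_cast card_le_card (subset_biUnion_of_mem
      (fun a : ℕ => ((𝒩 (a : ℤ)).biUnion cell).image fun z => z + (a : ℤ)) ha)
  -- summation over the translations
  have h2 : ∑ a ∈ range (2 ^ K), ∑ N ∈ 𝒩 (a : ℤ), |wN o (tr g a) N| ≤
      2 ^ K * (P * (∏ j, l j) * Z.card) := by
    refine (sum_le_sum fun a ha => (hone a ha).trans (mul_le_mul_of_nonneg_left (hcard a ha)
      (by positivity))).trans (le_of_eq ?_)
    rw [sum_const, card_range, nsmul_eq_mul]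
    push_cast
    ring
  have h3 : ∀ a ∈ range (2 ^ K), ∑ N ∈ 𝒩 (a : ℤ), |wN o (tr g a) N| =
      ∑ k ∈ Icc 1 K, ((8 : ℝ) ^ k)⁻¹ * ∑' v : ℤ, h k (2 ^ k * v + a) := by
    intro a ha
    have ha0 : (0 : ℤ) ≤ a := by positivity
    have ha1 : (a : ℤ) < 2 ^ K := by exact_mod_cast mem_range.1 ha
    simp only [h𝒩]
    rw [sum_filter, sum_product]
    refine sum_congr rfl fun k hk => ?_
    rw [tsum_eq_sum (s := Icc (-Bd) Bd), mul_sum]
    · refine sum_congr rfl fun v _ => ?_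
      by_cases hr : R' k (2 ^ k * v + a)
      · rw [if_pos hr, wN_tr, abs_mul, abs_of_pos (by positivity : (0 : ℝ) < ((8 : ℝ) ^ k)⁻¹)]
        simp only [hh, if_pos hr.1]
      · rw [if_neg hr]
        have h0 : h k (2 ^ k * v + a) = 0 := by
          by_contra hne
          apply hr
          have hr1 : R k (2 ^ k * v + a) := by
            by_contra hc
            exact hne (by simp only [hh, if_neg hc])
          exact ⟨hr1, _, le_rfl, by
            have : (0 : ℤ) < 2 ^ k := by positivity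
            linarith, hLb k hk _ hne⟩
        rw [h0, mul_zero]
    · intro v hv
      by_contra hne
      apply hv
      refine hvb a k v ha0 ha1 ?_
      have hr1 : R k (2 ^ k * v + a) := by
        by_contra hc
        exact hne (by simp only [hh, if_neg hc])
      exact ⟨hr1, _, le_rfl, by
        have : (0 : ℤ) < 2 ^ k := by positivity
        linarith, hLb k hk _ hne⟩
  rw [sum_congr rfl h3, sum_comm] at h2
  have h4 : ∀ k ∈ Icc 1 K, ∑ a ∈ range (2 ^ K), ((8 : ℝ) ^ k)⁻¹ * ∑' v : ℤ, h k (2 ^ k * v + a) =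
      2 ^ K * (((16 : ℝ) ^ k)⁻¹ * ∑' m, h k m) := by
    intro k hk
    obtain ⟨m, rfl⟩ := Nat.exists_eq_add_of_le (mem_Icc.1 hk).2
    rw [← mul_sum, res_sum_pow (hhs k) k m]
    have h16 : (16 : ℝ) ^ k = 2 ^ k * 8 ^ k := by rw [← mul_pow]; norm_num
    rw [h16, pow_add]
    field_simp
  rw [sum_congr rfl h4, ← mul_sum] at h2
  exact le_of_mul_le_mul_left h2 (by positivity)

end

end Vale.Agent.P141.H530.V
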