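import Vale.Agent.P141.H530.V.Node4
import Vale.Agent.P141.H530.V.FinW
import Vale.Agent.P141.H530.V.Clo

/-!
# P141, two infinite exponents: the form on the edges `0, i` of the simplex
-/

namespace Vale.Agent.P141.H530.V

open MeasureTheory Set Filter Topology
open scoped ENNReal ComplexConjugate SchwartzMap
open Vale.Agent.P141 Vale.Agent.P141.H97 Vale.Agent.P141.H115 Vale.Agent.P141.PL.H620

/-- the largest exponents -/
noncomputable def DD (i j : Fin 4) : ℝ := if j = 0 ∨ j = i then 1 / 2 else 1 / 4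

/-- **the root estimate with an arbitrarily small power** -/
theorem rootE_exists {i : Fin 4} (hi : i ≠ 0) {s : ℝ} (hs : 0 < s) :
    ∃ q : Fin 4 → ℝ, (∀ j, 0 < q j) ∧ (∀ j, DD i j * q j < 1) ∧
      ∃ C : ℝ, 0 ≤ C ∧ ∀ n : ℕ, RootQV q n (C * (1 + (n : ℝ)) ^ s) := by
  set θ : ℝ := min (s / 2) (1 / 8) with hθ
  have t0 : 0 < θ := lt_min (by linarith) (by norm_num)
  have ts : θ < s := lt_of_le_of_lt (min_le_left _ _) (by linarith)
  have t8 : θ ≤ 1 / 8 := min_le_right _ _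
  have tl : θ < 1 := by linarith
  obtain ⟨q', q2, w1, -, -⟩ := qexp t0 tl (D1 := θ / 4) (D2 := θ / 4) (D3 := θ / 4)
    (by linarith) (by linarith) (by linarith)
  have hq' : 0 < q' := by linarith
  set qs : ℝ := 1 / (1 / 2 + θ / 8) with hqs
  have hqs0 : 0 < qs := by positivity
  have hqs1 : qs * (1 / 2 + θ / 8) = 1 := one_div_mul_cancel (by positivity)
  have hqs2 : 1 / 2 * qs < 1 := by nlinarith
  set q : Fin 4 → ℝ := fun j => if j = 0 ∨ j = i then qs else 3 with hq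
  have hw : 1 / 2 - 3 * θ / 4 < (1 - θ) / q' := by linarith
  have he : ∀ j, 1 < q j * ((1 - θ) / q' + θ * bet i j) := by
    intro j
    by_cases hj : j = 0 ∨ j = i
    · simp only [hq, bet, if_pos hj]
      have h1 : 1 / 2 + θ / 8 < (1 - θ) / q' + θ * 1 := by linarith
      have h2 := mul_lt_mul_of_pos_left h1 hqs0
      linarith
    · simp only [hq, bet, if_neg hj]
      nlinarith
  obtain ⟨m, HR⟩ := rootS
  obtain ⟨C₀, hC₀, HS⟩ := HR q' q2
  obtain ⟨C₁, hC₁, HV⟩ := rootE_of_rootS hi hq' (q := q) t0.le tl.le he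
  refine ⟨q, ?_, ?_, ?_⟩
  · intro j
    simp only [hq]
    split_ifs
    · exact hqs0
    · norm_num
  · intro j
    by_cases hj : j = 0 ∨ j = i
    · simp only [hq, DD, if_pos hj]
      exact hqs2
    · simp only [hq, DD, if_neg hj]
      norm_num
  set κ : ℝ := (s - θ) / (m + 1) with hκ
  have hm0 : (0 : ℝ) ≤ m := Nat.cast_nonneg m
  have κ0 : 0 < κ := div_pos (by linarith) (by linarith)
  have κm : κ * m ≤ s - θ := by
    rw [hκ, div_mul_eq_mul_div, div_le_iff₀ (by linarith)]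
    nlinarith
  set A : ℝ := C₀ * (1 + 1 / κ) ^ m with hA
  have hA0 : 0 ≤ A := by positivity
  refine ⟨C₁ * (1 + A), by positivity, fun n => ?_⟩
  rcases Nat.eq_zero_or_pos n with rfl | hn
  · intro f hf o ho K hK V 𝒩 i1 i2 i3
    have h5 : ∑ N ∈ 𝒩, ((4 : ℝ) ^ N.1)⁻¹ * |loc1 N.1 (nn o N.2 0 0) f| = 0 := by
      refine Finset.sum_eq_zero fun N hN => ?_
      obtain ⟨h1, h2, -⟩ := i1 N hN
      omega
    rw [h5]
    positivity
  set x : ℝ := 1 + (n : ℝ) with hx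
  have hn0 : (0 : ℝ) ≤ n := Nat.cast_nonneg n
  have hx1 : 1 ≤ x := by rw [hx]; linarith
  have hx0 : 0 < x := by linarith
  set P : ℝ := C₀ * (1 + Real.log x) ^ m with hP
  have hlog : 0 ≤ Real.log x := Real.log_nonneg hx1
  have hP0 : 0 ≤ P := by positivity
  have hV := HV n P hP0 (HS n hn)
  have hxs : 1 ≤ x ^ (s - θ) := Real.one_le_rpow hx1 (by linarith)
  have hP1 : P ≤ A * x ^ (s - θ) := by
    have h5 := log_bd m κ0 hx1
    have h6 : x ^ (κ * m) ≤ x ^ (s - θ) := Real.rpow_le_rpow_of_exponent_le hx1 κm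
    have h7 : (0 : ℝ) ≤ (1 + 1 / κ) ^ m := by positivity
    rw [hP, hA, mul_assoc]
    exact mul_le_mul_of_nonneg_left (h5.trans (mul_le_mul_of_nonneg_left h6 h7)) hC₀
  have hP2 : P ^ (1 - θ) ≤ (1 + A) * x ^ (s - θ) := by
    have h5 : P ^ (1 - θ) ≤ (1 + P) ^ (1 - θ) := Real.rpow_le_rpow hP0 (by linarith) (by linarith)
    have h6 : (1 + P) ^ (1 - θ) ≤ (1 + P) ^ (1 : ℝ) :=
      Real.rpow_le_rpow_of_exponent_le (by linarith) (by linarith)
    rw [Real.rpow_one] at h6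
    linarith
  have hn1 : (n : ℝ) ^ θ ≤ x ^ θ := Real.rpow_le_rpow hn0 (by rw [hx]; linarith) t0.le
  have hfin : C₁ * (P ^ (1 - θ) * (n : ℝ) ^ θ) ≤ C₁ * (1 + A) * x ^ s := by
    have h5 : x ^ s = x ^ (s - θ) * x ^ θ := by
      rw [← Real.rpow_add hx0, sub_add_cancel]
    rw [h5, mul_assoc]
    refine mul_le_mul_of_nonneg_left ?_ hC₁.le
    rw [← mul_assoc]
    exact mul_le_mul hP2 hn1 (by positivity) (by positivity)
  intro f hf o ho K hK V 𝒩 i1 i2 i3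
  exact (hV f hf o ho K hK V 𝒩 i1 i2 i3).trans
    (mul_le_mul_of_nonneg_right hfin (by positivity))

/-- the middle of the edge -/
noncomputable def em (i j : Fin 4) : ℝ := if j = 0 ∨ j = i then 1 / 2 else 0

theorem em_sum {i : Fin 4} (hi : i ≠ 0) : ∑ j, em i j = 1 := by
  rw [Fin.sum_univ_four]
  fin_cases i
  · exact absurd rfl hi
  all_goals
    simp [em]
    norm_num

theorem em_nonneg (i j : Fin 4) : 0 ≤ em i j := by
  unfold em
  split_ifs <;> norm_num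

theorem mx_sum {e : Fin 4 → ℝ} (he : ∑ i, e i = 1) (η : ℝ) : ∑ i, mx η e i = 1 := by
  rw [Fin.sum_univ_four] at he ⊢
  unfold mx
  linear_combination (1 - η) * he

/-- **the form near the middle of the edge** -/
theorem form_mid {i : Fin 4} (hi : i ≠ 0) {s : ℝ} (hs : 0 < s) :
    ∃ C : ℝ, 0 ≤ C ∧ ∀ η : ℝ, 0 < η → η < 1 → ∀ ε R : ℝ, 0 < ε → ε < R →
      ∀ f : Fin 4 → ℝ → ℂ, (∀ j, CB (f j)) →
      ‖QF ε R sl f‖ ≤ C * (1 + Real.log (R / ε)) ^ s *
        ∏ j, (NN (f j) (1 / mx η (em i) j)) ^ (mx η (em i) j) := by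
  obtain ⟨q, hq0, hDq, C₀, hC₀, HQ⟩ := rootE_exists hi hs
  obtain ⟨C₁, hC₁, HN⟩ := node_of_rootQV hq0 hDq
  obtain ⟨K, hK0, hK⟩ := form
  refine ⟨K * (C₁ * C₀ * 2 ^ s + 1), by positivity, fun η hη0 hη1 ε R hε hR f hf => ?_⟩
  have m0 : ∀ j, 0 < mx η (em i) j := fun j => mix_pos hη0 hη1 (em_nonneg i j)
  have mD : ∀ j, mx η (em i) j ≤ DD i j := by
    intro j
    unfold mx em DD
    split_ifs <;> linarith
  obtain ⟨n, hn1, hn2, hn3⟩ := scalesW hε hR
  have hn0 : (0 : ℝ) ≤ ((n + 1 : ℕ) : ℝ) := Nat.cast_nonneg _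
  have hN := HN (mx η (em i)) m0 mD (mx_sum (em_sum hi) η) (n + 1) _
    (by positivity) (HQ (n + 1))
  have hL : 1 ≤ 1 + Real.log (R / ε) := by
    have : 0 ≤ Real.log (R / ε) := Real.log_nonneg ((one_le_div hε).2 hR.le)
    linarith
  have h1 := hK (n + 1) _ (mx η (em i)) (by positivity) m0 (mx_sum (em_sum hi) η) hN f hf ε R hε hR
    (by rw [pow_succ]; linarith)
  refine h1.trans ?_
  refine mul_le_mul_of_nonneg_right ?_
    (Finset.prod_nonneg fun i _ => Real.rpow_nonneg (NN_nonneg _ _) _)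
  rw [mul_assoc]
  refine mul_le_mul_of_nonneg_left ?_ hK0
  have h2 : (1 + ((n + 1 : ℕ) : ℝ)) ^ s ≤ 2 ^ s * (1 + Real.log (R / ε)) ^ s := by
    rw [← Real.mul_rpow (by norm_num) (by linarith)]
    exact Real.rpow_le_rpow (by linarith) hn3 hs.le
  have h3 : 1 ≤ (1 + Real.log (R / ε)) ^ s := Real.one_le_rpow hL hs.le
  have h4 : C₁ * (C₀ * (1 + ((n + 1 : ℕ) : ℝ)) ^ s) ≤
      C₁ * C₀ * 2 ^ s * (1 + Real.log (R / ε)) ^ s := by
    calc C₁ * (C₀ * (1 + ((n + 1 : ℕ) : ℝ)) ^ s) ≤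
        C₁ * (C₀ * (2 ^ s * (1 + Real.log (R / ε)) ^ s)) := by gcongr
      _ = _ := by ring
  linarith

end Vale.Agent.P141.H530.V
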