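import Vale.Agent.P141.H530.V.CplxV

/-!
# P141, exponents `1/2 < r ≤ 1`: the final theorem, all tuples of finite exponents
-/

namespace Vale.Agent.P141.H530.V

open MeasureTheory Filter Topology
open scoped ENNReal NNReal SchwartzMap
open Vale.Agent.P141 (truncTHT IsHolderTuple)
open Vale.Agent.P141.PL.H620 (LL LL_ge)

noncomputable section

/-- three exponents with sum `2` above given ones -/
theorem three {c1 c2 c3 : ℝ} (h1 : c1 < 1) (h2 : c2 < 1) (h3 : c3 < 1) (hs : c1 + c2 + c3 < 2) :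
    ∃ b1 b2 b3 : ℝ, c1 < b1 ∧ b1 ≤ 1 ∧ c2 < b2 ∧ b2 ≤ 1 ∧ c3 < b3 ∧ b3 ≤ 1 ∧ b1 + b2 + b3 = 2 := by
  set S : ℝ := c1 + c2 + c3 with hS
  have h4 : 0 < 3 - S := by linarith
  set l : ℝ := (2 - S) / (3 - S) with hl
  have l0 : 0 < l := div_pos (by linarith) h4
  have l1 : l ≤ 1 := (div_le_one h4).2 (by linarith)
  have l2 : l * (3 - S) = 2 - S := div_mul_cancel₀ _ h4.ne'
  refine ⟨c1 + l * (1 - c1), c2 + l * (1 - c2), c3 + l * (1 - c3), ?_, ?_, ?_, ?_, ?_, ?_, ?_⟩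
  · nlinarith
  · nlinarith
  · nlinarith
  · nlinarith
  · nlinarith
  · nlinarith
  · have : c1 + l * (1 - c1) + (c2 + l * (1 - c2)) + (c3 + l * (1 - c3)) = S + l * (3 - S) := by
      rw [hS]; ring
    rw [this, l2]
    ring

theorem log_bd (m : ℕ) {κ : ℝ} (hκ : 0 < κ) {x : ℝ} (hx : 1 ≤ x) :
    (1 + Real.log x) ^ m ≤ (1 + 1 / κ) ^ m * x ^ (κ * m) := by
  have h0 : 0 ≤ Real.log x := Real.log_nonneg hx
  have h1 : Real.log x ≤ x ^ κ / κ := Real.log_le_rpow_div (by linarith) hκ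
  have h2 : 1 ≤ x ^ κ := Real.one_le_rpow hx hκ.le
  have h3 : 1 + Real.log x ≤ (1 + 1 / κ) * x ^ κ := by
    have : (1 + 1 / κ) * x ^ κ = x ^ κ + x ^ κ / κ := by ring
    rw [this]
    linarith
  have h4 : x ^ (κ * m) = (x ^ κ) ^ m := by
    rw [Real.rpow_mul (by linarith), Real.rpow_natCast]
  rw [h4, ← mul_pow]
  exact pow_le_pow_left₀ (by linarith) h3 m

/-- the parameter -/
theorem param {a1 a2 a3 s : ℝ} (a1l : a1 < 1) (a2l : a2 < 1) (a3l : a3 < 1)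
    (hS : a1 + a2 + a3 < 2) (hs : 0 < s) (g1 : 2 * a1 - 1 < s)
    (g2 : 2 * a2 - 1 < s) (g3 : 2 * a3 - 1 < s) (g4 : 2 * (a1 + a2 + a3) - 3 < s) :
    ∃ θ d1 d2 d3 : ℝ, 0 < θ ∧ θ < 1 ∧ θ < s ∧ (0 < d1 ∧ d1 ≤ 1 ∧ a1 < (1 - θ) / 2 + θ * d1) ∧
      (0 < d2 ∧ d2 ≤ 1 ∧ a2 < (1 - θ) / 2 + θ * d2) ∧
      (0 < d3 ∧ d3 ≤ 1 ∧ a3 < (1 - θ) / 2 + θ * d3) ∧ d1 + d2 + d3 = 2 := by
  obtain ⟨θ, hθ1, hθ2⟩ := exists_between (show max (max 0 (2 * a1 - 1)) (max (max (2 * a2 - 1)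
      (2 * a3 - 1)) (2 * (a1 + a2 + a3) - 3)) < min s 1 from by
    refine max_lt (max_lt (lt_min hs one_pos) (lt_min g1 (by linarith)))
      (max_lt (max_lt (lt_min g2 (by linarith)) (lt_min g3 (by linarith))) (lt_min g4 (by linarith))))
  have t0 : 0 < θ := ((le_max_left _ _).trans (le_max_left _ _)).trans_lt hθ1
  have t1 : 2 * a1 - 1 < θ := ((le_max_right _ _).trans (le_max_left _ _)).trans_lt hθ1
  have t2 : 2 * a2 - 1 < θ := (((le_max_left _ _).trans (le_max_left _ _)).trans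
    (le_max_right _ _)).trans_lt hθ1
  have t3 : 2 * a3 - 1 < θ := (((le_max_right _ _).trans (le_max_left _ _)).trans
    (le_max_right _ _)).trans_lt hθ1
  have t4 : 2 * (a1 + a2 + a3) - 3 < θ := ((le_max_right _ _).trans (le_max_right _ _)).trans_lt hθ1
  have ts : θ < s := hθ2.trans_le (min_le_left _ _)
  have tl : θ < 1 := hθ2.trans_le (min_le_right _ _)
  set γ : ℝ → ℝ := fun a => (a - (1 - θ) / 2) / θ with hγ
  have γl : ∀ a, 2 * a - 1 < θ → γ a < 1 := by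
    intro a ha
    simp only [hγ]
    rw [div_lt_one t0]
    linarith
  have γs : γ a1 + γ a2 + γ a3 < 2 := by
    simp only [hγ]
    rw [← add_div, ← add_div, div_lt_iff₀ t0]
    linarith
  have hsum : max (γ a1) 0 + max (γ a2) 0 + max (γ a3) 0 < 2 := by
    have l1 := γl a1 t1
    have l2 := γl a2 t2
    have l3 := γl a3 t3
    rcases le_total (γ a1) 0 with u1 | u1 <;> rcases le_total (γ a2) 0 with u2 | u2 <;>
      rcases le_total (γ a3) 0 with u3 | u3 <;> simp only [max_eq_left, max_eq_right, u1, u2, u3] <;>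
      linarith
  obtain ⟨d1, d2, d3, e1, e1', e2, e2', e3, e3', es⟩ := three
    (max_lt (γl a1 t1) one_pos) (max_lt (γl a2 t2) one_pos) (max_lt (γl a3 t3) one_pos) hsum
  have D : ∀ a d, max (γ a) 0 < d → 0 < d ∧ a < (1 - θ) / 2 + θ * d := by
    intro a d h
    refine ⟨(le_max_right _ _).trans_lt h, ?_⟩
    have h5 : γ a < d := (le_max_left _ _).trans_lt h
    simp only [hγ] at h5
    rw [div_lt_iff₀ t0] at h5
    linarith
  obtain ⟨f1, f1'⟩ := D a1 d1 e1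
  obtain ⟨f2, f2'⟩ := D a2 d2 e2
  obtain ⟨f3, f3'⟩ := D a3 d3 e3
  exact ⟨θ, d1, d2, d3, t0, tl, ts, ⟨f1, e1', f1'⟩, ⟨f2, e2', f2'⟩, ⟨f3, e3', f3'⟩, es⟩

/-- the exponent above `2` -/
theorem qexp {θ D1 D2 D3 : ℝ} (t0 : 0 < θ) (tl : θ < 1) (h1 : 0 < D1) (h2 : 0 < D2) (h3 : 0 < D3) :
    ∃ q' : ℝ, 2 < q' ∧ (1 - θ) / 2 - D1 < (1 - θ) / q' ∧ (1 - θ) / 2 - D2 < (1 - θ) / q' ∧
      (1 - θ) / 2 - D3 < (1 - θ) / q' := by
  set η : ℝ := min (min D1 D2) (min D3 (1 / 2)) / 2 with hη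
  have hm : 0 < min (min D1 D2) (min D3 (1 / 2)) :=
    lt_min (lt_min h1 h2) (lt_min h3 (by norm_num))
  have η0 : 0 < η := by positivity
  have m0 : η < min (min D1 D2) (min D3 (1 / 2)) := by linarith
  have m1 : η < D1 := m0.trans_le ((min_le_left _ _).trans (min_le_left _ _))
  have m2 : η < D2 := m0.trans_le ((min_le_left _ _).trans (min_le_right _ _))
  have m3 : η < D3 := m0.trans_le ((min_le_right _ _).trans (min_le_left _ _))
  have m4 : η < 1 / 2 := m0.trans_le ((min_le_right _ _).trans (min_le_right _ _))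
  have e : (1 - θ) / (1 / (1 / 2 - η)) = (1 - θ) * (1 / 2 - η) := by
    rw [div_div_eq_mul_div, div_one]
  have e2 : η * θ > 0 := mul_pos η0 t0
  refine ⟨1 / (1 / 2 - η), ?_, ?_, ?_, ?_⟩
  · rw [lt_div_iff₀ (by linarith)]
    linarith
  · rw [e]; linarith [mul_sub (1 - θ) (1 / 2) η, sub_mul 1 θ η]
  · rw [e]; linarith [mul_sub (1 - θ) (1 / 2) η, sub_mul 1 θ η]
  · rw [e]; linarith [mul_sub (1 - θ) (1 / 2) η, sub_mul 1 θ η]

theorem qone {a p D b : ℝ} (hp : 0 < p) (ha : a = 1 / p) (hD : a < D) (hb : a < b) :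
    ∃ q, 1 < q * D ∧ 1 / b < q ∧ q < p := by
  have ha0 : 0 < a := by rw [ha]; positivity
  have hpa : p = 1 / a := by rw [ha, one_div_one_div]
  have h5 : 1 / D < p := by rw [hpa]; exact one_div_lt_one_div_of_lt ha0 hD
  have h6 : 1 / b < p := by rw [hpa]; exact one_div_lt_one_div_of_lt ha0 hb
  obtain ⟨q, hq1, hq2⟩ := exists_between (max_lt h5 h6)
  refine ⟨q, ?_, (le_max_right _ _).trans_lt hq1, hq2⟩
  have := (le_max_left _ _).trans_lt hq1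
  rwa [div_lt_iff₀ (ha0.trans hD)] at this

/-- the constant -/
theorem rootV_of_param {θ s : ℝ} (t0 : 0 < θ) (tl : θ < 1) (ts : θ < s) {q β : Fin 4 → ℝ} {q' : ℝ}
    (q2 : 2 < q') (hβ0 : ∀ j, 0 < β j) (hβ1 : ∀ j, β j ≤ 1) (hβ : β 1 + β 2 + β 3 = 2)
    (he : ∀ j, j ≠ 0 → 1 < q j * ((1 - θ) / q' + θ * β j)) :
    ∃ C : ℝ, 0 ≤ C ∧ ∀ n : ℕ, 1 ≤ n → RootV q n (C * (1 + (n : ℝ)) ^ s) := by
  obtain ⟨m, HR⟩ := rootS
  obtain ⟨C₀, hC₀, HS⟩ := HR q' q2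
  obtain ⟨C₁, hC₁, HV⟩ := rootV_of_rootS (q' := q') (by linarith) hβ0 hβ1 hβ t0.le tl.le he
  set κ : ℝ := (s - θ) / (m + 1) with hκ
  have hm0 : (0 : ℝ) ≤ m := Nat.cast_nonneg m
  have κ0 : 0 < κ := div_pos (by linarith) (by linarith)
  have κm : κ * m ≤ s - θ := by
    rw [hκ, div_mul_eq_mul_div, div_le_iff₀ (by linarith)]
    nlinarith
  set A : ℝ := C₀ * (1 + 1 / κ) ^ m with hA
  have hA0 : 0 ≤ A := by positivity
  refine ⟨C₁ * (1 + A), by positivity, fun n hn => ?_⟩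
  set x : ℝ := 1 + (n : ℝ) with hx
  have hn0 : (0 : ℝ) ≤ n := Nat.cast_nonneg n
  have hx1 : 1 ≤ x := by rw [hx]; linarith
  have hx0 : 0 < x := by linarith
  set P : ℝ := C₀ * (1 + Real.log x) ^ m with hP
  have hlog : 0 ≤ Real.log x := Real.log_nonneg hx1
  have hP0 : 0 ≤ P := by positivity
  have hV := HV n P hP0 (HS n hn)
  have hxs : 1 ≤ x ^ (s - θ) := Real.one_le_rpow hx1 (by linarith)
  have hP1 : P ≤ A * x ^ (s - θ) := by
    have h5 := log_bd m κ0 hx1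
    have h6 : x ^ (κ * m) ≤ x ^ (s - θ) := Real.rpow_le_rpow_of_exponent_le hx1 κm
    have h7 : (0 : ℝ) ≤ (1 + 1 / κ) ^ m := by positivity
    rw [hP, hA, mul_assoc]
    exact mul_le_mul_of_nonneg_left (h5.trans (mul_le_mul_of_nonneg_left h6 h7)) hC₀
  have hP2 : P ^ (1 - θ) ≤ (1 + A) * x ^ (s - θ) := by
    have h5 : P ^ (1 - θ) ≤ (1 + P) ^ (1 - θ) := Real.rpow_le_rpow hP0 (by linarith) (by linarith)
    have h6 : (1 + P) ^ (1 - θ) ≤ (1 + P) ^ (1 : ℝ) :=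
      Real.rpow_le_rpow_of_exponent_le (by linarith) (by linarith)
    rw [Real.rpow_one] at h6
    linarith
  have hn1 : (n : ℝ) ^ θ ≤ x ^ θ := Real.rpow_le_rpow hn0 (by rw [hx]; linarith) t0.le
  have hfin : C₁ * (P ^ (1 - θ) * (n : ℝ) ^ θ) ≤ C₁ * (1 + A) * x ^ s := by
    have h5 : x ^ s = x ^ (s - θ) * x ^ θ := by
      rw [← Real.rpow_add hx0, sub_add_cancel]
    rw [h5, mul_assoc]
    refine mul_le_mul_of_nonneg_left ?_ hC₁.le
    rw [← mul_assoc]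
    exact mul_le_mul hP2 hn1 (by positivity) (by positivity)
  intro s' f hf hf0 o ho K hK V 𝒩 i1 i2 i3
  exact (hV s' f hf hf0 o ho K hK V 𝒩 i1 i2 i3).trans
    (mul_le_mul_of_nonneg_right hfin (by positivity))

/-- the root estimate at three exponents above `p`, power `s` -/
theorem exists_exps {p1 p2 p3 s : ℝ} (h1 : 1 < p1) (h2 : 1 < p2) (h3 : 1 < p3)
    (hS : 1 / p1 + 1 / p2 + 1 / p3 < 2) (hs : 0 < s) (g1 : 2 * (1 / p1) - 1 < s)
    (g2 : 2 * (1 / p2) - 1 < s) (g3 : 2 * (1 / p3) - 1 < s)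
    (g4 : 2 * (1 / p1 + 1 / p2 + 1 / p3) - 3 < s) :
    ∃ q β p : Fin 4 → ℝ, (∀ j, 0 < β j) ∧ (∀ j, β j ≤ 1) ∧ β 1 + β 2 + β 3 = 2 ∧
      (∀ j, 1 / β j ≤ q j) ∧ (∀ j, q j < p j) ∧ p 1 = p1 ∧ p 2 = p2 ∧ p 3 = p3 ∧
      ∃ C : ℝ, 0 ≤ C ∧ ∀ n : ℕ, 1 ≤ n → RootV q n (C * (1 + (n : ℝ)) ^ s) := by
  have k1 : 0 < p1 := by linarith
  have k2 : 0 < p2 := by linarith
  have k3 : 0 < p3 := by linarith
  have a1p : 0 < 1 / p1 := by positivity
  have a2p : 0 < 1 / p2 := by positivity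
  have a3p : 0 < 1 / p3 := by positivity
  have a1l : 1 / p1 < 1 := (div_lt_one k1).2 h1
  have a2l : 1 / p2 < 1 := (div_lt_one k2).2 h2
  have a3l : 1 / p3 < 1 := (div_lt_one k3).2 h3
  obtain ⟨θ, d1, d2, d3, t0, tl, ts, ⟨f1, e1, f1'⟩, ⟨f2, e2, f2'⟩, ⟨f3, e3, f3'⟩, es⟩ :=
    param a1l a2l a3l hS hs g1 g2 g3 g4
  obtain ⟨b1, b2, b3, v1, v1', v2, v2', v3, v3', vs⟩ := three a1l a2l a3l hS
  obtain ⟨q', q2, w1, w2, w3⟩ := qexp t0 tl (D1 := (1 - θ) / 2 + θ * d1 - 1 / p1)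
    (D2 := (1 - θ) / 2 + θ * d2 - 1 / p2) (D3 := (1 - θ) / 2 + θ * d3 - 1 / p3)
    (by linarith) (by linarith) (by linarith)
  obtain ⟨r1, x1, y1, z1⟩ := qone (D := (1 - θ) / q' + θ * d1) k1 rfl (by linarith) v1
  obtain ⟨r2, x2, y2, z2⟩ := qone (D := (1 - θ) / q' + θ * d2) k2 rfl (by linarith) v2
  obtain ⟨r3, x3, y3, z3⟩ := qone (D := (1 - θ) / q' + θ * d3) k3 rfl (by linarith) v3
  obtain ⟨C, hC, HV⟩ := rootV_of_param t0 tl ts (q := ![2, r1, r2, r3]) (β := ![1, d1, d2, d3]) q2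
    (fun j => by
      fin_cases j
      · exact one_pos
      · exact f1
      · exact f2
      · exact f3)
    (fun j => by
      fin_cases j
      · exact le_rfl
      · exact e1
      · exact e2
      · exact e3) es
    (fun j hj => by
      fin_cases j
      · exact absurd rfl hj
      · exact x1
      · exact x2
      · exact x3)
  refine ⟨![2, r1, r2, r3], ![1, b1, b2, b3], ![3, p1, p2, p3], ?_, ?_, vs, ?_, ?_, rfl, rfl, rfl,
    C, hC, HV⟩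
  · intro j
    fin_cases j
    · exact one_pos
    · exact a1p.trans v1
    · exact a2p.trans v2
    · exact a3p.trans v3
  · intro j
    fin_cases j
    · exact le_rfl
    · exact v1'
    · exact v2'
    · exact v3'
  · intro j
    fin_cases j
    · show (1 : ℝ) / 1 ≤ 2; norm_num
    · exact y1.le
    · exact y2.le
    · exact y3.le
  · intro j
    fin_cases j
    · show (2 : ℝ) < 3; norm_num
    · exact z1
    · exact z2
    · exact z3

end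

end Vale.Agent.P141.H530.V
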