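import Vale.Agent.P141.H530.V.All

/-!
# P141: the double logarithm at every Hölder tuple with `p_i > 2`, `r < 2`
-/

namespace Vale.Agent.P141.H530.V

open MeasureTheory Set Filter Topology
open scoped ENNReal SchwartzMap
open Vale.Agent.P141 Vale.Agent.P141.PL.H620

theorem up_pow {C L : ℝ} (hL : 1 ≤ L) {a b : ℕ} (hab : a ≤ b) : C * L ^ a ≤ |C| * L ^ b := by
  have h1 : L ^ a ≤ L ^ b := pow_le_pow_right₀ hL hab
  have h2 : 0 ≤ L ^ a := by positivity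
  calc C * L ^ a ≤ |C| * L ^ a := mul_le_mul_of_nonneg_right (le_abs_self C) h2
    _ ≤ |C| * L ^ b := mul_le_mul_of_nonneg_left h1 (abs_nonneg C)

/-- **double logarithm at every Hölder tuple with `p_i > 2`, `r < 2`** -/
theorem double_log_all : ∃ m : ℕ, ∀ p₁ p₂ p₃ r : ℝ≥0∞, IsHolderTuple p₁ p₂ p₃ r →
    2 < p₁ → 2 < p₂ → 2 < p₃ → r < 2 →
    ∃ C : ℝ, ∀ f₁ f₂ f₃ : 𝓢(ℝ, ℂ), ∀ ε R : ℝ, 0 < ε → ε < R →
      eLpNorm (truncTHT f₁ f₂ f₃ ε R) r volume ≤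
        ENNReal.ofReal (C * (1 + Real.log (2 + Real.log (R / ε))) ^ m) *
          eLpNorm f₁ p₁ volume * eLpNorm f₂ p₂ volume * eLpNorm f₃ p₃ volume := by
  obtain ⟨m1, HU⟩ := hypU
  obtain ⟨m2, H2⟩ := double_log_le_one
  refine ⟨max m1 m2, fun p₁ p₂ p₃ r h h1 h2 h3 hr => ?_⟩
  rcases le_total r 1 with hr1 | hr1
  · obtain ⟨C, hC⟩ := H2 p₁ p₂ p₃ r h h1 h2 h3 hr1
    refine ⟨|C|, fun f₁ f₂ f₃ ε R hε hR => (hC f₁ f₂ f₃ ε R hε hR).trans ?_⟩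
    refine mul_le_mul_left (mul_le_mul_left (mul_le_mul_left (ENNReal.ofReal_le_ofReal ?_) _) _) _
    exact up_pow (L := 1 + Real.log (2 + Real.log (R / ε))) (LL_ge hε hR) (le_max_right _ _)
  · obtain ⟨C, hC⟩ := trunc_closed HU h h1 h2 h3 hr1 hr
    refine ⟨|C|, fun f₁ f₂ f₃ ε R hε hR => (hC f₁ f₂ f₃ ε R hε hR).trans ?_⟩
    refine mul_le_mul_left (mul_le_mul_left (mul_le_mul_left (ENNReal.ofReal_le_ofReal ?_) _) _) _
    exact up_pow (L := 1 + Real.log (2 + Real.log (R / ε))) (LL_ge hε hR) (le_max_left _ _)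

end Vale.Agent.P141.H530.V
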