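import Vale.Agent.P141.H530.V.CosetV
import Vale.Agent.P141.H530.Level
import Vale.Agent.P141.H530.LemQ

/-!
# P141, exponents `r < 1`: the region operators of the level sets, exponent `q`
-/

namespace Vale.Agent.P141.H530.V

open Finset MeasureTheory
open scoped ENNReal
open Vale.Agent.P141.PL.H620 (HH sg pts uu mo)

noncomputable section

/-- the region of a level -/
def RlV (q : Fin 4 → ℝ) (G : Fin 4 → ℝ → ℝ) (h : ℝ) (l : ℤ × ℤ × ℤ) (k : ℕ) (X : ℝ) : Prop :=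
  ∀ j, j ≠ 0 → ENNReal.ofReal (lv l j ^ q j / 2 ^ q j) < Bm (G j) (h * 2 ^ k) X ∧
    Bm (G j) (h * 2 ^ k) X ≤ ENNReal.ofReal (lv l j ^ q j)

/-- the set of a level -/
def DlV (q : Fin 4 → ℝ) (G : Fin 4 → ℝ → ℝ) (l : ℤ × ℤ × ℤ) : Set ℝ :=
  {x | ∀ j, j ≠ 0 → ENNReal.ofReal (lv l j ^ q j / 2 ^ q j) < MM (G j) x}

/-- `G` dominates the powers `q` of `f` at the scale `H` -/
structure DomV (q : Fin 4 → ℝ) (f G : Fin 4 → ℝ → ℝ) (H : ℝ) : Prop where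
  fm : ∀ j, Measurable (f j)
  fs : ∀ j, ∃ M : ℝ, ∀ x, M < |x| → f j x = 0
  gm : ∀ j, Measurable (G j)
  gi : ∀ j, Integrable (G j)
  g0 : ∀ j x, 0 ≤ G j x
  gb : ∃ b : ℝ, ∀ j x, G j x ≤ b
  gp : ∀ j t X, 0 < t → 0 < Bm (G j) t X
  dom : ∀ j x y, |y - x| ≤ H → |f j x| ^ q j ≤ G j y

section
variable {q : Fin 4 → ℝ} (hq : ∀ j, 0 < q j) {f G : Fin 4 → ℝ → ℝ} {H : ℝ} (hd : DomV q f G H)
include hq hd

theorem win_ofV {h : ℝ} (hh : 0 < h) (hH : h ≤ H) (l : ℤ × ℤ × ℤ) : WinV q f h (lv l) (RlV q G h l) := by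
  intro k X hR j hj
  have ht : 0 < h * 2 ^ k := by positivity
  have h1 : ∀ y : ℤ, h * |f j (X + h * y)| ^ q j ≤ ∫ z in (X + h * y)..(X + h * (y + 1)), G j z := by
    intro y
    have h2 : (∫ _ in (X + h * y)..(X + h * (y + 1)), |f j (X + h * y)| ^ q j) ≤
        ∫ z in (X + h * y)..(X + h * (y + 1)), G j z := by
      refine intervalIntegral.integral_mono_on (by nlinarith) intervalIntegrable_const
        (hd.gi j).intervalIntegrable fun z hz => ?_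
      refine hd.dom j _ _ ?_
      rw [abs_of_nonneg (by linarith [hz.1])]
      nlinarith [hz.2]
    rw [intervalIntegral.integral_const, smul_eq_mul] at h2
    refine le_trans (le_of_eq ?_) h2
    ring
  have h3 := sum_le_sum fun y (_ : y ∈ Ico (-((16 * 2 ^ k : ℕ) : ℤ)) ((16 * 2 ^ k : ℕ) : ℤ)) => h1 y
  rw [sum_int (hd.gi j), ← mul_sum] at h3
  have h4 : mv (G j) (h * 2 ^ k) X ≤ lv l j ^ q j := by
    have h5 := (mv_le_Bm (G j) (h * 2 ^ k) X).trans (hR j hj).2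
    exact (ENNReal.ofReal_le_ofReal_iff (Real.rpow_nonneg (lv_pos l j).le (q j))).1 h5
  have h6 : (∫ z in (X - h * ((16 * 2 ^ k : ℕ) : ℝ))..(X + h * ((16 * 2 ^ k : ℕ) : ℝ)), G j z) =
      32 * (h * 2 ^ k) * mv (G j) (h * 2 ^ k) X := by
    unfold mv
    rw [mul_inv_cancel_left₀ (by positivity)]
    push_cast
    congr 1 <;> ring
  rw [h6] at h3
  have e : Ico (-((16 * 2 ^ k : ℕ) : ℤ)) ((16 * 2 ^ k : ℕ) : ℤ) =
      Ico (-(16 * 2 ^ k) : ℤ) (16 * 2 ^ k) := by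
    push_cast; rfl
  rw [e] at h3
  have h7 : 32 * (h * 2 ^ k) * mv (G j) (h * 2 ^ k) X ≤ 32 * (h * 2 ^ k) * lv l j ^ q j :=
    mul_le_mul_of_nonneg_left h4 (by positivity)
  have h8 := h3.trans h7
  have e5 : (2 : ℝ) ^ (k + 5) = 32 * 2 ^ k := by rw [pow_add]; ring
  rw [e5]
  have e6 : 32 * (h * 2 ^ k) * lv l j ^ q j = h * (32 * 2 ^ k * lv l j ^ q j) := by ring
  rw [e6] at h8
  exact le_of_mul_le_mul_left h8 hh

omit hq hd in
theorem conv_ofV (q : Fin 4 → ℝ) (G : Fin 4 → ℝ → ℝ) (h : ℝ) (l : ℤ × ℤ × ℤ) : Conv h (RlV q G h l) := by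
  intro k k' k'' X X' X'' _ _ h3 h4 h5 h6 hR hR'' j hj
  exact ⟨(hR'' j hj).1.trans_le (Bm_mono (G j) h5 h6), (Bm_mono (G j) h3 h4).trans (hR j hj).2⟩

omit hq in
theorem Rl_measV (h : ℝ) (l : ℤ × ℤ × ℤ) (k : ℕ) : MeasurableSet {X | RlV q G h l k X} := by
  have e : {X | RlV q G h l k X} = ⋂ j : Fin 4, {X | j ≠ 0 →
      ENNReal.ofReal (lv l j ^ q j / 2 ^ q j) < Bm (G j) (h * 2 ^ k) X ∧
        Bm (G j) (h * 2 ^ k) X ≤ ENNReal.ofReal (lv l j ^ q j)} := by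
    ext X
    simp only [RlV, Set.mem_ofPred_eq, Set.mem_iInter]
  rw [e]
  refine MeasurableSet.iInter fun j => ?_
  by_cases hj : j = 0
  · simp [hj]
  · simp only [ne_eq, hj, not_false_eq_true, true_implies]
    exact (measurableSet_lt measurable_const (Bm_meas (hd.gi j) _)).inter
      (measurableSet_le (Bm_meas (hd.gi j) _) measurable_const)

omit hq in
theorem Dl_measV (l : ℤ × ℤ × ℤ) : MeasurableSet (DlV q G l) := by
  have e : DlV q G l = ⋂ j : Fin 4, {x | j ≠ 0 → ENNReal.ofReal (lv l j ^ q j / 2 ^ q j) < MM (G j) x} := by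
    ext X
    simp only [DlV, Set.mem_ofPred_eq, Set.mem_iInter]
  rw [e]
  refine MeasurableSet.iInter fun j => ?_
  by_cases hj : j = 0
  · simp [hj]
  · simp only [ne_eq, hj, not_false_eq_true, true_implies]
    exact measurableSet_lt measurable_const (MM_meas (hd.gi j))

omit hq in
theorem Dl_finV (l : ℤ × ℤ × ℤ) : volume (DlV q G l) ≠ ∞ := by
  have h1 : DlV q G l ⊆ {x | ENNReal.ofReal (lv l 1 ^ q 1 / 2 ^ q 1) < MM (G 1) x} := fun x hx =>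
    hx 1 (by decide)
  have h2 := weak (hd.gi 1) (hd.g0 1) (l := lv l 1 ^ q 1 / 2 ^ q 1) (by have := lv_pos l 1; positivity)
  refine ((measure_mono h1).trans_lt (h2.trans_lt ?_)).ne
  refine ENNReal.mul_lt_top ENNReal.ofReal_lt_top ?_
  have h3 := (hd.gi 1).2
  rw [hasFiniteIntegral_iff_ofReal (ae_of_all _ (hd.g0 1))] at h3
  exact h3

theorem labelsV {h : ℝ} (hh : 0 < h) : ∃ L : ℕ → ℝ → ℤ × ℤ × ℤ, ∀ k X l,
    RlV q G h l k X ↔ l = L k X := by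
  obtain ⟨b, hb⟩ := hd.gb
  have hfin : ∀ j t X, 0 < t → Bm (G j) t X ≠ ∞ := fun j t X ht =>
    ((Bm_le_MM (G j) ht le_rfl (by linarith)).trans_lt
      ((MM_le (hd.gi j) (hb j) X).trans_lt ENNReal.ofReal_lt_top)).ne
  have hex : ∀ j k X, ∃ m : ℤ, ((2 : ℝ) ^ m) ^ q j / 2 ^ q j < (Bm (G j) (h * 2 ^ k) X).toReal ∧
      (Bm (G j) (h * 2 ^ k) X).toReal ≤ ((2 : ℝ) ^ m) ^ q j := fun j k X =>
    exists_sizeQ (hq j) (ENNReal.toReal_pos (hd.gp j _ X (by positivity)).ne'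
      (hfin j _ X (by positivity)))
  choose m hm1 hm2 using hex
  refine ⟨fun k X => (m 1 k X, m 2 k X, m 3 k X), fun k X l => ?_⟩
  have key : ∀ (j : Fin 4) (n : ℤ), (ENNReal.ofReal (((2 : ℝ) ^ n) ^ q j / 2 ^ q j) <
      Bm (G j) (h * 2 ^ k) X ∧ Bm (G j) (h * 2 ^ k) X ≤ ENNReal.ofReal (((2 : ℝ) ^ n) ^ q j)) ↔
      n = m j k X := by
    intro j n
    have hf := hfin j (h * 2 ^ k) X (by positivity)
    rw [ENNReal.ofReal_lt_iff_lt_toReal (by positivity) hf, ENNReal.le_ofReal_iff_toReal_le hf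
      (by positivity)]
    constructor
    · rintro ⟨h1, h2⟩
      exact size_uniqueQ (hq j) h1 h2 (hm1 j k X) (hm2 j k X)
    · rintro rfl
      exact ⟨hm1 j k X, hm2 j k X⟩
  have h1 : RlV q G h l k X ↔ (l.1 = m 1 k X ∧ l.2.1 = m 2 k X ∧ l.2.2 = m 3 k X) := by
    constructor
    · intro hR
      exact ⟨(key 1 _).1 (hR 1 (by decide)), (key 2 _).1 (hR 2 (by decide)),
        (key 3 _).1 (hR 3 (by decide))⟩
    · rintro ⟨h1, h2, h3⟩ j hj
      fin_cases j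
      · exact absurd rfl hj
      · exact (key 1 _).2 h1
      · exact (key 2 _).2 h2
      · exact (key 3 _).2 h3
  rw [h1]
  constructor
  · rintro ⟨h1, h2, h3⟩
    exact Prod.ext h1 (Prod.ext h2 h3)
  · intro h
    rw [h]
    exact ⟨rfl, rfl, rfl⟩

end

theorem supp_ofV (q : Fin 4 → ℝ) (f G : Fin 4 → ℝ → ℝ) (o : ℤ) {h : ℝ} (hh : 0 < h) (k0 K : ℕ) (l : ℤ × ℤ × ℤ)
    [∀ k X, Decidable (RlV q G h l k X)] {x : ℝ} (hx : Fop f o h k0 K (RlV q G h l) x ≠ 0) :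
    x ∈ DlV q G l := by
  obtain ⟨k, -, hk⟩ := exists_ne_zero_of_sum_ne_zero hx
  unfold Sk at hk
  obtain ⟨y, hy, hy2⟩ := exists_ne_zero_of_sum_ne_zero (right_ne_zero_of_mul hk)
  have hR : RlV q G h l k (x - h * (mo y : ℤ)) := by
    by_contra hc
    rw [if_neg hc, mul_zero] at hy2
    exact hy2 rfl
  obtain ⟨h1, h2⟩ := mo_bd hy
  have h1' : (0 : ℝ) ≤ mo y := by exact_mod_cast h1
  have h2' : ((mo y : ℤ) : ℝ) ≤ 6 * 2 ^ k := by exact_mod_cast h2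
  have h3 := mul_le_mul_of_nonneg_left h2' hh.le
  have h4 := mul_nonneg hh.le h1'
  intro j hj
  refine (hR j hj).1.trans_le (Bm_le_MM (G j) (by positivity) (by linarith) ?_)
  linarith

theorem FF_splitV {ι : Type*} {q : Fin 4 → ℝ} (hq : ∀ j, 0 < q j) {f G : Fin 4 → ℝ → ℝ} {H : ℝ} (hd : DomV q f G H) (o : ℤ) (I : Finset ι)
    (c hm : ι → ℝ) (hh : ∀ i ∈ I, 0 < hm i) (k0 K : ℕ) (x : ℝ) :
    ∃ A : Finset (ℤ × ℤ × ℤ), FF f o I c hm k0 K (fun _ _ _ => True) x =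
      ∑ l ∈ A, FF f o I c hm k0 K (fun i => RlV q G (hm i) l) x := by
  classical
  have hL : ∀ i, ∃ L : ℕ → ℝ → ℤ × ℤ × ℤ, i ∈ I → ∀ k X l, RlV q G (hm i) l k X ↔ l = L k X := by
    intro i
    by_cases hi : i ∈ I
    · obtain ⟨L, hL⟩ := labelsV hq hd (hh i hi)
      exact ⟨L, fun _ => hL⟩
    · exact ⟨fun _ _ => 0, fun h => absurd h hi⟩
  choose L hL using hL
  set A : Finset (ℤ × ℤ × ℤ) := I.biUnion fun i => (Icc k0 K).biUnion fun k =>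
    (pts k).image fun y => L i k (x - hm i * (mo y : ℤ)) with hA
  refine ⟨A, ?_⟩
  unfold FF
  rw [sum_comm]
  refine sum_congr rfl fun i hi => ?_
  rw [← mul_sum]
  congr 1
  unfold Fop
  rw [sum_comm]
  refine sum_congr rfl fun k hk => ?_
  unfold Sk
  rw [← mul_sum]
  congr 1
  rw [sum_comm]
  refine sum_congr rfl fun y hy => ?_
  rw [← mul_sum]
  congr 1
  rw [if_pos trivial]
  have h1 : L i k (x - hm i * (mo y : ℤ)) ∈ A :=
    mem_biUnion.2 ⟨i, hi, mem_biUnion.2 ⟨k, hk, mem_image.2 ⟨y, hy, rfl⟩⟩⟩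
  rw [sum_eq_single_of_mem _ h1 fun l _ hl => if_neg fun h => hl ((hL i hi k _ l).1 h)]
  rw [if_pos ((hL i hi k _ _).2 rfl)]

end

end Vale.Agent.P141.H530.V
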