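import Vale.Agent.P141.H530.V.Root4b
import Vale.Agent.P141.PL.H620.UnifNode

/-!
# P141, two infinite exponents: the density step, one exponent for each function
-/

namespace Vale.Agent.P141.H530.V

open Finset Vale.Agent.P141.PL Vale.Agent.P141.PL.H620 Vale.Agent.P141.PL.H571
open scoped ENNReal SchwartzMap

theorem tops_unifV {ι : Type*} [Fintype ι] {q D : ι → ℝ} (hq : ∀ j, 0 < q j)
    (hD : ∀ j, D j * q j < 1) :
    ∃ C : ℝ, 0 < C ∧ ∀ d : ι → ℝ, (∀ j, 0 < d j) → (∀ j, d j ≤ D j) → ∑ j, d j = 1 →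
      ∀ (f : ι → ℤ → ℝ), (∀ j, (f j).support.Finite) → ∀ (n : ℕ) (w : ℕ → ℤ → ℝ)
      (P : ℝ), 0 ≤ P →
      (∀ k v, k ≤ n → (∃ j, RM (q j) (f j) n k v ≤ 0) → w k v = 0) →
      (∀ K ≤ n, ∀ V : ℤ, ∀ a : ι → ℝ, (∀ j, 0 < a j) → ∀ 𝒩 : Finset (ℕ × ℤ),
        (∀ N ∈ 𝒩, N.1 ≤ K ∧ N.2 / 2 ^ (K - N.1) = V ∧ ∀ j, RM (q j) (f j) n N.1 N.2 ≤ a j) →
        ∑ N ∈ 𝒩, w N.1 N.2 ≤ P * 2 ^ K * ∏ j, a j) →
      ∀ 𝒮 : Finset (ℕ × ℤ), (∀ N ∈ 𝒮, N.1 ≤ n) →
        ∑ N ∈ 𝒮, w N.1 N.2 ≤ C * P * ∏ j, (∑' x, |f j x| ^ (1 / d j)) ^ d j := by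
  have hD1 : ∀ j, 0 < 1 - D j * q j := fun j => by linarith [hD j]
  set K : ι → ℝ := fun j => 4 ^ (1 / q j) * (2 ^ (1 / q j) *
    (2 * (1 / (1 - D j * q j)) ^ (1 / q j))) with hK
  have hK0 : ∀ j, 0 < K j := fun j => by
    have h0 := hD1 j
    have : (0 : ℝ) < (1 / (1 - D j * q j)) ^ (1 / q j) := Real.rpow_pos_of_pos (by positivity) _
    simp only [hK]
    positivity
  have hKp : 0 < ∏ j, K j := prod_pos fun j _ => hK0 j
  refine ⟨2 * 2 ^ Fintype.card ι * ∏ j, K j, by positivity, ?_⟩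
  intro d hd hdD hd1 f hf n w P hP hw0 hroot 𝒮 h𝒮
  have hdq : ∀ j, d j * q j < 1 := fun j =>
    (mul_le_mul_of_nonneg_right (hdD j) (hq j).le).trans_lt (hD j)
  have hp : ∀ j, q j < 1 / d j := fun j => by
    rw [lt_div_iff₀ (hd j)]
    linarith [hdq j]
  set C : ι → ℝ := fun j => 4 ^ (1 / d j / q j) * (2 ^ (1 / d j / q j) *
    (2 * ((1 / d j / q j) / (1 / d j / q j - 1)) ^ (1 / d j / q j))) with hCdef
  have hr1 : ∀ j, 1 < 1 / d j / q j := fun j => (one_lt_div (hq j)).2 (hp j)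
  have hC0 : ∀ j, 0 < C j := fun j => by
    have h1 := hr1 j
    have h2 : (0 : ℝ) < ((1 / d j / q j) / (1 / d j / q j - 1)) ^ (1 / d j / q j) :=
      Real.rpow_pos_of_pos (div_pos (by linarith) (by linarith)) _
    simp only [hCdef]
    positivity
  have hC := fun j (f : ℤ → ℝ) (hf : f.support.Finite) (n : ℕ) (X : Finset ℤ) =>
    hl_unif (hq j) (hp j) f hf n X
  have hCK : ∀ j, C j ^ d j ≤ K j := by
    intro j
    have h1 := hr1 j
    have hdj := hd j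
    have hqj := hq j
    have e1 : 1 / d j / q j * d j = 1 / q j := by field_simp
    have h3 : (0 : ℝ) < (1 / d j / q j) / (1 / d j / q j - 1) :=
      div_pos (by linarith) (by linarith)
    have e2 : (1 / d j / q j) / (1 / d j / q j - 1) = 1 / (1 - d j * q j) := by
      have h4 : (1 : ℝ) - d j * q j ≠ 0 := by linarith [hdq j]
      have h5 : 1 / d j / q j - 1 ≠ 0 := by linarith
      have h6 : 1 / d j / q j - 1 = (1 - d j * q j) / (d j * q j) := by field_simp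
      rw [h6]
      field_simp
    simp only [hCdef]
    rw [Real.mul_rpow (by positivity) (by positivity), Real.mul_rpow (by positivity) (by positivity),
      Real.mul_rpow (by norm_num) (Real.rpow_nonneg h3.le _), ← Real.rpow_mul (by norm_num),
      ← Real.rpow_mul (by norm_num), ← Real.rpow_mul h3.le, e1, e2]
    simp only [hK]
    have h7 : (2 : ℝ) ^ d j ≤ 2 := by
      have h8 : d j ≤ 1 := by
        rw [← hd1]
        exact single_le_sum (fun i _ => (hd i).le) (mem_univ j)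
      calc (2 : ℝ) ^ d j ≤ 2 ^ (1 : ℝ) := Real.rpow_le_rpow_of_exponent_le (by norm_num) h8
        _ = 2 := Real.rpow_one 2
    have h9 : (1 / (1 - d j * q j)) ^ (1 / q j) ≤ (1 / (1 - D j * q j)) ^ (1 / q j) := by
      refine Real.rpow_le_rpow (by have := hdq j; exact div_nonneg zero_le_one (by linarith)) ?_
        (by positivity)
      refine one_div_le_one_div_of_le (hD1 j) ?_
      have := mul_le_mul_of_nonneg_right (hdD j) hqj.le
      linarith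
    have h10 : (0 : ℝ) ≤ (1 / (1 - d j * q j)) ^ (1 / q j) :=
      Real.rpow_nonneg (div_nonneg zero_le_one (by linarith [hdq j])) _
    gcongr
  obtain ⟨X, hX⟩ := stop_abs n (fun j k v => RM (q j) (f j) n k v)
    (fun j k k' v h1 _ => RM_mono (hq j) (f j) h1 v) w P hP hw0 hroot 𝒮 h𝒮
  refine hX.trans ?_
  have h1 := holder_fin X (fun j x => RM (q j) (f j) n 0 x) (fun j x => RM_nonneg _ _ _ _ _) d hd hd1
  have h2 : ∏ j, (∑ x ∈ X, RM (q j) (f j) n 0 x ^ (1 / d j)) ^ d j ≤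
      ∏ j, (C j ^ d j * (∑' x, |f j x| ^ (1 / d j)) ^ d j) := by
    refine prod_le_prod (fun j _ => Real.rpow_nonneg
      (sum_nonneg fun x _ => Real.rpow_nonneg (RM_nonneg _ _ _ _ _) _) _) fun j _ => ?_
    rw [← Real.mul_rpow (hC0 j).le (tsum_nonneg fun x => Real.rpow_nonneg (abs_nonneg _) _)]
    exact Real.rpow_le_rpow (sum_nonneg fun x _ => Real.rpow_nonneg (RM_nonneg _ _ _ _ _) _)
      (hC j (f j) (hf j) n X) (hd j).le
  rw [prod_mul_distrib] at h2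
  have hprod : ∏ j, C j ^ d j ≤ ∏ j, K j :=
    prod_le_prod (fun j _ => Real.rpow_nonneg (hC0 j).le _) fun j _ => hCK j
  have hnn : 0 ≤ ∏ j, (∑' x, |f j x| ^ (1 / d j)) ^ d j :=
    prod_nonneg fun j _ => Real.rpow_nonneg (tsum_nonneg fun x =>
      Real.rpow_nonneg (abs_nonneg _) _) _
  calc P * (2 * 2 ^ Fintype.card ι) * ∑ x ∈ X, ∏ j, RM (q j) (f j) n 0 x
      ≤ P * (2 * 2 ^ Fintype.card ι) * ((∏ j, C j ^ d j) *
        ∏ j, (∑' x, |f j x| ^ (1 / d j)) ^ d j) :=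
        mul_le_mul_of_nonneg_left (h1.trans h2) (by positivity)
    _ ≤ P * (2 * 2 ^ Fintype.card ι) * ((∏ j, K j) *
        ∏ j, (∑' x, |f j x| ^ (1 / d j)) ^ d j) := by
        refine mul_le_mul_of_nonneg_left ?_ (by positivity)
        exact mul_le_mul_of_nonneg_right hprod hnn
    _ = (2 * 2 ^ Fintype.card ι * ∏ j, K j) * P *
        ∏ j, (∑' x, |f j x| ^ (1 / d j)) ^ d j := by
        ring

/-- **The density step without any loss in the number of scales.** -/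
theorem node_of_rootQV {q D : Fin 4 → ℝ} (hq0 : ∀ j, 0 < q j) (hD : ∀ j, D j * q j < 1) :
    ∃ C : ℝ, 0 < C ∧ ∀ d : Fin 4 → ℝ, (∀ j, 0 < d j) → (∀ j, d j ≤ D j) → ∑ j, d j = 1 →
      ∀ (n : ℕ) (P : ℝ), 0 ≤ P → RootQV q n P → Node n (C * P) d := by
  classical
  obtain ⟨C, hC, htops⟩ := tops_unifV (ι := Fin 4) hq0 hD
  refine ⟨C, hC, ?_⟩
  intro d hd hdD hd1 n P hP hroot f hf o ho V
  set w : ℕ → ℤ → ℝ := fun k v =>
    if 1 ≤ k then ((4 : ℝ) ^ k)⁻¹ * |loc1 k (nn o v 0 0) f| else 0 with hw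
  -- vanishing
  have hw0 : ∀ k v, k ≤ n → (∃ j, RM (q j) (f j) n k v ≤ 0) → w k v = 0 := by
    rintro k v hk ⟨j, hj⟩
    have h1 := av_le_RM (hq0 j) (f j) (le_refl k) hk v
    rw [Nat.sub_self, pow_zero, Int.ediv_one, le_antisymm hj (RM_nonneg _ _ _ _ _),
      Real.zero_rpow (hq0 j).ne'] at h1
    have h2 : ∑ y ∈ W k v, |f j y| ^ q j ≤ 0 := by
      rw [H571.av, div_le_iff₀ (by positivity), zero_mul] at h1
      exact h1
    have h3 : ∀ y ∈ W k v, |f j y| = 0 := by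
      intro y hy
      have h4 := (sum_eq_zero_iff_of_nonneg fun z _ => Real.rpow_nonneg (abs_nonneg (f j z)) (q j)).1
        (le_antisymm h2 (sum_nonneg fun z _ => Real.rpow_nonneg (abs_nonneg _) _)) y hy
      exact (Real.rpow_eq_zero (abs_nonneg _) (hq0 j).ne').1 h4
    have h5 : ∑ y ∈ W k v, |f j y| ^ 2 = 0 :=
      sum_eq_zero fun y hy => by rw [h3 y hy]; norm_num
    have h6 := abs_loc1_le (k := k) (v := v) ho f
    rw [prod_eq_zero (mem_univ j) (by rw [h5, Real.sqrt_zero]), mul_zero] at h6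
    simp only [hw]
    split_ifs
    · rw [le_antisymm h6 (abs_nonneg _), mul_zero]
    · rfl
  -- the root estimate
  have hR : ∀ K ≤ n, ∀ V : ℤ, ∀ a : Fin 4 → ℝ, (∀ j, 0 < a j) → ∀ 𝒩 : Finset (ℕ × ℤ),
      (∀ N ∈ 𝒩, N.1 ≤ K ∧ N.2 / 2 ^ (K - N.1) = V ∧ ∀ j, RM (q j) (f j) n N.1 N.2 ≤ a j) →
      ∑ N ∈ 𝒩, w N.1 N.2 ≤ P * 2 ^ K * ∏ j, a j := by
    intro K hK V a ha 𝒩 h𝒩
    set g : Fin 4 → ℤ → ℝ := fun j x => (a j)⁻¹ * f j x with hg
    -- the closure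
    set 𝒩' : Finset (ℕ × ℤ) := ((Icc 1 K).biUnion fun k =>
      (Ico (2 ^ (K - k) * V) (2 ^ (K - k) * (V + 1))).image fun v => (k, v)).filter
        fun N => ∀ j, RM (q j) (f j) n N.1 N.2 ≤ a j with h𝒩'
    have hmem : ∀ N : ℕ × ℤ, N ∈ 𝒩' ↔ (1 ≤ N.1 ∧ N.1 ≤ K ∧ N.2 / 2 ^ (K - N.1) = V) ∧
        ∀ j, RM (q j) (f j) n N.1 N.2 ≤ a j := by
      rintro ⟨k, v⟩
      rw [h𝒩', mem_filter, mem_biUnion]
      constructor
      · rintro ⟨⟨k', hk', hv'⟩, h2⟩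
        obtain ⟨v', hv'', hkv⟩ := mem_image.1 hv'
        rw [Prod.mk.injEq] at hkv
        obtain ⟨rfl, rfl⟩ := hkv
        rw [mem_cell] at hv''
        rw [mem_Icc] at hk'
        exact ⟨⟨hk'.1, hk'.2, hv''⟩, h2⟩
      · rintro ⟨⟨h1, h2, h3⟩, h4⟩
        exact ⟨⟨k, mem_Icc.2 ⟨h1, h2⟩, mem_image.2 ⟨v, mem_cell.2 h3, rfl⟩⟩, h4⟩
    -- averages of g
    have hgq : ∀ N ∈ 𝒩', ∀ j, ∑ y ∈ W N.1 N.2, |g j y| ^ q j ≤ 2 ^ (N.1 + 5) := by
      intro N hN j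
      obtain ⟨⟨_, hNK, _⟩, hN2⟩ := (hmem N).1 hN
      have h1 := av_le_RM (hq0 j) (f j) (le_refl N.1) (hNK.trans hK) N.2
      rw [Nat.sub_self, pow_zero, Int.ediv_one] at h1
      have h2 : RM (q j) (f j) n N.1 N.2 ^ q j ≤ a j ^ q j :=
        Real.rpow_le_rpow (RM_nonneg _ _ _ _ _) (hN2 j) (hq0 j).le
      have h3 := h1.trans h2
      rw [H571.av, div_le_iff₀ (by positivity)] at h3
      have h4 : ∑ y ∈ W N.1 N.2, |g j y| ^ q j = ((a j)⁻¹) ^ q j * ∑ y ∈ W N.1 N.2, |f j y| ^ q j := by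
        rw [mul_sum]
        refine sum_congr rfl fun y _ => ?_
        simp only [hg]
        rw [abs_mul, abs_of_pos (inv_pos.2 (ha j)),
          Real.mul_rpow (inv_pos.2 (ha j)).le (abs_nonneg _)]
      rw [h4]
      refine (mul_le_mul_of_nonneg_left h3 (Real.rpow_nonneg (inv_pos.2 (ha j)).le _)).trans
        (le_of_eq ?_)
      rw [← mul_assoc, ← Real.mul_rpow (inv_pos.2 (ha j)).le (ha j).le,
        inv_mul_cancel₀ (ha j).ne', Real.one_rpow, one_mul]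
    -- the main term
    have htot : ∑ N ∈ 𝒩', ((4 : ℝ) ^ N.1)⁻¹ * |loc1 N.1 (nn o N.2 0 0) g| ≤ P * 2 ^ K := by
      refine hroot g ?_ o ho K hK V 𝒩' ?_ ?_ hgq
      · intro j
        refine (hf j).subset fun x hx => ?_
        simp only [Function.mem_support] at hx ⊢
        intro h0
        apply hx
        simp only [hg, h0, mul_zero]
      · intro N hN
        exact ((hmem N).1 hN).1
      · intro N hN k' h1 h2
        obtain ⟨⟨h3, h4, h5⟩, h6⟩ := (hmem N).1 hN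
        rw [hmem]
        refine ⟨⟨h3.trans h1, h2, ?_⟩, fun j => (RM_mono (hq0 j) (f j) h1 N.2).trans (h6 j)⟩
        simp only
        rw [← ediv_pow_add, ← h5]
        congr 2
        omega
    -- back to f
    have hfg : ∀ k v, |loc1 k (nn o v 0 0) f| = (∏ j, a j) * |loc1 k (nn o v 0 0) g| := by
      intro k v
      have h1 : loc1 k (nn o v 0 0) f = loc1 k (nn o v 0 0) (fun j x => a j * g j x) := by
        congr 1
        funext j x
        simp only [hg]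
        rw [mul_inv_cancel_left₀ (ha j).ne']
      rw [h1, loc1_smul, abs_mul, abs_of_pos (prod_pos fun j _ => ha j)]
    have hlast : ∑ N ∈ 𝒩, w N.1 N.2 ≤ ∑ N ∈ 𝒩', w N.1 N.2 := by
      have h1 : ∑ N ∈ 𝒩, w N.1 N.2 = ∑ N ∈ 𝒩.filter (fun N => 1 ≤ N.1), w N.1 N.2 := by
        rw [sum_filter]
        refine sum_congr rfl fun N _ => ?_
        simp only [hw]
        split_ifs <;> rfl
      rw [h1]
      refine sum_le_sum_of_subset_of_nonneg ?_ fun N _ _ => ?_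
      · intro N hN
        rw [mem_filter] at hN
        obtain ⟨h2, h3, h4⟩ := h𝒩 N hN.1
        exact (hmem N).2 ⟨⟨hN.2, h2, h3⟩, h4⟩
      · simp only [hw]
        split_ifs
        · positivity
        · exact le_rfl
    refine hlast.trans ?_
    have h2 : ∑ N ∈ 𝒩', w N.1 N.2 =
        (∏ j, a j) * ∑ N ∈ 𝒩', ((4 : ℝ) ^ N.1)⁻¹ * |loc1 N.1 (nn o N.2 0 0) g| := by
      rw [mul_sum]
      refine sum_congr rfl fun N hN => ?_
      simp only [hw]
      rw [if_pos ((hmem N).1 hN).1.1, hfg]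
      ring
    rw [h2, mul_comm]
    exact mul_le_mul_of_nonneg_right htot (prod_nonneg fun j _ => (ha j).le)
  -- conclusion
  have h := htops d hd hdD hd1 f hf n w P hP hw0 hR (Icc 1 n ×ˢ Icc (-(V : ℤ)) V) (by
    intro N hN
    exact (mem_Icc.1 (mem_product.1 hN).1).2)
  rw [sum_product] at h
  have h1 : ∑ k ∈ Icc 1 n, ((4 : ℝ) ^ k)⁻¹ * ∑ v ∈ Icc (-(V : ℤ)) V, |loc1 k (nn o v 0 0) f| =
      ∑ k ∈ Icc 1 n, ∑ v ∈ Icc (-(V : ℤ)) V, w k v := by
    refine sum_congr rfl fun k hk => ?_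
    rw [mul_sum]
    refine sum_congr rfl fun v _ => ?_
    simp only [hw]
    rw [if_pos (mem_Icc.1 hk).1]
  rw [h1]
  exact h


end Vale.Agent.P141.H530.V
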