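import Vale.Agent.P141.H530.V.SingleV
import Vale.Agent.P141.H530.V.LimV
import Vale.Agent.P141.H530.RealD

/-!
# P141, exponents `r < 1`: the bound for real functions, three exponents
-/

namespace Vale.Agent.P141.H530.V

open MeasureTheory Filter Topology
open scoped ENNReal NNReal
open Vale.Agent.P141.PL.H620

noncomputable section

theorem domV_of {f : Fin 4 → ℝ → ℝ} (hf : ∀ j, Continuous (f j)) (hs : ∀ j, HasCompactSupport (f j))
    {q : Fin 4 → ℝ} {δ : ℝ} (hq : ∀ j, 1 ≤ q j) (hδ : 0 < δ) :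
    ∃ H : ℝ, 0 < H ∧ DomV q f (fun j => Gd (q j) δ (f j)) H := by
  have h1 : ∀ j, ∃ H : ℝ, 0 < H ∧ ∀ H' : ℝ, H' ≤ H → ∀ x y : ℝ, |y - x| ≤ H' →
    |f j x| ^ q j ≤ Gd (q j) δ (f j) y := fun j => dom_H (hf j) (hs j) hδ (by linarith [hq j])
  choose H hH hH2 using h1
  set H₀ : ℝ := min (min (H 0) (H 1)) (min (H 2) (H 3)) with hH₀
  have hle : ∀ j, H₀ ≤ H j := by
    intro j
    fin_cases j
    · exact (min_le_left _ _).trans (min_le_left _ _)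
    · exact (min_le_left _ _).trans (min_le_right _ _)
    · exact (min_le_right _ _).trans (min_le_left _ _)
    · exact (min_le_right _ _).trans (min_le_right _ _)
  refine ⟨H₀, ?_, ?_⟩
  · exact lt_min (lt_min (hH 0) (hH 1)) (lt_min (hH 2) (hH 3))
  have hb : ∀ j, ∃ b : ℝ, ∀ x, Gd (q j) δ (f j) x ≤ b := fun j => Gd_bd (hf j) (hs j) (hq j) hδ
  choose b hb using hb
  exact
    { fm := fun j => (hf j).measurable
      fs := fun j => by
        obtain ⟨M, hM⟩ := (hs j).isCompact.isBounded.subset_closedBall (0 : ℝ)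
        refine ⟨M, fun x hx => ?_⟩
        by_contra h
        have h1 := hM (subset_tsupport _ h)
        rw [Metric.mem_closedBall, Real.dist_eq, sub_zero] at h1
        linarith
      gm := fun j => (Gd_cont (hf j) (hq j)).measurable
      gi := fun j => Gd_int (hf j) (hs j) (hq j) hδ
      g0 := fun j x => Real.rpow_nonneg (base_pos hδ x).le _
      gb := ⟨∑ j, |b j|, fun j x => (hb j x).trans ((le_abs_self _).trans
        (Finset.single_le_sum (f := fun j => |b j|) (fun i _ => abs_nonneg _) (Finset.mem_univ j)))⟩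
      gp := fun j t X ht => Gd_bm (hf j) (hs j) (hq j) hδ t X ht
      dom := fun j x y hxy => hH2 j H₀ (hle j) x y hxy }

/-- the truncated integral against the maximal functions -/
theorem TR_MMV {q : Fin 4 → ℝ} {β : Fin 4 → ℝ}
    (hβ0 : ∀ j, 0 < β j) (hβ1 : ∀ j, β j ≤ 1) (hβ : β 1 + β 2 + β 3 = 2)
    (hq : ∀ j, 1 / β j ≤ q j) {f G : Fin 4 → ℝ → ℝ} {H₀ : ℝ} (hH₀ : 0 < H₀)
    (hd : DomV q f G H₀) (hf : ∀ j, Continuous (f j)) {n : ℕ} {P : ℝ} (hP : 0 ≤ P)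
    (H : RootV q (n + 1) P) {ε R : ℝ} (hε : 0 < ε) (h1 : 2 ^ n * ε ≤ R) (h2 : R ≤ 2 * (2 ^ n * ε))
    {r : ℝ} (hr0 : 0 < r) (hr1 : r ≤ 1) :
    ∫⁻ x, ‖TR f ε R x‖ₑ ^ r ≤ (48 * (ENNReal.ofReal (P ^ r) *
      ENNReal.ofReal (2 ^ r / (1 - (2 : ℝ) ^ (-r))) ^ 3) + 432187203) *
      ∫⁻ x, MM (G 1) x ^ (r / q 1) * MM (G 2) x ^ (r / q 2) * MM (G 3) x ^ (r / q 3) := by
  have hwc : ∀ x, Continuous (wx f x) := fun x => by
    unfold wx
    have h1 := hf 1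
    have h2 := hf 2
    have h3 := hf 3
    fun_prop
  have hq0 : ∀ j, 0 < q j := fun j => (one_div_pos.2 (hβ0 j)).trans_le (hq j)
  obtain ⟨m1, b1⟩ := lim_boundV hq0 hH₀ hd hf hP H (Or.inl rfl : (1 : ℤ) = 1 ∨ (1 : ℤ) = -1) hε hr0 hr1
  obtain ⟨m2, b2⟩ := lim_boundV hq0 hH₀ hd hf hP H (Or.inr rfl : (-1 : ℤ) = 1 ∨ (-1 : ℤ) = -1) hε hr0 hr1
  have b3 := singleV hβ0 hβ1 hβ hq hd hH₀.le hf (by positivity : 0 < 3 * ε) hr0 hr1
  have b4 := singleV hβ0 hβ1 hβ hq hd hH₀.le hf (by positivity : 0 < 3 * (2 ^ n * ε)) hr0 hr1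
  have m3 := II_meas hf (by positivity : 0 < 3 * ε)
  have m4 := II_meas hf (by positivity : 0 < 3 * (2 ^ n * ε))
  refine (lintegral_mono fun x => TR_pt' (hwc x) hε h1 h2 hr0 hr1).trans ?_
  have n1 : Measurable fun x => 24 * ‖AvT 1 f ε n x‖ₑ ^ r := (m1.enorm.pow_const _).const_mul _
  have n2 : Measurable fun x => 24 * ‖AvT (-1) f ε n x‖ₑ ^ r := (m2.enorm.pow_const _).const_mul _
  have n3 : Measurable fun x => 90000 * ENNReal.ofReal (II (wx f x) (3 * ε) / (3 * ε)) ^ r :=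
    (m3.pow_const _).const_mul _
  have n12 : Measurable fun x => 24 * ‖AvT 1 f ε n x‖ₑ ^ r + 24 * ‖AvT (-1) f ε n x‖ₑ ^ r :=
    n1.add n2
  have n123 : Measurable fun x => 24 * ‖AvT 1 f ε n x‖ₑ ^ r + 24 * ‖AvT (-1) f ε n x‖ₑ ^ r +
      90000 * ENNReal.ofReal (II (wx f x) (3 * ε) / (3 * ε)) ^ r := n12.add n3
  rw [lintegral_add_left n123, lintegral_add_left n12,
    lintegral_add_left n1, lintegral_const_mul _ (m1.enorm.pow_const _),
    lintegral_const_mul _ (m2.enorm.pow_const _), lintegral_const_mul _ (m3.pow_const _),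
    lintegral_const_mul _ (m4.pow_const _)]
  set N := ∫⁻ x, MM (G 1) x ^ (r / q 1) * MM (G 2) x ^ (r / q 2) * MM (G 3) x ^ (r / q 3) with hN
  set c := ENNReal.ofReal (2 ^ r / (1 - (2 : ℝ) ^ (-r))) with hc
  set p := ENNReal.ofReal (P ^ r) with hp
  calc _ ≤ 24 * (p * (c ^ 3 * N)) + 24 * (p * (c ^ 3 * N)) + 90000 * (2401 * N) +
        90003 * (2401 * N) := by
        gcongr
    _ = (48 * (p * c ^ 3) + 432187203) * N := by ring

/-- Hoelder for the maximal functions -/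
theorem MM_holdV {q1 q2 q3 r p1 p2 p3 : ℝ} (g1 : 0 < q1) (g2 : 0 < q2) (g3 : 0 < q3) (h1 : 0 < p1)
    (h2 : 0 < p2) (h3 : 0 < p3)
    (hr0 : 0 < r) (hr : r / p1 + r / p2 + r / p3 = 1) {M1 M2 M3 : ℝ → ℝ≥0∞} (m1 : Measurable M1)
    (m2 : Measurable M2) (m3 : Measurable M3) :
    ∫⁻ x, M1 x ^ (r / q1) * M2 x ^ (r / q2) * M3 x ^ (r / q3) ≤
      (∫⁻ x, M1 x ^ (p1 / q1)) ^ (r / p1) * (∫⁻ x, M2 x ^ (p2 / q2)) ^ (r / p2) *
        (∫⁻ x, M3 x ^ (p3 / q3)) ^ (r / p3) := by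
  have h := ENNReal.lintegral_prod_norm_pow_le (μ := volume) (Finset.univ : Finset (Fin 3))
    (f := ![fun x => M1 x ^ (p1 / q1), fun x => M2 x ^ (p2 / q2), fun x => M3 x ^ (p3 / q3)])
    (p := ![r / p1, r / p2, r / p3])
    (fun i _ => by
      fin_cases i
      · exact (m1.pow_const _).aemeasurable
      · exact (m2.pow_const _).aemeasurable
      · exact (m3.pow_const _).aemeasurable)
    (by simpa [Fin.sum_univ_three] using hr)
    (fun i _ => by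
      fin_cases i
      · show 0 ≤ r / p1; positivity
      · show 0 ≤ r / p2; positivity
      · show 0 ≤ r / p3; positivity)
  simp only [Fin.prod_univ_three, Matrix.cons_val_zero, Matrix.cons_val_one, Matrix.cons_val] at h
  have e : ∀ (p q : ℝ) (a : ℝ≥0∞), 0 < p → 0 < q → (a ^ (p / q)) ^ (r / p) = a ^ (r / q) := by
    intro p q a hp hq
    rw [← ENNReal.rpow_mul]
    congr 1
    field_simp
  simpa only [e p1 q1 _ h1 g1, e p2 q2 _ h2 g2, e p3 q3 _ h3 g3] using h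

/-- **the bound for real continuous functions with compact support** -/
theorem real_mainV {q β p : Fin 4 → ℝ} {r : ℝ}
    (hβ0 : ∀ j, 0 < β j) (hβ1 : ∀ j, β j ≤ 1) (hβ : β 1 + β 2 + β 3 = 2)
    (hq : ∀ j, 1 / β j ≤ q j) (hqp : ∀ j, q j < p j)
    (hr0 : 0 < r) (hr1 : r ≤ 1) (hr : r / p 1 + r / p 2 + r / p 3 = 1) :
    ∃ C : ℝ≥0∞, C ≠ ∞ ∧ ∀ (n : ℕ) (P : ℝ), 0 ≤ P → RootV q (n + 1) P →
      ∀ f : Fin 4 → ℝ → ℝ, (∀ j, Continuous (f j)) → (∀ j, HasCompactSupport (f j)) →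
      ∀ ε R : ℝ, 0 < ε → 2 ^ n * ε ≤ R → R ≤ 2 * (2 ^ n * ε) →
      ∫⁻ x, ‖TR f ε R x‖ₑ ^ r ≤ C * ENNReal.ofReal ((1 + P) ^ r) *
        (Nm (p 1) (f 1) ^ r * Nm (p 2) (f 2) ^ r * Nm (p 3) (f 3) ^ r) := by
  have hq1 : ∀ j, 1 ≤ q j := fun j => by
    refine le_trans ?_ (hq j)
    rw [le_div_iff₀ (hβ0 j), one_mul]
    exact hβ1 j
  have hq0 : ∀ j, 0 < q j := fun j => by linarith [hq1 j]
  have k : ∀ j, 0 < p j := fun j => (hq0 j).trans (hqp j)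
  have k1 := k 1
  have k2 := k 2
  have k3 := k 3
  set c := ENNReal.ofReal (2 ^ r / (1 - (2 : ℝ) ^ (-r))) with hc
  set cc : Fin 4 → ℝ≥0∞ := fun j =>
    ENNReal.ofReal (p j / q j * (8 * 2 ^ (p j / q j - 1) / (p j / q j - 1))) ^ (r / p j) with hcc
  have fc : ∀ j, cc j ≠ ∞ := fun j => by
    have := k j
    exact ENNReal.rpow_ne_top_of_nonneg (by positivity) ENNReal.ofReal_ne_top
  have f0 : 48 * c ^ 3 + 432187203 ≠ ∞ := by
    refine ENNReal.add_ne_top.2 ⟨ENNReal.mul_ne_top (by norm_num)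
      (ENNReal.pow_ne_top ENNReal.ofReal_ne_top), by norm_num⟩
  have fC : (48 * c ^ 3 + 432187203) * (cc 1 * cc 2 * cc 3) ≠ ∞ :=
    ENNReal.mul_ne_top f0 (ENNReal.mul_ne_top (ENNReal.mul_ne_top (fc 1) (fc 2)) (fc 3))
  refine ⟨(48 * c ^ 3 + 432187203) * (cc 1 * cc 2 * cc 3), fC, ?_⟩
  intro n P hP H f hf hs ε R hε hR1 hR2
  have nf : ∀ (p : ℝ) (j : Fin 4), 0 < p → Nm p (f j) ≠ ∞ := by
    intro p j hp
    rw [Nm_eq hp]
    exact ((hf j).memLp_of_hasCompactSupport (hs j)).eLpNorm_ne_top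
  have hP1 : P ^ r ≤ (1 + P) ^ r := Real.rpow_le_rpow hP (by linarith) hr0.le
  have hP2 : 1 ≤ (1 + P) ^ r := Real.one_le_rpow (by linarith) hr0.le
  have hp1 : ∀ j, 1 ≤ p j := fun j => ((hq1 j).trans (hqp j).le)
  refine lim_delta (r := r) (K1 := Nm (p 1) hw) (K2 := Nm (p 2) hw) (K3 := Nm (p 3) hw)
    (ENNReal.mul_ne_top fC ENNReal.ofReal_ne_top) (nf (p 1) 1 k1) (nf (p 2) 2 k2) (nf (p 3) 3 k3)
    (Nm_hw (hp1 1)) (Nm_hw (hp1 2)) (Nm_hw (hp1 3)) hr0 fun δ hδ => ?_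
  obtain ⟨H₀, hH₀, hd⟩ := domV_of hf hs hq1 hδ
  have b1 := TR_MMV hβ0 hβ1 hβ hq hH₀ hd hf hP H hε hR1 hR2 hr0 hr1
  have b2 := MM_holdV (hq0 1) (hq0 2) (hq0 3) k1 k2 k3 hr0 hr (MM_meas (hd.gi 1)) (MM_meas (hd.gi 2))
    (MM_meas (hd.gi 3))
  have n1 := MM_norm (r := r) (p := p 1) (hq1 1) (hqp 1) hr0 hδ (hf 1) (hs 1)
  have n2 := MM_norm (r := r) (p := p 2) (hq1 2) (hqp 2) hr0 hδ (hf 2) (hs 2)
  have n3 := MM_norm (r := r) (p := p 3) (hq1 3) (hqp 3) hr0 hδ (hf 3) (hs 3)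
  have b3 := b2.trans (mul_le_mul' (mul_le_mul' n1 n2) n3)
  have b0 : 48 * (ENNReal.ofReal (P ^ r) * c ^ 3) + 432187203 ≤
      (48 * c ^ 3 + 432187203) * ENNReal.ofReal ((1 + P) ^ r) := by
    have e1 : ENNReal.ofReal (P ^ r) ≤ ENNReal.ofReal ((1 + P) ^ r) := ENNReal.ofReal_le_ofReal hP1
    have e2 : (1 : ℝ≥0∞) ≤ ENNReal.ofReal ((1 + P) ^ r) := ENNReal.one_le_ofReal.2 hP2
    calc 48 * (ENNReal.ofReal (P ^ r) * c ^ 3) + 432187203
        ≤ 48 * (ENNReal.ofReal ((1 + P) ^ r) * c ^ 3) + 432187203 * ENNReal.ofReal ((1 + P) ^ r) := by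
          refine add_le_add (mul_le_mul_right (mul_le_mul_left e1 _) _) ?_
          calc (432187203 : ℝ≥0∞) = 432187203 * 1 := (mul_one _).symm
            _ ≤ _ := mul_le_mul_right e2 _
      _ = _ := by ring
  refine b1.trans ((mul_le_mul' b0 b3).trans (le_of_eq ?_))
  simp only [hcc]
  ring

end

end Vale.Agent.P141.H530.V
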