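import Vale.Agent.P141.H530.V.RealV

/-!
# P141, exponents `r ≤ 1`: the bound for real functions, exponents `p_j ≤ ∞`
-/

namespace Vale.Agent.P141.H530.V

open MeasureTheory Filter Topology
open scoped ENNReal NNReal
open Vale.Agent.P141.PL.H620

noncomputable section

/-- a continuous function is bounded by its norm -/
theorem sup_le_norm {f : ℝ → ℝ} (hf : Continuous f) (x : ℝ) : ‖f x‖ₑ ≤ eLpNorm f ∞ volume := by
  by_contra h
  push Not at h
  have ho : IsOpen {y : ℝ | eLpNorm f ∞ volume < ‖f y‖ₑ} := isOpen_lt continuous_const hf.enorm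
  have hp := ho.measure_pos volume ⟨x, h⟩
  have h0 : volume {y : ℝ | eLpNorm f ∞ volume < ‖f y‖ₑ} = 0 := by
    have h1 : ∀ᵐ y : ℝ, ‖f y‖ₑ ≤ eLpNorm f ∞ volume := by
      rw [eLpNorm_exponent_top]
      exact enorm_ae_le_eLpNormEssSup f volume
    rw [ae_iff] at h1
    simpa only [not_le] using h1
  exact hp.ne' h0

theorem MM_sup {q δ : ℝ} (hq : 1 ≤ q) (hδ : 0 < δ) {f : ℝ → ℝ} (hf : Continuous f)
    (hs : HasCompactSupport f) (x : ℝ) :
    MM (Gd q δ f) x ≤ (eLpNorm f ∞ volume + ENNReal.ofReal δ * eLpNorm hw ∞ volume) ^ q := by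
  set N : ℝ≥0∞ := eLpNorm f ∞ volume + ENNReal.ofReal δ * eLpNorm hw ∞ volume with hN
  have hq0 : 0 < q := by linarith
  have h1 : ∀ y, ENNReal.ofReal (|f y| + δ * (1 + y ^ 2)⁻¹) ≤ N := by
    intro y
    rw [ENNReal.ofReal_add (abs_nonneg _) (by positivity), ENNReal.ofReal_mul hδ.le, hN]
    refine add_le_add ?_ (mul_le_mul_right ?_ _)
    · rw [← Real.norm_eq_abs, ofReal_norm]
      exact sup_le_norm hf y
    · have h2 := sup_le_norm hw_cont y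
      rw [← ofReal_norm, Real.norm_eq_abs] at h2
      unfold hw at h2
      rwa [abs_of_pos (by positivity : 0 < (1 + y ^ 2)⁻¹)] at h2
  by_cases hNt : N = ∞
  · rw [hNt, ENNReal.top_rpow_of_pos hq0]
    exact le_top
  have h2 : ∀ y, Gd q δ f y ≤ N.toReal ^ q := by
    intro y
    unfold Gd
    refine Real.rpow_le_rpow (base_pos hδ y).le ?_ hq0.le
    exact (ENNReal.ofReal_le_iff_le_toReal hNt).1 (h1 y)
  unfold MM
  refine iSup_le fun p => ?_
  obtain ⟨⟨t, c⟩, ht, hc⟩ := p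
  simp only at ht hc ⊢
  refine (ENNReal.ofReal_le_ofReal (mv_le h2 (Gd_int hf hs hq hδ) ht (x + c))).trans (le_of_eq ?_)
  rw [← ENNReal.ofReal_rpow_of_nonneg ENNReal.toReal_nonneg hq0.le, ENNReal.ofReal_toReal hNt]

/-- the constant for one function -/
def KK (q r : ℝ) (p : ℝ≥0∞) : ℝ≥0∞ := if p = ∞ then 1 else
  ENNReal.ofReal (p.toReal / q * (8 * 2 ^ (p.toReal / q - 1) / (p.toReal / q - 1))) ^ (r / p.toReal)

theorem KK_ne_top {q r : ℝ} (hr : 0 < r) (p : ℝ≥0∞) : KK q r p ≠ ∞ := by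
  unfold KK
  split_ifs
  · exact ENNReal.one_ne_top
  · exact ENNReal.rpow_ne_top_of_nonneg (div_nonneg hr.le ENNReal.toReal_nonneg)
      ENNReal.ofReal_ne_top

/-- one function -/
theorem MM_unit {q δ r : ℝ} {p : ℝ≥0∞} (hq : 1 ≤ q) (hp : ENNReal.ofReal q < p) (hr0 : 0 < r)
    (hδ : 0 < δ) {f : ℝ → ℝ} (hf : Continuous f) (hs : HasCompactSupport f) :
    ∃ (c : ℝ≥0∞) (H : ℝ → ℝ≥0∞), Measurable H ∧
      (∀ x, MM (Gd q δ f) x ^ (r / q) ≤ c * H x ^ (r * (p⁻¹).toReal)) ∧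
      c * (∫⁻ x, H x) ^ (r * (p⁻¹).toReal) ≤ KK q r p *
        (eLpNorm f p volume + ENNReal.ofReal δ * eLpNorm hw p volume) ^ r := by
  have hq0 : 0 < q := by linarith
  by_cases h : p = ∞
  · subst h
    refine ⟨(eLpNorm f ∞ volume + ENNReal.ofReal δ * eLpNorm hw ∞ volume) ^ r, fun _ => 1,
      measurable_const, fun x => ?_, ?_⟩
    · simp only [ENNReal.inv_top, ENNReal.toReal_zero, mul_zero, ENNReal.rpow_zero, mul_one]
      have h1 := ENNReal.rpow_le_rpow (MM_sup hq hδ hf hs x) (by positivity : 0 ≤ r / q)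
      rwa [← ENNReal.rpow_mul, mul_div_cancel₀ _ hq0.ne'] at h1
    · simp only [ENNReal.inv_top, ENNReal.toReal_zero, mul_zero, ENNReal.rpow_zero, mul_one, KK,
        if_true, one_mul]
      exact le_rfl
  · have hpq : q < p.toReal := by
      have := (ENNReal.ofReal_lt_iff_lt_toReal hq0.le h).1 hp
      exact this
    have hp0 : 0 < p.toReal := hq0.trans hpq
    have e1 : r * (p⁻¹).toReal = r / p.toReal := by rw [ENNReal.toReal_inv, div_eq_mul_inv]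
    refine ⟨1, fun x => MM (Gd q δ f) x ^ (p.toReal / q),
      ((MM_meas (Gd_int hf hs hq hδ)).pow_const _), fun x => ?_, ?_⟩
    · rw [one_mul, e1, ← ENNReal.rpow_mul]
      refine le_of_eq ?_
      congr 1
      field_simp
    · rw [one_mul, e1]
      have h1 := MM_norm (r := r) (p := p.toReal) hq hpq hr0 hδ hf hs
      rw [Nm_eq hp0, Nm_eq hp0, ENNReal.ofReal_toReal h] at h1
      unfold KK
      rw [if_neg h]
      exact h1

/-- **the bound for real continuous functions with compact support, `p_j ≤ ∞`** -/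
theorem real_mainW {q β : Fin 4 → ℝ} {p : Fin 4 → ℝ≥0∞} {r : ℝ}
    (hβ0 : ∀ j, 0 < β j) (hβ1 : ∀ j, β j ≤ 1) (hβ : β 1 + β 2 + β 3 = 2)
    (hq : ∀ j, 1 / β j ≤ q j) (hqp : ∀ j, ENNReal.ofReal (q j) < p j)
    (hr0 : 0 < r) (hr1 : r ≤ 1)
    (hr : r * ((p 1)⁻¹).toReal + r * ((p 2)⁻¹).toReal + r * ((p 3)⁻¹).toReal = 1) :
    ∃ C : ℝ≥0∞, C ≠ ∞ ∧ ∀ (n : ℕ) (P : ℝ), 0 ≤ P → RootV q (n + 1) P →
      ∀ f : Fin 4 → ℝ → ℝ, (∀ j, Continuous (f j)) → (∀ j, HasCompactSupport (f j)) →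
      ∀ ε R : ℝ, 0 < ε → 2 ^ n * ε ≤ R → R ≤ 2 * (2 ^ n * ε) →
      ∫⁻ x, ‖TR f ε R x‖ₑ ^ r ≤ C * ENNReal.ofReal ((1 + P) ^ r) *
        (eLpNorm (f 1) (p 1) volume ^ r * eLpNorm (f 2) (p 2) volume ^ r *
          eLpNorm (f 3) (p 3) volume ^ r) := by
  have hq1 : ∀ j, 1 ≤ q j := fun j => by
    refine le_trans ?_ (hq j)
    rw [le_div_iff₀ (hβ0 j), one_mul]
    exact hβ1 j
  set c := ENNReal.ofReal (2 ^ r / (1 - (2 : ℝ) ^ (-r))) with hc
  have fc : ∀ j, KK (q j) r (p j) ≠ ∞ := fun j => KK_ne_top hr0 _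
  have f0 : 48 * c ^ 3 + 432187203 ≠ ∞ := by
    refine ENNReal.add_ne_top.2 ⟨ENNReal.mul_ne_top (by norm_num)
      (ENNReal.pow_ne_top ENNReal.ofReal_ne_top), by norm_num⟩
  have fC : (48 * c ^ 3 + 432187203) * (KK (q 1) r (p 1) * KK (q 2) r (p 2) * KK (q 3) r (p 3)) ≠ ∞ :=
    ENNReal.mul_ne_top f0 (ENNReal.mul_ne_top (ENNReal.mul_ne_top (fc 1) (fc 2)) (fc 3))
  refine ⟨(48 * c ^ 3 + 432187203) * (KK (q 1) r (p 1) * KK (q 2) r (p 2) * KK (q 3) r (p 3)), fC, ?_⟩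
  intro n P hP H f hf hs ε R hε hR1 hR2
  have nf : ∀ (j : Fin 4) (p : ℝ≥0∞), eLpNorm (f j) p volume ≠ ∞ := fun j p =>
    ((hf j).memLp_of_hasCompactSupport (hs j)).eLpNorm_ne_top
  have hp1 : ∀ j, 1 ≤ p j := fun j => by
    have h1 : ENNReal.ofReal 1 ≤ ENNReal.ofReal (q j) := ENNReal.ofReal_le_ofReal (hq1 j)
    rw [ENNReal.ofReal_one] at h1
    exact h1.trans (hqp j).le
  have nh : ∀ j, eLpNorm hw (p j) volume ≠ ∞ := by
    intro j
    by_cases h : p j = ∞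
    · rw [h]
      refine ne_top_of_le_ne_top ENNReal.one_ne_top ?_
      rw [eLpNorm_exponent_top]
      refine eLpNormEssSup_le_of_ae_enorm_bound (ae_of_all _ fun x => ?_)
      rw [← ofReal_norm, Real.norm_eq_abs]
      unfold hw
      rw [abs_of_pos (by positivity)]
      refine ENNReal.ofReal_le_one.2 ?_
      exact inv_le_one_of_one_le₀ (by nlinarith [sq_nonneg x])
    · have hj : 1 ≤ (p j).toReal := by
        have := ENNReal.toReal_mono h (hp1 j)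
        simpa using this
      have h2 := Nm_hw hj
      rwa [Nm_eq (by linarith), ENNReal.ofReal_toReal h] at h2
  have hP1 : P ^ r ≤ (1 + P) ^ r := Real.rpow_le_rpow hP (by linarith) hr0.le
  have hP2 : 1 ≤ (1 + P) ^ r := Real.one_le_rpow (by linarith) hr0.le
  refine lim_delta (r := r) (K1 := eLpNorm hw (p 1) volume) (K2 := eLpNorm hw (p 2) volume)
    (K3 := eLpNorm hw (p 3) volume)
    (ENNReal.mul_ne_top fC ENNReal.ofReal_ne_top) (nf 1 _) (nf 2 _) (nf 3 _)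
    (nh 1) (nh 2) (nh 3) hr0 fun δ hδ => ?_
  obtain ⟨H₀, hH₀, hd⟩ := domV_of hf hs hq1 hδ
  have b1 := TR_MMV hβ0 hβ1 hβ hq hH₀ hd hf hP H hε hR1 hR2 hr0 hr1
  obtain ⟨k1, H1, m1, u1, v1⟩ := MM_unit (r := r) (hq1 1) (hqp 1) hr0 hδ (hf 1) (hs 1)
  obtain ⟨k2, H2, m2, u2, v2⟩ := MM_unit (r := r) (hq1 2) (hqp 2) hr0 hδ (hf 2) (hs 2)
  obtain ⟨k3, H3, m3, u3, v3⟩ := MM_unit (r := r) (hq1 3) (hqp 3) hr0 hδ (hf 3) (hs 3)
  have hh := ENNReal.lintegral_prod_norm_pow_le (μ := volume) (Finset.univ : Finset (Fin 3))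
    (f := ![H1, H2, H3])
    (p := ![r * ((p 1)⁻¹).toReal, r * ((p 2)⁻¹).toReal, r * ((p 3)⁻¹).toReal])
    (fun i _ => by
      fin_cases i
      · exact m1.aemeasurable
      · exact m2.aemeasurable
      · exact m3.aemeasurable)
    (by simpa [Fin.sum_univ_three] using hr)
    (fun i _ => by
      fin_cases i
      · exact mul_nonneg hr0.le ENNReal.toReal_nonneg
      · exact mul_nonneg hr0.le ENNReal.toReal_nonneg
      · exact mul_nonneg hr0.le ENNReal.toReal_nonneg)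
  simp only [Fin.prod_univ_three, Matrix.cons_val_zero, Matrix.cons_val_one, Matrix.cons_val] at hh
  have b2 : ∫⁻ x, MM (Gd (q 1) δ (f 1)) x ^ (r / q 1) * MM (Gd (q 2) δ (f 2)) x ^ (r / q 2) *
      MM (Gd (q 3) δ (f 3)) x ^ (r / q 3) ≤ (k1 * k2 * k3) *
      ((∫⁻ x, H1 x) ^ (r * ((p 1)⁻¹).toReal) * (∫⁻ x, H2 x) ^ (r * ((p 2)⁻¹).toReal) *
        (∫⁻ x, H3 x) ^ (r * ((p 3)⁻¹).toReal)) := by
    have hm : Measurable fun x => H1 x ^ (r * ((p 1)⁻¹).toReal) * H2 x ^ (r * ((p 2)⁻¹).toReal) *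
        H3 x ^ (r * ((p 3)⁻¹).toReal) := ((m1.pow_const _).mul (m2.pow_const _)).mul (m3.pow_const _)
    calc _ ≤ ∫⁻ x, (k1 * k2 * k3) * (H1 x ^ (r * ((p 1)⁻¹).toReal) * H2 x ^ (r * ((p 2)⁻¹).toReal) *
          H3 x ^ (r * ((p 3)⁻¹).toReal)) := by
          refine lintegral_mono fun x => ?_
          refine (mul_le_mul' (mul_le_mul' (u1 x) (u2 x)) (u3 x)).trans (le_of_eq ?_)
          ring
      _ = (k1 * k2 * k3) * ∫⁻ x, (H1 x ^ (r * ((p 1)⁻¹).toReal) * H2 x ^ (r * ((p 2)⁻¹).toReal) *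
          H3 x ^ (r * ((p 3)⁻¹).toReal)) := lintegral_const_mul _ hm
      _ ≤ _ := mul_le_mul_right hh _
  have b3 : ∫⁻ x, MM (Gd (q 1) δ (f 1)) x ^ (r / q 1) * MM (Gd (q 2) δ (f 2)) x ^ (r / q 2) *
      MM (Gd (q 3) δ (f 3)) x ^ (r / q 3) ≤
      (KK (q 1) r (p 1) * (eLpNorm (f 1) (p 1) volume +
        ENNReal.ofReal δ * eLpNorm hw (p 1) volume) ^ r) *
      (KK (q 2) r (p 2) * (eLpNorm (f 2) (p 2) volume +
        ENNReal.ofReal δ * eLpNorm hw (p 2) volume) ^ r) *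
      (KK (q 3) r (p 3) * (eLpNorm (f 3) (p 3) volume +
        ENNReal.ofReal δ * eLpNorm hw (p 3) volume) ^ r) := by
    refine b2.trans (le_trans (le_of_eq ?_) (mul_le_mul' (mul_le_mul' v1 v2) v3))
    ring
  have b0 : 48 * (ENNReal.ofReal (P ^ r) * c ^ 3) + 432187203 ≤
      (48 * c ^ 3 + 432187203) * ENNReal.ofReal ((1 + P) ^ r) := by
    have e1 : ENNReal.ofReal (P ^ r) ≤ ENNReal.ofReal ((1 + P) ^ r) := ENNReal.ofReal_le_ofReal hP1
    have e2 : (1 : ℝ≥0∞) ≤ ENNReal.ofReal ((1 + P) ^ r) := ENNReal.one_le_ofReal.2 hP2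
    calc 48 * (ENNReal.ofReal (P ^ r) * c ^ 3) + 432187203
        ≤ 48 * (ENNReal.ofReal ((1 + P) ^ r) * c ^ 3) + 432187203 * ENNReal.ofReal ((1 + P) ^ r) := by
          refine add_le_add (mul_le_mul_right (mul_le_mul_left e1 _) _) ?_
          calc (432187203 : ℝ≥0∞) = 432187203 * 1 := (mul_one _).symm
            _ ≤ _ := mul_le_mul_right e2 _
      _ = _ := by ring
  refine b1.trans ((mul_le_mul' b0 b3).trans (le_of_eq ?_))
  ring

end

end Vale.Agent.P141.H530.V
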