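import Vale.Agent.P141.H530.V.RootW

/-!
# P141, two infinite exponents: the root estimate for four functions, one pair in `L^q`, `q < 2`
-/

namespace Vale.Agent.P141.H530.V

open Finset
open Vale.Agent.P141.PL.H571 (W mem_cell card_cell card_W ell_mem_W sum_pts_le)
open Vale.Agent.P141.PL.H620 (loc1 nn HH sg pts uu mo tr ell pt ell_nn)
open Vale.Agent.P141.PL.H855 (wN Bel ediv_pow_add)

noncomputable section

/-- the root estimate, one exponent for each of the four functions -/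
def RootQV (q : Fin 4 → ℝ) (n : ℕ) (P : ℝ) : Prop :=
  ∀ f : Fin 4 → ℤ → ℝ, (∀ j, (Function.support (f j)).Finite) → ∀ o : ℤ, (o = 1 ∨ o = -1) →
    ∀ K ≤ n, ∀ V : ℤ, ∀ 𝒩 : Finset (ℕ × ℤ),
    (∀ N ∈ 𝒩, 1 ≤ N.1 ∧ N.1 ≤ K ∧ N.2 / 2 ^ (K - N.1) = V) →
    (∀ N ∈ 𝒩, ∀ k', N.1 ≤ k' → k' ≤ K → (k', N.2 / 2 ^ (k' - N.1)) ∈ 𝒩) →
    (∀ N ∈ 𝒩, ∀ j, ∑ y ∈ W N.1 N.2, |f j y| ^ q j ≤ 2 ^ (N.1 + 5)) →
    ∑ N ∈ 𝒩, ((4 : ℝ) ^ N.1)⁻¹ * |loc1 N.1 (nn o N.2 0 0) f| ≤ P * 2 ^ K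

/-- **the elementary bound of one node, one pair `0, i`** -/
theorem trivE {k : ℕ} {o v : ℤ} (ho : o = 1 ∨ o = -1) {f : Fin 4 → ℤ → ℝ} {i : Fin 4} (hi : i ≠ 0)
    {t : Fin 4 → ℝ} (ht : ∀ j, 0 ≤ t j) (hb : ∀ j, j ≠ 0 → j ≠ i → ∀ y, |f j y| ≤ t j)
    (w0 : ∑ y ∈ W k v, |f 0 y| ≤ 2 ^ (k + 5) * t 0)
    (wi : ∑ y ∈ W k v, |f i y| ≤ 2 ^ (k + 5) * t i) :
    ((4 : ℝ) ^ k)⁻¹ * |loc1 k (nn o v 0 0) f| ≤ 2 ^ 10 * 2 ^ k * ∏ j, t j := by
  classical
  set L : Fin 4 → (Fin 4 → ℕ) → ℤ := fun j x => ell j (pt k (nn o v 0 0) x) with hL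
  have hsg : ∀ x : Fin 4 → ℕ, |∏ i, sg k (x i)| = 1 := by
    intro x
    rw [abs_prod]
    refine prod_eq_one fun i _ => ?_
    unfold sg
    split_ifs <;> simp
  set S : ℝ := 2 ^ (k + 5) with hS
  have hS0 : 0 < S := by positivity
  have pair : ∑ x ∈ pts k, |f 0 (L 0 x)| * |f i (L i x)| ≤ 4 ^ k * ((S * t 0) * (S * t i)) := by
    refine (sum_pts_le k (W k v) (W k v) (L 0) (L i) (fun x hx => ell_mem_W ho hx 0)
      (fun x hx => ell_mem_W ho hx i) ?_ (g := fun y => |f 0 y|)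
      (h := fun y => |f i y|) (fun _ => by positivity) (fun _ => by positivity)).trans ?_
    · intro x y e2 e3 ea eb
      simp only [hL, ell_nn, mo, uu, Fin.sum_univ_four] at ea eb
      fin_cases i
      · exact absurd rfl hi
      all_goals
        simp at ea eb
        funext i
        fin_cases i <;> simp <;> omega
    · refine mul_le_mul_of_nonneg_left (mul_le_mul w0 wi (sum_nonneg fun _ _ => by positivity)
        (mul_nonneg hS0.le (ht 0))) (by positivity)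
  -- the product
  have hprod : ∀ x, ∏ j, |f j (L j x)| ≤ (|f 0 (L 0 x)| * |f i (L i x)|) *
      ∏ j ∈ (univ.erase 0).erase i, t j := by
    intro x
    have h0 : (0 : Fin 4) ∈ (univ : Finset (Fin 4)) := mem_univ 0
    have hi' : i ∈ (univ : Finset (Fin 4)).erase 0 := mem_erase.2 ⟨hi, mem_univ i⟩
    rw [← mul_prod_erase univ (fun j => |f j (L j x)|) h0,
      ← mul_prod_erase (univ.erase 0) (fun j => |f j (L j x)|) hi', ← mul_assoc]
    refine mul_le_mul_of_nonneg_left ?_ (by positivity)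
    refine prod_le_prod (fun _ _ => abs_nonneg _) fun j hj => ?_
    rw [mem_erase, mem_erase] at hj
    exact hb j hj.2.1 hj.1 _
  have hT : 0 ≤ ∏ j ∈ (univ.erase 0).erase i, t j := prod_nonneg fun j _ => ht j
  have hmain : ∑ x ∈ pts k, ∏ j, |f j (L j x)| ≤ (4 ^ k * ((S * t 0) * (S * t i))) *
      ∏ j ∈ (univ.erase 0).erase i, t j := by
    refine (sum_le_sum fun x _ => hprod x).trans ?_
    rw [← sum_mul]
    exact mul_le_mul_of_nonneg_right pair hT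
  have hl : |loc1 k (nn o v 0 0) f| ≤ ((2 : ℝ) ^ k)⁻¹ * ∑ x ∈ pts k, ∏ j, |f j (L j x)| := by
    rw [loc1, abs_mul, abs_of_pos (by positivity : (0 : ℝ) < ((2 : ℝ) ^ k)⁻¹)]
    refine mul_le_mul_of_nonneg_left ?_ (by positivity)
    refine (abs_sum_le_sum_abs _ _).trans (sum_le_sum fun x _ => ?_)
    rw [abs_mul, hsg, one_mul, abs_prod]
  have hfin := mul_le_mul_of_nonneg_left (hl.trans (mul_le_mul_of_nonneg_left hmain
    (by positivity))) (by positivity : (0 : ℝ) ≤ ((4 : ℝ) ^ k)⁻¹)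
  refine hfin.trans (le_of_eq ?_)
  have e0 : ∏ j, t j = t 0 * (t i * ∏ j ∈ (univ.erase 0).erase i, t j) := by
    rw [mul_prod_erase (univ.erase 0) t (mem_erase.2 ⟨hi, mem_univ i⟩),
      mul_prod_erase univ t (mem_univ 0)]
  rw [e0]
  generalize ∏ j ∈ (univ.erase 0).erase i, t j = Q
  have e5 : S * t 0 * (S * t i) = 2 ^ 10 * (2 ^ k * 2 ^ k) * (t 0 * t i) := by
    rw [hS]
    ring
  rw [e5]
  field_simp

/-- the functions of one vector of levels -/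
def F4 (f : Fin 4 → ℤ → ℝ) (μ : Fin 4 → ℕ) : Fin 4 → ℤ → ℝ := fun j => part (μ j) (f j)

theorem loc1_levels4 {k : ℕ} {n : Fin 4 → ℤ} {f : Fin 4 → ℤ → ℝ} {M : ℕ}
    (hM : ∀ j y, |f j y| ≤ 2 ^ M) :
    loc1 k n f = ∑ μ ∈ Fintype.piFinset fun _ : Fin 4 => range (M + 1), loc1 k n (F4 f μ) := by
  unfold loc1
  rw [← mul_sum, sum_comm]
  congr 1
  refine sum_congr rfl fun x _ => ?_
  rw [← mul_sum]
  congr 1
  have e : ∀ j y, f j y = ∑ m ∈ range (M + 1), part m (f j) y := by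
    intro j y
    rw [part_sum]
    unfold cutT
    rw [if_pos (hM j y)]
  have e2 : ∏ j, f j (ell j (pt k n x)) =
      ∏ j, ∑ m ∈ range (M + 1), part m (f j) (ell j (pt k n x)) :=
    prod_congr rfl fun j _ => e j _
  rw [e2, prod_univ_sum]
  rfl

theorem part_le (m : ℕ) (f : ℤ → ℝ) (y : ℤ) : |part m f y| ≤ 2 ^ m := by
  cases m with
  | zero =>
    show |cutT 0 f y| ≤ _
    unfold cutT
    split_ifs with h
    · exact h
    · rw [abs_zero]; positivity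
  | succ m =>
    show |if |f y| ≤ 2 ^ m then 0 else cutT (m + 1) f y| ≤ _
    split_ifs with h
    · rw [abs_zero]; positivity
    · unfold cutT
      split_ifs with h2
      · exact h2
      · rw [abs_zero]; positivity

/-- the exponents of one level, bounded function -/
theorem level_exp0 {q' q θ : ℝ} (hq' : 0 < q') (m : ℕ) :
    ((2 ^ |q - q'| * 2 ^ ((m : ℝ) * (q' - q))) ^ (1 / q')) ^ (1 - θ) * ((2 : ℝ) ^ m) ^ θ =
    (2 : ℝ) ^ (|q - q'| * (1 / q' * (1 - θ))) *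
      ((2 : ℝ) ^ (1 - q * ((1 - θ) / q'))) ^ m := by
  have h2 : (0 : ℝ) < 2 := by norm_num
  rw [← Real.rpow_natCast, ← Real.rpow_natCast, ← Real.rpow_add h2, ← Real.rpow_mul h2.le,
    ← Real.rpow_mul h2.le, ← Real.rpow_mul h2.le, ← Real.rpow_mul h2.le,
    ← Real.rpow_add h2, ← Real.rpow_add h2]
  congr 1
  field_simp
  ring

end

end Vale.Agent.P141.H530.V
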