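import Vale.Agent.P141.H530.V.Root4

/-!
# P141, two infinite exponents: the root estimate for four functions, a power of the number of scales
-/

namespace Vale.Agent.P141.H530.V

open Finset
open Vale.Agent.P141.PL.H571 (W mem_cell card_cell card_W)
open Vale.Agent.P141.PL.H620 (loc1 nn)
open Vale.Agent.P141.PL.H855 (wN Bel ediv_pow_add)

noncomputable section

/-- the function which is `1` at `0, i` -/
def bet (i j : Fin 4) : ℝ := if j = 0 ∨ j = i then 1 else 0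

/-- the ratio of the levels -/
def xx (i : Fin 4) (q' θ : ℝ) (q : Fin 4 → ℝ) (j : Fin 4) : ℝ :=
  (2 : ℝ) ^ (1 - q j * ((1 - θ) / q' + θ * bet i j))

/-- the factor of the levels -/
def AA (i : Fin 4) (q' θ : ℝ) (q : Fin 4 → ℝ) (j : Fin 4) : ℝ :=
  if j = 0 ∨ j = i then (2 : ℝ) ^ (|q j - q'| * (1 / q' * (1 - θ)) + |q j - 1 / 1| * (1 * θ))
  else (2 : ℝ) ^ (|q j - q'| * (1 / q' * (1 - θ)))

theorem AA_pos (i : Fin 4) (q' θ : ℝ) (q : Fin 4 → ℝ) (j : Fin 4) : 0 < AA i q' θ q j := by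
  unfold AA
  split_ifs <;> positivity

theorem mean4 {l t : Fin 4 → ℝ} (hl : ∀ j, 0 ≤ l j) (ht : ∀ j, 0 ≤ t j) {P K n T θ : ℝ}
    (hP : 0 ≤ P) (hK : 0 < K) (hn : 0 ≤ n) (hT : 0 ≤ T) :
    ((∏ j, l j) * (P * K)) ^ (1 - θ) * (T * (∏ j, t j) * (n * K)) ^ θ =
      (P ^ (1 - θ) * n ^ θ * T ^ θ * K) * ∏ j, (l j ^ (1 - θ) * t j ^ θ) := by
  have e2 : K ^ (1 - θ) * K ^ θ = K := by
    rw [← Real.rpow_add hK, sub_add_cancel, Real.rpow_one]
  have pl : 0 ≤ ∏ j, l j := prod_nonneg fun j _ => hl j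
  have pt : 0 ≤ ∏ j, t j := prod_nonneg fun j _ => ht j
  rw [Real.mul_rpow pl (mul_nonneg hP hK.le), Real.mul_rpow hP hK.le,
    Real.mul_rpow (mul_nonneg hT pt) (mul_nonneg hn hK.le),
    Real.mul_rpow hT pt, Real.mul_rpow hn hK.le, prod_mul_distrib,
    Real.finsetProd_rpow _ _ (fun j _ => hl j), Real.finsetProd_rpow _ _ (fun j _ => ht j)]
  calc _ = (P ^ (1 - θ) * n ^ θ * T ^ θ * (K ^ (1 - θ) * K ^ θ)) * ((∏ j, l j) ^ (1 - θ) *
        (∏ j, t j) ^ θ) := by ring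
    _ = _ := by rw [e2]

/-- one vector of levels -/
theorem one_level {i : Fin 4} (hi : i ≠ 0) {q' : ℝ} (hq' : 0 < q') {q : Fin 4 → ℝ} {θ : ℝ}
    (h0 : 0 ≤ θ) (h1 : θ ≤ 1) {n : ℕ} {P : ℝ} (hP : 0 ≤ P) (HR : RootS q' n P)
    {f : Fin 4 → ℤ → ℝ} (hf : ∀ j, (Function.support (f j)).Finite) {o : ℤ} (ho : o = 1 ∨ o = -1)
    {K : ℕ} (hK : K ≤ n) {V : ℤ} {𝒩 : Finset (ℕ × ℤ)}
    (hmem : ∀ N ∈ 𝒩, 1 ≤ N.1 ∧ N.1 ≤ K ∧ N.2 / 2 ^ (K - N.1) = V)
    (hcl : ∀ N ∈ 𝒩, ∀ k', N.1 ≤ k' → k' ≤ K → (k', N.2 / 2 ^ (k' - N.1)) ∈ 𝒩)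
    (win : ∀ N ∈ 𝒩, ∀ j, ∑ y ∈ W N.1 N.2, |f j y| ^ q j ≤ 2 ^ (N.1 + 5)) (μ : Fin 4 → ℕ) :
    ∑ N ∈ 𝒩, |wN o (F4 f μ) N| ≤ (P ^ (1 - θ) * (n : ℝ) ^ θ * ((2 : ℝ) ^ 10) ^ θ * 2 ^ K) *
      ∏ j, (AA i q' θ q j * xx i q' θ q j ^ μ j) := by
  classical
  set E : Fin 4 → ℝ → ℝ := fun j a => 2 ^ |q j - a| * 2 ^ ((μ j : ℝ) * (a - q j)) with hE
  have hE0 : ∀ j a, 0 < E j a := fun j a => by positivity
  have hwin : ∀ N ∈ 𝒩, ∀ j, ∀ a : ℝ, 0 < a →
      ∑ y ∈ W N.1 N.2, |F4 f μ j y| ^ a ≤ 2 ^ (N.1 + 5) * E j a := by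
    intro N hN j a ha
    exact part_win ha (μ j) (f j) (win N hN j)
  set S := ∑ N ∈ 𝒩, |wN o (F4 f μ) N| with hS
  have hS0 : 0 ≤ S := sum_nonneg fun _ _ => abs_nonneg _
  have hFs : ∀ j, (Function.support (F4 f μ j)).Finite := fun j => part_supp _ (hf j)
  -- the first bound
  set l : Fin 4 → ℝ := fun j => E j q' ^ (1 / q') with hl
  have hl0 : ∀ j, 0 < l j := fun j => Real.rpow_pos_of_pos (hE0 j q') _
  have X : S ≤ (∏ j, l j) * (P * 2 ^ K) := by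
    refine rootS_scale (s := 0) HR hFs ho (by omega) (fun N hN => by
      obtain ⟨h2, h3, h4⟩ := hmem N hN
      exact ⟨by omega, h3, h4⟩) hcl hl0 fun N hN j => ?_
    refine (hwin N hN j q' hq').trans (le_of_eq ?_)
    simp only [hl]
    rw [← Real.rpow_mul (hE0 j q').le, one_div_mul_cancel hq'.ne', Real.rpow_one]
  -- the second bound
  set t : Fin 4 → ℝ := fun j => if j = 0 ∨ j = i then E j 1 else 2 ^ μ j with ht
  have ht0 : ∀ j, 0 < t j := by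
    intro j
    simp only [ht]
    split_ifs
    · exact hE0 j 1
    · positivity
  have Y : S ≤ (2 : ℝ) ^ 10 * (∏ j, t j) * (n * 2 ^ K) := by
    have h2 : ∀ N ∈ 𝒩, |wN o (F4 f μ) N| ≤ (2 : ℝ) ^ 10 * (∏ j, t j) * 2 ^ N.1 := by
      intro N hN
      rw [abs_wN]
      have h3 := trivE (k := N.1) (v := N.2) ho (f := F4 f μ) hi (t := t) (fun j => (ht0 j).le)
        (fun j hj0 hji y => by
          simp only [ht, hj0, hji, or_self, if_false]
          exact part_le _ _ _)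
        (by
          have h4 := hwin N hN 0 1 one_pos
          simp only [Real.rpow_one] at h4
          simpa only [ht, true_or, if_true] using h4)
        (by
          have h4 := hwin N hN i 1 one_pos
          simp only [Real.rpow_one] at h4
          simpa only [ht, or_true, if_true] using h4)
      refine h3.trans (le_of_eq ?_)
      ring
    refine (sum_le_sum h2).trans ?_
    rw [← mul_sum]
    have h3 : 0 < ∏ j, t j := prod_pos fun j _ => ht0 j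
    exact mul_le_mul_of_nonneg_left (count (s := 0) (by omega) fun N hN => by
      obtain ⟨h2, h3, h4⟩ := hmem N hN
      exact ⟨by omega, h3, h4⟩) (by positivity)
  -- the mean
  have hmean : S ≤ ((∏ j, l j) * (P * 2 ^ K)) ^ (1 - θ) *
      ((2 : ℝ) ^ 10 * (∏ j, t j) * (n * 2 ^ K)) ^ θ := by
    rcases hS0.eq_or_lt with h2 | h2
    · rw [← h2]
      have k1 : 0 < ∏ j, l j := prod_pos fun j _ => hl0 j
      have k2 : 0 < ∏ j, t j := prod_pos fun j _ => ht0 j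
      positivity
    · have e1 : S = S ^ (1 - θ) * S ^ θ := by
        rw [← Real.rpow_add h2, sub_add_cancel, Real.rpow_one]
      rw [e1]
      exact mul_le_mul (Real.rpow_le_rpow hS0 X (by linarith)) (Real.rpow_le_rpow hS0 Y h0)
        (Real.rpow_nonneg hS0 _) (Real.rpow_nonneg (hS0.trans X) _)
  refine hmean.trans (le_of_eq ?_)
  rw [mean4 (fun j => (hl0 j).le) (fun j => (ht0 j).le) hP (by positivity) (Nat.cast_nonneg n)
    (by positivity)]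
  congr 1
  refine prod_congr rfl fun j _ => ?_
  by_cases hj : j = 0 ∨ j = i
  · have g := level_exp (q' := q') (q := q j) (b := 1) (θ := θ) hq' one_pos (μ j)
    have e3 : t j = E j 1 := by simp only [ht, if_pos hj]
    have e4 : E j 1 = (2 ^ |q j - 1 / 1| * 2 ^ ((μ j : ℝ) * (1 / 1 - q j))) ^ (1 : ℝ) := by
      rw [Real.rpow_one, div_one]
    rw [e3, e4]
    unfold AA xx bet
    rw [if_pos hj, if_pos hj]
    exact g
  · have g := level_exp0 (q' := q') (q := q j) (θ := θ) hq' (μ j)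
    have e3 : t j = 2 ^ μ j := by simp only [ht, if_neg hj]
    rw [e3]
    unfold AA xx bet
    rw [if_neg hj, if_neg hj, mul_zero, add_zero]
    exact g

/-- **the root estimate for four functions** -/
theorem rootE_of_rootS {i : Fin 4} (hi : i ≠ 0) {q' : ℝ} (hq' : 0 < q') {q : Fin 4 → ℝ} {θ : ℝ}
    (h0 : 0 ≤ θ) (h1 : θ ≤ 1) (he : ∀ j, 1 < q j * ((1 - θ) / q' + θ * bet i j)) :
    ∃ C : ℝ, 0 < C ∧ ∀ (n : ℕ) (P : ℝ), 0 ≤ P → RootS q' n P →
      RootQV q n (C * (P ^ (1 - θ) * (n : ℝ) ^ θ)) := by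
  classical
  have hx0 : ∀ j, 0 ≤ xx i q' θ q j := fun j => by unfold xx; positivity
  have hx1 : ∀ j, xx i q' θ q j < 1 := fun j =>
    Real.rpow_lt_one_of_one_lt_of_neg (by norm_num) (by linarith [he j])
  have hc : ∀ j, 0 < AA i q' θ q j * (1 - xx i q' θ q j)⁻¹ := fun j =>
    mul_pos (AA_pos _ _ _ _ _) (inv_pos.2 (by linarith [hx1 j]))
  have hcp : 0 < ∏ j, AA i q' θ q j * (1 - xx i q' θ q j)⁻¹ := prod_pos fun j _ => hc j
  refine ⟨((2 : ℝ) ^ 10) ^ θ * ∏ j, AA i q' θ q j * (1 - xx i q' θ q j)⁻¹, by positivity, ?_⟩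
  intro n P hP HR f hf o ho K hK V 𝒩 hmem hcl win
  -- a bound for the functions
  obtain ⟨M, hM⟩ : ∃ M : ℕ, ∀ j y, |f j y| ≤ 2 ^ M := by
    have h2 : ∀ j, ∃ M : ℕ, ∀ y, |f j y| ≤ 2 ^ M := by
      intro j
      obtain ⟨B, hB⟩ := ((hf j).image fun y => |f j y|).bddAbove
      obtain ⟨M, hM⟩ := pow_unbounded_of_one_lt (max B 0) (by norm_num : (1 : ℝ) < 2)
      refine ⟨M, fun y => ?_⟩
      by_cases hy : f j y = 0
      · rw [hy, abs_zero]; positivity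
      · exact ((hB ⟨y, hy, rfl⟩).trans (le_max_left _ _)).trans hM.le
    choose M hM using h2
    refine ⟨∑ j, M j, fun j y => (hM j y).trans (pow_le_pow_right₀ (by norm_num) ?_)⟩
    exact single_le_sum (f := M) (fun _ _ => Nat.zero_le _) (mem_univ j)
  set I : Finset (Fin 4 → ℕ) := Fintype.piFinset fun _ : Fin 4 => range (M + 1) with hI
  have e0 : ∀ N : ℕ × ℤ, ((4 : ℝ) ^ N.1)⁻¹ * |loc1 N.1 (nn o N.2 0 0) f| = |wN o f N| := fun N =>
    (abs_wN o f N).symm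
  simp only [e0]
  have hsum : ∑ N ∈ 𝒩, |wN o f N| ≤ ∑ μ ∈ I, ∑ N ∈ 𝒩, |wN o (F4 f μ) N| := by
    rw [sum_comm]
    refine sum_le_sum fun N _ => ?_
    have e1 : wN o f N = ∑ μ ∈ I, wN o (F4 f μ) N := by
      unfold wN
      rw [loc1_levels4 hM, mul_sum]
    rw [e1]
    exact abs_sum_le_sum_abs _ _
  refine hsum.trans ((sum_le_sum fun μ _ =>
    one_level hi hq' h0 h1 hP HR hf ho hK hmem hcl win μ).trans ?_)
  rw [← mul_sum]
  have e1 : ∑ μ ∈ I, ∏ j, (AA i q' θ q j * xx i q' θ q j ^ μ j) =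
      ∏ j, ∑ m ∈ range (M + 1), AA i q' θ q j * xx i q' θ q j ^ m := by
    rw [prod_univ_sum]
  have e2 : ∏ j, ∑ m ∈ range (M + 1), AA i q' θ q j * xx i q' θ q j ^ m ≤
      ∏ j, AA i q' θ q j * (1 - xx i q' θ q j)⁻¹ := by
    refine prod_le_prod (fun j _ => sum_nonneg fun m _ =>
      mul_nonneg (AA_pos _ _ _ _ _).le (pow_nonneg (hx0 j) _)) fun j _ => ?_
    rw [← mul_sum]
    exact mul_le_mul_of_nonneg_left (geom_le (hx0 j) (hx1 j) (M + 1)) (AA_pos _ _ _ _ _).le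
  rw [e1]
  have hn : (0 : ℝ) ≤ n := Nat.cast_nonneg n
  refine (mul_le_mul_of_nonneg_left e2 (by positivity)).trans (le_of_eq ?_)
  ring

end

end Vale.Agent.P141.H530.V
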