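import Vale.Agent.P141.H530.V.Triv

/-!
# P141, exponents `r < 1`: the root estimate for three exponents below `2`, a power of the number
of scales, by the levels of the functions
-/

namespace Vale.Agent.P141.H530.V

open Finset
open Vale.Agent.P141.PL.H571 (W mem_cell card_cell card_W)
open Vale.Agent.P141.PL.H620 (loc1 nn HH sg pts uu mo tr ell pt)
open Vale.Agent.P141.PL.H855 (wN Bel ediv_pow_add)

noncomputable section

/-- the function cut at the height `2 ^ m` -/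
def cutT (m : ℕ) (f : ℤ → ℝ) (y : ℤ) : ℝ := if |f y| ≤ 2 ^ m then f y else 0

/-- the part of level `m` -/
def part : ℕ → (ℤ → ℝ) → ℤ → ℝ
  | 0, f, y => cutT 0 f y
  | m + 1, f, y => if |f y| ≤ 2 ^ m then 0 else cutT (m + 1) f y

theorem part_succ (m : ℕ) (f : ℤ → ℝ) (y : ℤ) :
    part (m + 1) f y = cutT (m + 1) f y - cutT m f y := by
  show (if |f y| ≤ 2 ^ m then 0 else cutT (m + 1) f y) = _
  unfold cutT
  have h : (2 : ℝ) ^ m ≤ 2 ^ (m + 1) := pow_le_pow_right₀ (by norm_num) (Nat.le_succ m)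
  by_cases h1 : |f y| ≤ 2 ^ m
  · rw [if_pos h1, if_pos h1, if_pos (h1.trans h), sub_self]
  · rw [if_neg h1, if_neg h1, sub_zero]

theorem part_sum (M : ℕ) (f : ℤ → ℝ) (y : ℤ) :
    ∑ m ∈ range (M + 1), part m f y = cutT M f y := by
  rw [sum_range_succ']
  have h : ∀ m ∈ range M, part (m + 1) f y = cutT (m + 1) f y - cutT m f y := fun m _ =>
    part_succ m f y
  rw [sum_congr rfl h, sum_range_sub (fun m => cutT m f y)]
  show cutT M f y - cutT 0 f y + cutT 0 f y = _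
  ring

theorem part_supp (m : ℕ) {f : ℤ → ℝ} (hf : (Function.support f).Finite) :
    (Function.support (part m f)).Finite := by
  refine hf.subset fun y hy h0 => hy ?_
  cases m with
  | zero => show cutT 0 f y = 0; unfold cutT; rw [h0]; simp
  | succ m =>
    show (if |f y| ≤ 2 ^ m then 0 else cutT (m + 1) f y) = 0
    unfold cutT; rw [h0]; simp

/-- one point of one level -/
theorem part_pow {a q : ℝ} (ha : 0 < a) (m : ℕ) (h : 1 ≤ m ∨ q ≤ a) (f : ℤ → ℝ) (y : ℤ) :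
    |part m f y| ^ a ≤ 2 ^ |q - a| * 2 ^ ((m : ℝ) * (a - q)) * |f y| ^ q := by
  have hc1 : (1 : ℝ) ≤ 2 ^ |q - a| := Real.one_le_rpow (by norm_num) (abs_nonneg _)
  have hR : 0 ≤ (2 : ℝ) ^ |q - a| * 2 ^ ((m : ℝ) * (a - q)) * |f y| ^ q := by positivity
  cases m with
  | zero =>
    have hqa : q ≤ a := by
      rcases h with h | h
      · omega
      · exact h
    show |cutT 0 f y| ^ a ≤ _
    unfold cutT
    split_ifs with h1
    · rw [pow_zero] at h1
      rcases (abs_nonneg (f y)).eq_or_lt with h0 | h0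
      · rw [← h0, Real.zero_rpow ha.ne']
        rw [← h0] at hR
        exact hR
      · have h2 : |f y| ^ a ≤ |f y| ^ q := Real.rpow_le_rpow_of_exponent_ge h0 h1 hqa
        have h3 : 0 ≤ |f y| ^ q := by positivity
        simp only [Nat.cast_zero, zero_mul, Real.rpow_zero, mul_one]
        nlinarith
    · rw [abs_zero, Real.zero_rpow ha.ne']
      exact hR
  | succ m =>
    show |if |f y| ≤ 2 ^ m then 0 else cutT (m + 1) f y| ^ a ≤ _
    split_ifs with h1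
    · rw [abs_zero, Real.zero_rpow ha.ne']
      exact hR
    · unfold cutT
      split_ifs with h2
      · have h0 : 0 < |f y| := lt_of_le_of_lt (by positivity) (not_le.1 h1)
        have e1 : |f y| ^ a = |f y| ^ (a - q) * |f y| ^ q := by
          rw [← Real.rpow_add h0, sub_add_cancel]
        rw [e1]
        refine mul_le_mul_of_nonneg_right ?_ (by positivity)
        rcases le_or_gt q a with h3 | h3
        · have h4 : |f y| ^ (a - q) ≤ ((2 : ℝ) ^ (m + 1)) ^ (a - q) :=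
            Real.rpow_le_rpow h0.le h2 (by linarith)
          have h5 : ((2 : ℝ) ^ (m + 1)) ^ (a - q) = 2 ^ (((m + 1 : ℕ) : ℝ) * (a - q)) := by
            rw [Real.rpow_mul (by norm_num), Real.rpow_natCast]
          rw [h5] at h4
          have h6 : 0 ≤ (2 : ℝ) ^ (((m + 1 : ℕ) : ℝ) * (a - q)) := by positivity
          nlinarith
        · have h4 : |f y| ^ (a - q) ≤ ((2 : ℝ) ^ m) ^ (a - q) :=
            Real.rpow_le_rpow_of_nonpos (by positivity) (not_le.1 h1).le (by linarith)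
          have h5 : ((2 : ℝ) ^ m) ^ (a - q) = 2 ^ ((m : ℝ) * (a - q)) := by
            rw [Real.rpow_mul (by norm_num), Real.rpow_natCast]
          rw [h5] at h4
          refine h4.trans (le_of_eq ?_)
          rw [abs_of_pos (by linarith : 0 < q - a), ← Real.rpow_add (by norm_num)]
          congr 1
          push_cast
          ring
      · rw [abs_zero, Real.zero_rpow ha.ne']
        exact hR

/-- the window of one level -/
theorem part_win {a q : ℝ} (ha : 0 < a) (m : ℕ) (f : ℤ → ℝ) {k : ℕ} {v : ℤ}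
    (h : ∑ y ∈ W k v, |f y| ^ q ≤ 2 ^ (k + 5)) :
    ∑ y ∈ W k v, |part m f y| ^ a ≤ 2 ^ (k + 5) * (2 ^ |q - a| * 2 ^ ((m : ℝ) * (a - q))) := by
  by_cases hc : 1 ≤ m ∨ q ≤ a
  · refine (sum_le_sum fun y _ => part_pow ha m hc f y).trans ?_
    rw [← mul_sum, mul_comm]
    exact mul_le_mul_of_nonneg_right h (by positivity)
  · rw [not_or] at hc
    have hm : m = 0 := by omega
    subst hm
    have h1 : ∀ y ∈ W k v, |part 0 f y| ^ a ≤ 1 := by
      intro y _
      refine Real.rpow_le_one (abs_nonneg _) ?_ ha.le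
      show |cutT 0 f y| ≤ 1
      unfold cutT
      split_ifs with h1
      · simpa using h1
      · simp
    refine (sum_le_sum h1).trans ?_
    have hc1 : (1 : ℝ) ≤ 2 ^ |q - a| := Real.one_le_rpow (by norm_num) (abs_nonneg _)
    rw [sum_const, card_W, nsmul_eq_mul, mul_one]
    simp only [Nat.cast_zero, zero_mul, Real.rpow_zero, mul_one]
    push_cast
    have h2 : (0 : ℝ) < 2 ^ (k + 5) := by positivity
    nlinarith

/-- the functions of one triple of levels -/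
def Fm (f : Fin 4 → ℤ → ℝ) (m : ℕ × ℕ × ℕ) : Fin 4 → ℤ → ℝ :=
  ![f 0, part m.1 (f 1), part m.2.1 (f 2), part m.2.2 (f 3)]

theorem prod3 {A B C : Finset ℕ} (u : ℝ) (p q r : ℕ → ℝ) :
    ∑ m ∈ A ×ˢ B ×ˢ C, u * p m.1 * q m.2.1 * r m.2.2 =
      u * (∑ a ∈ A, p a) * (∑ b ∈ B, q b) * ∑ c ∈ C, r c := by
  simp only [sum_product]
  simp only [← mul_sum, ← sum_mul]

theorem loc1_levels {k : ℕ} {n : Fin 4 → ℤ} {f : Fin 4 → ℤ → ℝ} {M : ℕ}
    (hM : ∀ j y, |f j y| ≤ 2 ^ M) :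
    loc1 k n f = ∑ m ∈ range (M + 1) ×ˢ range (M + 1) ×ˢ range (M + 1), loc1 k n (Fm f m) := by
  unfold loc1
  rw [← mul_sum, sum_comm]
  congr 1
  refine sum_congr rfl fun x _ => ?_
  rw [← mul_sum]
  congr 1
  have e : ∀ j y, f j y = ∑ m ∈ range (M + 1), part m (f j) y := by
    intro j y
    rw [part_sum]
    unfold cutT
    rw [if_pos (hM j y)]
  rw [Fin.prod_univ_four]
  have e2 : ∀ m : ℕ × ℕ × ℕ, ∏ j, Fm f m j (ell j (pt k n x)) = f 0 (ell 0 (pt k n x)) *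
      part m.1 (f 1) (ell 1 (pt k n x)) * part m.2.1 (f 2) (ell 2 (pt k n x)) *
      part m.2.2 (f 3) (ell 3 (pt k n x)) := by
    intro m
    rw [Fin.prod_univ_four]
    rfl
  simp only [e2]
  rw [prod3 (f 0 (ell 0 (pt k n x))) (fun a => part a (f 1) (ell 1 (pt k n x)))
    (fun a => part a (f 2) (ell 2 (pt k n x))) (fun a => part a (f 3) (ell 3 (pt k n x))),
    ← e, ← e, ← e]

theorem wN_levels {o : ℤ} {N : ℕ × ℤ} {f : Fin 4 → ℤ → ℝ} {M : ℕ} (hM : ∀ j y, |f j y| ≤ 2 ^ M) :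
    wN o f N = ∑ m ∈ range (M + 1) ×ˢ range (M + 1) ×ˢ range (M + 1), wN o (Fm f m) N := by
  unfold wN
  rw [loc1_levels hM, mul_sum]

/-- the number of scales -/
theorem count {s n K : ℕ} (hK : K ≤ s + n) {V : ℤ} {𝒩 : Finset (ℕ × ℤ)}
    (hmem : ∀ N ∈ 𝒩, s + 1 ≤ N.1 ∧ N.1 ≤ K ∧ N.2 / 2 ^ (K - N.1) = V) :
    ∑ N ∈ 𝒩, (2 : ℝ) ^ N.1 ≤ n * 2 ^ K := by
  classical
  have h1 : ∑ N ∈ 𝒩, (2 : ℝ) ^ N.1 ≤ ∑ N ∈ ((Icc (s + 1) K).biUnion fun k =>
      (Ico (2 ^ (K - k) * V) (2 ^ (K - k) * (V + 1))).image fun v => (k, v)), (2 : ℝ) ^ N.1 := by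
    refine sum_le_sum_of_subset_of_nonneg (fun N hN => ?_) fun _ _ _ => by positivity
    obtain ⟨h1, h2, h3⟩ := hmem N hN
    refine mem_biUnion.2 ⟨N.1, mem_Icc.2 ⟨h1, h2⟩, mem_image.2 ⟨N.2, mem_cell.2 h3, rfl⟩⟩
  refine h1.trans ?_
  rw [sum_biUnion]
  · have h2 : ∀ k ∈ Icc (s + 1) K, ∑ N ∈ (Ico (2 ^ (K - k) * V) (2 ^ (K - k) * (V + 1))).image
        (fun v => ((k, v) : ℕ × ℤ)), (2 : ℝ) ^ N.1 = 2 ^ K := by
      intro k hk
      rw [mem_Icc] at hk
      rw [sum_image (fun x _ y _ hxy => (Prod.mk.inj hxy).2)]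
      simp only
      rw [sum_const, card_cell, nsmul_eq_mul]
      push_cast
      rw [← pow_add]
      congr 1
      omega
    rw [sum_congr rfl h2, sum_const, Nat.card_Icc, nsmul_eq_mul]
    have : ((K + 1 - (s + 1) : ℕ) : ℝ) ≤ n := by
      have : K + 1 - (s + 1) ≤ n := by omega
      exact_mod_cast this
    exact mul_le_mul_of_nonneg_right this (by positivity)
  · intro k _ k' _ hkk'
    refine disjoint_left.2 fun N hN hN' => hkk' ?_
    obtain ⟨_, _, rfl⟩ := mem_image.1 hN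
    obtain ⟨_, _, h⟩ := mem_image.1 hN'
    exact (Prod.mk.inj h).1.symm

/-- the root estimate, scaled -/
theorem rootS_scale {q : ℝ} {n : ℕ} {P : ℝ} (H : RootS q n P) {s : ℕ}
    {f : Fin 4 → ℤ → ℝ} (hf : ∀ j, (Function.support (f j)).Finite) {o : ℤ} (ho : o = 1 ∨ o = -1)
    {K : ℕ} (hK : K ≤ s + n) {V : ℤ} {𝒩 : Finset (ℕ × ℤ)}
    (hmem : ∀ N ∈ 𝒩, s + 1 ≤ N.1 ∧ N.1 ≤ K ∧ N.2 / 2 ^ (K - N.1) = V)
    (hcl : ∀ N ∈ 𝒩, ∀ k', N.1 ≤ k' → k' ≤ K → (k', N.2 / 2 ^ (k' - N.1)) ∈ 𝒩)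
    {l : Fin 4 → ℝ} (hl : ∀ j, 0 < l j)
    (win : ∀ N ∈ 𝒩, ∀ j, ∑ y ∈ W N.1 N.2, |f j y| ^ q ≤ 2 ^ (N.1 + 5) * l j ^ q) :
    ∑ N ∈ 𝒩, |wN o f N| ≤ (∏ j, l j) * (P * 2 ^ K) := by
  have hL : 0 < ∏ j, l j := prod_pos fun j _ => hl j
  set g' : Fin 4 → ℤ → ℝ := fun j x => (l j)⁻¹ * f j x with hg'
  have h2 := H s g' (fun j => (hf j).subset fun x hx => by
      intro h0
      exact hx (by simp only [hg', h0, mul_zero])) o ho K hK V 𝒩 hmem hcl
    (fun N hN j => by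
      have h2 := win N hN j
      have hlq : 0 < l j ^ q := Real.rpow_pos_of_pos (hl j) q
      have e : ∀ y, |g' j y| ^ q = (l j ^ q)⁻¹ * |f j y| ^ q := by
        intro y
        simp only [hg']
        rw [abs_mul, abs_of_pos (inv_pos.2 (hl j)), Real.mul_rpow (inv_pos.2 (hl j)).le
          (abs_nonneg _), Real.inv_rpow (hl j).le]
      simp only [e]
      rw [← mul_sum, inv_mul_le_iff₀ hlq]
      linarith)
  have h3 : ∀ N, |wN o g' N| = (∏ j, l j)⁻¹ * |wN o f N| := by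
    intro N
    rw [hg', wN_smul, abs_mul, prod_inv_distrib, abs_of_pos (inv_pos.2 hL)]
  simp only [h3] at h2
  rwa [← mul_sum, inv_mul_le_iff₀ hL] at h2

end

end Vale.Agent.P141.H530.V
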