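import Vale.Agent.P141.H530.V.RootV

/-!
# P141, exponents `r < 1`: the root estimate for three exponents, a power of the number of scales
-/

namespace Vale.Agent.P141.H530.V

open Finset
open Vale.Agent.P141.PL.H571 (W mem_cell card_cell card_W)
open Vale.Agent.P141.PL.H620 (loc1 nn HH sg pts uu mo tr ell pt)
open Vale.Agent.P141.PL.H855 (wN Bel ediv_pow_add)

noncomputable section

theorem geom_le {x : ℝ} (h0 : 0 ≤ x) (h1 : x < 1) (M : ℕ) : ∑ m ∈ range M, x ^ m ≤ (1 - x)⁻¹ := by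
  rw [← tsum_geometric_of_lt_one h0 h1]
  exact (summable_geometric_of_lt_one h0 h1).sum_le_tsum _ fun _ _ => by positivity

theorem mean_alg {u1 u2 u3 v1 v2 v3 P K n T θ : ℝ} (a1 : 0 ≤ u1) (a2 : 0 ≤ u2) (a3 : 0 ≤ u3)
    (b1 : 0 ≤ v1) (b2 : 0 ≤ v2) (b3 : 0 ≤ v3) (hP : 0 ≤ P) (hK : 0 < K) (hn : 0 ≤ n) (hT : 0 ≤ T) :
    ((u1 * u2 * u3) * (P * K)) ^ (1 - θ) * (T * (v1 * v2 * v3) * (n * K)) ^ θ =
      (P ^ (1 - θ) * n ^ θ * T ^ θ * K) * (u1 ^ (1 - θ) * v1 ^ θ) * (u2 ^ (1 - θ) * v2 ^ θ) *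
        (u3 ^ (1 - θ) * v3 ^ θ) := by
  have e2 : K ^ (1 - θ) * K ^ θ = K := by
    rw [← Real.rpow_add hK, sub_add_cancel, Real.rpow_one]
  rw [Real.mul_rpow (by positivity) (by positivity), Real.mul_rpow (by positivity) (by positivity),
    Real.mul_rpow a1 a2, Real.mul_rpow hP hK.le,
    Real.mul_rpow (by positivity) (by positivity), Real.mul_rpow hT (by positivity),
    Real.mul_rpow (by positivity) b3, Real.mul_rpow b1 b2, Real.mul_rpow hn hK.le]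
  calc _ = (P ^ (1 - θ) * n ^ θ * T ^ θ * (K ^ (1 - θ) * K ^ θ)) * (u1 ^ (1 - θ) * v1 ^ θ) *
        (u2 ^ (1 - θ) * v2 ^ θ) * (u3 ^ (1 - θ) * v3 ^ θ) := by ring
    _ = _ := by rw [e2]

/-- the exponents of one level -/
theorem level_exp {q' q b θ : ℝ} (hq' : 0 < q') (hb : 0 < b) (m : ℕ) :
    ((2 ^ |q - q'| * 2 ^ ((m : ℝ) * (q' - q))) ^ (1 / q')) ^ (1 - θ) *
      ((2 ^ |q - 1 / b| * 2 ^ ((m : ℝ) * (1 / b - q))) ^ b) ^ θ =
    (2 : ℝ) ^ (|q - q'| * (1 / q' * (1 - θ)) + |q - 1 / b| * (b * θ)) *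
      ((2 : ℝ) ^ (1 - q * ((1 - θ) / q' + θ * b))) ^ m := by
  have h2 : (0 : ℝ) < 2 := by norm_num
  rw [← Real.rpow_add h2, ← Real.rpow_add h2, ← Real.rpow_mul h2.le, ← Real.rpow_mul h2.le,
    ← Real.rpow_mul h2.le, ← Real.rpow_mul h2.le, ← Real.rpow_add h2, ← Real.rpow_natCast,
    ← Real.rpow_mul h2.le, ← Real.rpow_add h2]
  congr 1
  field_simp
  ring

/-- **the root estimate for three exponents** -/
theorem rootV_of_rootS {q' : ℝ} (hq' : 0 < q') {q : Fin 4 → ℝ} {β : Fin 4 → ℝ}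
    (hβ0 : ∀ j, 0 < β j) (hβ1 : ∀ j, β j ≤ 1) (hβ : β 1 + β 2 + β 3 = 2) {θ : ℝ} (h0 : 0 ≤ θ)
    (h1 : θ ≤ 1) (he : ∀ j, j ≠ 0 → 1 < q j * ((1 - θ) / q' + θ * β j)) :
    ∃ C : ℝ, 0 < C ∧ ∀ (n : ℕ) (P : ℝ), 0 ≤ P → RootS q' n P →
      RootV q n (C * (P ^ (1 - θ) * (n : ℝ) ^ θ)) := by
  classical
  set x : Fin 4 → ℝ := fun j => (2 : ℝ) ^ (1 - q j * ((1 - θ) / q' + θ * β j)) with hx
  set A : Fin 4 → ℝ := fun j =>
    (2 : ℝ) ^ (|q j - q'| * (1 / q' * (1 - θ)) + |q j - 1 / β j| * (β j * θ)) with hA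
  have hx0 : ∀ j, 0 ≤ x j := fun j => by positivity
  have hx1 : ∀ j, j ≠ 0 → x j < 1 := fun j hj =>
    Real.rpow_lt_one_of_one_lt_of_neg (by norm_num) (by linarith [he j hj])
  have hA0 : ∀ j, 0 < A j := fun j => by positivity
  have hx1' : ∀ j, j ≠ 0 → 0 < (1 - x j)⁻¹ := fun j hj => inv_pos.2 (by linarith [hx1 j hj])
  have n1 : (1 : Fin 4) ≠ 0 := by decide
  have n2 : (2 : Fin 4) ≠ 0 := by decide
  have n3 : (3 : Fin 4) ≠ 0 := by decide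
  have c1 := hx1' 1 n1
  have c2 := hx1' 2 n2
  have c3 := hx1' 3 n3
  refine ⟨((2 : ℝ) ^ 10) ^ θ * ((A 1 * (1 - x 1)⁻¹) * (A 2 * (1 - x 2)⁻¹) * (A 3 * (1 - x 3)⁻¹)),
    by have := hA0 1; have := hA0 2; have := hA0 3; positivity, ?_⟩
  intro n P hP HR s f hf hf0 o ho K hK V 𝒩 hmem hcl win
  -- a bound for the functions
  obtain ⟨M, hM⟩ : ∃ M : ℕ, ∀ j y, |f j y| ≤ 2 ^ M := by
    have h2 : ∀ j, ∃ M : ℕ, ∀ y, |f j y| ≤ 2 ^ M := by
      intro j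
      obtain ⟨B, hB⟩ := ((hf j).image fun y => |f j y|).bddAbove
      obtain ⟨M, hM⟩ := pow_unbounded_of_one_lt (max B 0) (by norm_num : (1 : ℝ) < 2)
      refine ⟨M, fun y => ?_⟩
      by_cases hy : f j y = 0
      · rw [hy, abs_zero]; positivity
      · exact ((hB ⟨y, hy, rfl⟩).trans (le_max_left _ _)).trans hM.le
    choose M hM using h2
    refine ⟨∑ j, M j, fun j y => (hM j y).trans (pow_le_pow_right₀ (by norm_num) ?_)⟩
    exact single_le_sum (f := M) (fun _ _ => Nat.zero_le _) (mem_univ j)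
  set I : Finset (ℕ × ℕ × ℕ) := range (M + 1) ×ˢ range (M + 1) ×ˢ range (M + 1) with hI
  -- one triple of levels
  have hone : ∀ m : ℕ × ℕ × ℕ, ∑ N ∈ 𝒩, |wN o (Fm f m) N| ≤
      (P ^ (1 - θ) * (n : ℝ) ^ θ * ((2 : ℝ) ^ 10) ^ θ * 2 ^ K) * (A 1 * x 1 ^ m.1) *
        (A 2 * x 2 ^ m.2.1) * (A 3 * x 3 ^ m.2.2) := by
    intro m
    set μ : Fin 4 → ℕ := ![0, m.1, m.2.1, m.2.2] with hμ
    have hFj : ∀ j, j ≠ 0 → Fm f m j = part (μ j) (f j) := by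
      intro j hj
      fin_cases j
      · exact absurd rfl hj
      · rfl
      · rfl
      · rfl
    set E : Fin 4 → ℝ → ℝ := fun j a => 2 ^ |q j - a| * 2 ^ ((μ j : ℝ) * (a - q j)) with hE
    have hE0 : ∀ j a, 0 < E j a := fun j a => by positivity
    have hwin : ∀ N ∈ 𝒩, ∀ j, j ≠ 0 → ∀ a : ℝ, 0 < a →
        ∑ y ∈ W N.1 N.2, |Fm f m j y| ^ a ≤ 2 ^ (N.1 + 5) * E j a := by
      intro N hN j hj a ha
      rw [hFj j hj]
      exact part_win ha (μ j) (f j) (win N hN j hj)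
    set S := ∑ N ∈ 𝒩, |wN o (Fm f m) N| with hS
    have hS0 : 0 ≤ S := sum_nonneg fun _ _ => abs_nonneg _
    -- the first bound
    set l : Fin 4 → ℝ := fun j => if j = 0 then 1 else E j q' ^ (1 / q') with hl
    have hl0 : ∀ j, 0 < l j := by
      intro j
      simp only [hl]
      split_ifs
      · exact one_pos
      · exact Real.rpow_pos_of_pos (hE0 j q') _
    have hFs : ∀ j, (Function.support (Fm f m j)).Finite := by
      intro j
      by_cases hj : j = 0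
      · subst hj; exact hf 0
      · rw [hFj j hj]; exact part_supp _ (hf j)
    have X := rootS_scale HR hFs ho hK hmem hcl hl0 (fun N hN j => by
      by_cases hj : j = 0
      · subst hj
        have e1 : l 0 = 1 := by simp only [hl, if_pos]
        rw [e1, Real.one_rpow, mul_one]
        have h2 : ∀ y ∈ W N.1 N.2, |Fm f m 0 y| ^ q' ≤ 1 := fun y _ =>
          Real.rpow_le_one (abs_nonneg _) (hf0 y) hq'.le
        refine (sum_le_sum h2).trans (le_of_eq ?_)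
        rw [sum_const, card_W, nsmul_eq_mul, mul_one]
        push_cast
        rfl
      · refine (hwin N hN j hj q' hq').trans (le_of_eq ?_)
        simp only [hl, if_neg hj]
        rw [← Real.rpow_mul (hE0 j q').le, one_div_mul_cancel hq'.ne', Real.rpow_one])
    have hprod : ∏ j, l j = E 1 q' ^ (1 / q') * E 2 q' ^ (1 / q') * E 3 q' ^ (1 / q') := by
      rw [Fin.prod_univ_four]
      simp only [hl, if_pos, if_neg n1, if_neg n2, if_neg n3, one_mul]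
    rw [hprod] at X
    -- the second bound
    have Y : S ≤ (2 : ℝ) ^ 10 * (E 1 (1 / β 1) ^ β 1 * E 2 (1 / β 2) ^ β 2 * E 3 (1 / β 3) ^ β 3) *
        (n * 2 ^ K) := by
      have h2 : ∀ N ∈ 𝒩, |wN o (Fm f m) N| ≤ (2 : ℝ) ^ 10 * (E 1 (1 / β 1) ^ β 1 *
          E 2 (1 / β 2) ^ β 2 * E 3 (1 / β 3) ^ β 3) * 2 ^ N.1 := by
        intro N hN
        rw [abs_wN]
        have h3 := triv (k := N.1) (v := N.2) ho (f := Fm f m) hf0 (hβ0 1) (hβ0 2) (hβ0 3)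
          (hβ1 1) (hβ1 2) (hβ1 3) hβ (hE0 1 _) (hE0 2 _) (hE0 3 _)
          (hwin N hN 1 n1 _ (one_div_pos.2 (hβ0 1))) (hwin N hN 2 n2 _ (one_div_pos.2 (hβ0 2)))
          (hwin N hN 3 n3 _ (one_div_pos.2 (hβ0 3)))
        refine h3.trans (le_of_eq ?_)
        ring
      refine (sum_le_sum h2).trans ?_
      rw [← mul_sum]
      have k1 := hE0 1 (1 / β 1)
      have k2 := hE0 2 (1 / β 2)
      have k3 := hE0 3 (1 / β 3)
      exact mul_le_mul_of_nonneg_left (count hK hmem) (by positivity)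
    -- the mean
    have hmean : S ≤ ((E 1 q' ^ (1 / q') * E 2 q' ^ (1 / q') * E 3 q' ^ (1 / q')) *
        (P * 2 ^ K)) ^ (1 - θ) * ((2 : ℝ) ^ 10 * (E 1 (1 / β 1) ^ β 1 * E 2 (1 / β 2) ^ β 2 *
          E 3 (1 / β 3) ^ β 3) * (n * 2 ^ K)) ^ θ := by
      rcases hS0.eq_or_lt with h2 | h2
      · rw [← h2]
        have k1 := hE0 1 q'
        have k2 := hE0 2 q'
        have k3 := hE0 3 q'
        have k4 := hE0 1 (1 / β 1)
        have k5 := hE0 2 (1 / β 2)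
        have k6 := hE0 3 (1 / β 3)
        positivity
      · have e1 : S = S ^ (1 - θ) * S ^ θ := by
          rw [← Real.rpow_add h2, sub_add_cancel, Real.rpow_one]
        rw [e1]
        exact mul_le_mul (Real.rpow_le_rpow hS0 X (by linarith)) (Real.rpow_le_rpow hS0 Y h0)
          (Real.rpow_nonneg hS0 _) (Real.rpow_nonneg (hS0.trans X) _)
    refine hmean.trans (le_of_eq ?_)
    have k1 := hE0 1 q'
    have k2 := hE0 2 q'
    have k3 := hE0 3 q'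
    have k4 := hE0 1 (1 / β 1)
    have k5 := hE0 2 (1 / β 2)
    have k6 := hE0 3 (1 / β 3)
    have g1 := level_exp (q' := q') (q := q 1) (b := β 1) (θ := θ) hq' (hβ0 1) (μ 1)
    have g2 := level_exp (q' := q') (q := q 2) (b := β 2) (θ := θ) hq' (hβ0 2) (μ 2)
    have g3 := level_exp (q' := q') (q := q 3) (b := β 3) (θ := θ) hq' (hβ0 3) (μ 3)
    have g1' : (E 1 q' ^ (1 / q')) ^ (1 - θ) * (E 1 (1 / β 1) ^ β 1) ^ θ = A 1 * x 1 ^ m.1 := g1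
    have g2' : (E 2 q' ^ (1 / q')) ^ (1 - θ) * (E 2 (1 / β 2) ^ β 2) ^ θ = A 2 * x 2 ^ m.2.1 := g2
    have g3' : (E 3 q' ^ (1 / q')) ^ (1 - θ) * (E 3 (1 / β 3) ^ β 3) ^ θ = A 3 * x 3 ^ m.2.2 := g3
    rw [← g1', ← g2', ← g3']
    exact mean_alg (Real.rpow_nonneg k1.le _) (Real.rpow_nonneg k2.le _) (Real.rpow_nonneg k3.le _)
      (Real.rpow_nonneg k4.le _) (Real.rpow_nonneg k5.le _) (Real.rpow_nonneg k6.le _) hP
      (by positivity) (Nat.cast_nonneg n) (by positivity)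
  -- the sum over the levels
  have hsum : ∑ N ∈ 𝒩, |wN o f N| ≤ ∑ m ∈ I, ∑ N ∈ 𝒩, |wN o (Fm f m) N| := by
    rw [sum_comm]
    refine sum_le_sum fun N _ => ?_
    rw [wN_levels hM]
    exact abs_sum_le_sum_abs _ _
  refine hsum.trans ((sum_le_sum fun m _ => hone m).trans ?_)
  rw [prod3 (P ^ (1 - θ) * (n : ℝ) ^ θ * ((2 : ℝ) ^ 10) ^ θ * 2 ^ K) (fun a => A 1 * x 1 ^ a)
    (fun a => A 2 * x 2 ^ a) (fun a => A 3 * x 3 ^ a), ← mul_sum, ← mul_sum, ← mul_sum]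
  have s1 := geom_le (hx0 1) (hx1 1 n1) (M + 1)
  have s2 := geom_le (hx0 2) (hx1 2 n2) (M + 1)
  have s3 := geom_le (hx0 3) (hx1 3 n3) (M + 1)
  have a1 := hA0 1
  have a2 := hA0 2
  have a3 := hA0 3
  have hn : (0 : ℝ) ≤ n := Nat.cast_nonneg n
  have t1 : 0 ≤ ∑ m ∈ range (M + 1), x 1 ^ m := sum_nonneg fun _ _ => pow_nonneg (hx0 1) _
  have t2 : 0 ≤ ∑ m ∈ range (M + 1), x 2 ^ m := sum_nonneg fun _ _ => pow_nonneg (hx0 2) _
  have t3 : 0 ≤ ∑ m ∈ range (M + 1), x 3 ^ m := sum_nonneg fun _ _ => pow_nonneg (hx0 3) _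
  calc _ ≤ (P ^ (1 - θ) * (n : ℝ) ^ θ * ((2 : ℝ) ^ 10) ^ θ * 2 ^ K) * (A 1 * (1 - x 1)⁻¹) *
        (A 2 * (1 - x 2)⁻¹) * (A 3 * (1 - x 3)⁻¹) := by gcongr
    _ = _ := by ring

end

end Vale.Agent.P141.H530.V
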