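import Vale.Agent.P141.H530.V.RootW
import Vale.Agent.P141.H530.V.LevelV
import Vale.Agent.P141.H530.Single

/-!
# P141, exponents `r < 1`: single scale averages, three exponents
-/

namespace Vale.Agent.P141.H530.V

open MeasureTheory Filter Topology
open scoped ENNReal

noncomputable section

theorem pow_le_powV {q c b t : ℝ} (hc : 0 < c) (hq : c ≤ q) (hb : 0 < b) (ht : 0 ≤ t) :
    t ^ c ≤ b ^ c + b ^ (c - q) * t ^ q := by
  rcases le_or_gt t b with h | h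
  · have h1 : t ^ c ≤ b ^ c := Real.rpow_le_rpow ht h hc.le
    have h2 : 0 ≤ b ^ (c - q) * t ^ q := mul_nonneg (Real.rpow_nonneg hb.le _) (Real.rpow_nonneg ht _)
    linarith
  · have ht0 : 0 < t := hb.trans h
    have h1 : t ^ c = t ^ (c - q) * t ^ q := by
      rw [← Real.rpow_add ht0, sub_add_cancel]
    have h2 : t ^ (c - q) ≤ b ^ (c - q) := Real.rpow_le_rpow_of_nonpos hb h.le (by linarith)
    have h3 := mul_le_mul_of_nonneg_right h2 (Real.rpow_nonneg ht q)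
    have h4 : 0 ≤ b ^ c := by positivity
    rw [h1]
    linarith

/-- the integral of the power `c` over `J` -/
theorem powJ {q c : ℝ} (hc : 0 < c) (hq : c ≤ q) {g G : ℝ → ℝ} (hG : Integrable G)
    (hG0 : ∀ x, 0 ≤ G x) (hGg : ∀ x, |g x| ^ q ≤ G x) {ρ : ℝ} (hρ : 0 < ρ) {a x' : ℝ}
    (h1 : a ≤ x') (h2 : x' ≤ a + ρ) {b : ℝ} (hb : 0 < b)
    (hbM : MM G x' ≤ ENNReal.ofReal (b ^ q)) :
    ∫⁻ x in Set.Icc (a - 3 * ρ) (a + 4 * ρ), ‖g x‖ₑ ^ c ≤ ENNReal.ofReal (49 * ρ * b ^ c) := by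
  have hp : ∀ x, ‖g x‖ₑ ^ c ≤ ENNReal.ofReal (b ^ c) +
      ENNReal.ofReal (b ^ (c - q)) * ENNReal.ofReal (G x) := by
    intro x
    rw [← ENNReal.ofReal_mul (Real.rpow_nonneg hb.le _),
      ← ENNReal.ofReal_add (by positivity) (mul_nonneg (Real.rpow_nonneg hb.le _) (hG0 x)),
      ← ofReal_norm, ENNReal.ofReal_rpow_of_nonneg (norm_nonneg _) hc.le,
      Real.norm_eq_abs]
    refine ENNReal.ofReal_le_ofReal ?_
    have h3 := pow_le_powV hc hq hb (abs_nonneg (g x))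
    have h4 := mul_le_mul_of_nonneg_left (hGg x) (Real.rpow_nonneg hb.le (c - q))
    linarith
  have hmv : mv G ρ x' ≤ b ^ q := by
    have h3 : ENNReal.ofReal (mv G ρ x') ≤ ENNReal.ofReal (b ^ q) :=
      (mv_le_MM G hρ (by simp; positivity)).trans hbM
    exact (ENNReal.ofReal_le_ofReal_iff (Real.rpow_nonneg hb.le q)).1 h3
  have hGJ : ∫⁻ x in Set.Icc (a - 3 * ρ) (a + 4 * ρ), ENNReal.ofReal (G x) ≤
      ENNReal.ofReal (32 * ρ * b ^ q) := by
    have h3 : ∫⁻ x in Set.Icc (a - 3 * ρ) (a + 4 * ρ), ENNReal.ofReal (G x) ≤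
        ∫⁻ x in Metric.ball x' (16 * ρ), ENNReal.ofReal (G x) := by
      refine lintegral_mono_set fun x hx => ?_
      rw [Metric.mem_ball, Real.dist_eq, abs_lt]
      constructor <;> linarith [hx.1, hx.2]
    refine h3.trans ?_
    rw [← mv_eq_lintegral hG hG0 hρ]
    exact ENNReal.ofReal_le_ofReal (mul_le_mul_of_nonneg_left hmv (by positivity))
  refine (lintegral_mono hp).trans ?_
  rw [lintegral_add_left measurable_const, lintegral_const_mul' _ _ ENNReal.ofReal_ne_top,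
    setLIntegral_const, Real.volume_Icc]
  refine (add_le_add le_rfl (mul_le_mul_right hGJ _)).trans ?_
  have hbc : 0 ≤ b ^ c := Real.rpow_nonneg hb.le _
  rw [← ENNReal.ofReal_mul (by positivity), ← ENNReal.ofReal_mul (Real.rpow_nonneg hb.le _),
    ← ENNReal.ofReal_add (mul_nonneg hbc (by linarith)) (mul_nonneg (Real.rpow_nonneg hb.le _)
      (mul_nonneg (by positivity) (Real.rpow_nonneg hb.le _)))]
  refine ENNReal.ofReal_le_ofReal ?_
  have h5 : b ^ (c - q) * (32 * ρ * b ^ q) = 32 * ρ * b ^ c := by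
    have : b ^ (c - q) * b ^ q = b ^ c := by
      rw [← Real.rpow_add hb, sub_add_cancel]
    calc b ^ (c - q) * (32 * ρ * b ^ q) = 32 * ρ * (b ^ (c - q) * b ^ q) := by ring
      _ = _ := by rw [this]
  rw [h5]
  have h6 : 0 ≤ ρ * b ^ c := by positivity
  nlinarith

/-- one point, with values in `[0, ∞)` -/
theorem pt3E {x y z : ℝ≥0∞} {b1 b2 b3 : ℝ} (hx : x ≠ ∞) (hy : y ≠ ∞) (hz : z ≠ ∞) (h1 : 0 < b1)
    (h2 : 0 < b2) (h3 : 0 < b3) (k1 : b1 ≤ 1) (k2 : b2 ≤ 1) (k3 : b3 ≤ 1) (hs : b1 + b2 + b3 = 2) :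
    x * y * z ≤ (x ^ (1 / b1) * y ^ (1 / b2)) ^ (1 - b3) * (y ^ (1 / b2) * z ^ (1 / b3)) ^ (1 - b1) *
      (x ^ (1 / b1) * z ^ (1 / b3)) ^ (1 - b2) := by
  have h := pt3 (ENNReal.toReal_nonneg (a := x)) (ENNReal.toReal_nonneg (a := y))
    (ENNReal.toReal_nonneg (a := z)) h1 h2 h3 hs
  have h' := ENNReal.ofReal_le_ofReal h
  have n1 := ENNReal.toReal_nonneg (a := x)
  have n2 := ENNReal.toReal_nonneg (a := y)
  have n3 := ENNReal.toReal_nonneg (a := z)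
  have w1 : 0 ≤ 1 - b1 := by linarith
  have w2 : 0 ≤ 1 - b2 := by linarith
  have w3 : 0 ≤ 1 - b3 := by linarith
  rw [ENNReal.ofReal_mul (by positivity), ENNReal.ofReal_mul n1, ENNReal.ofReal_toReal hx,
    ENNReal.ofReal_toReal hy, ENNReal.ofReal_toReal hz, ENNReal.ofReal_mul (by positivity),
    ENNReal.ofReal_mul (by positivity), ← ENNReal.ofReal_rpow_of_nonneg (by positivity) w3,
    ← ENNReal.ofReal_rpow_of_nonneg (by positivity) w1,
    ← ENNReal.ofReal_rpow_of_nonneg (by positivity) w2, ENNReal.ofReal_mul (by positivity),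
    ENNReal.ofReal_mul (by positivity), ENNReal.ofReal_mul (by positivity),
    ← ENNReal.ofReal_rpow_of_nonneg n1 (by positivity), ← ENNReal.ofReal_rpow_of_nonneg n2
      (by positivity), ← ENNReal.ofReal_rpow_of_nonneg n3 (by positivity), ENNReal.ofReal_toReal hx,
    ENNReal.ofReal_toReal hy, ENNReal.ofReal_toReal hz] at h'
  exact h'

theorem comp_le {G : ℝ → ℝ≥0∞} (hG : Measurable G) {c : ℝ} (hc : 1 ≤ c) (s : ℝ) :
    ∫⁻ u, G (s - c * u) ≤ ∫⁻ u, G u := by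
  have hc0 : c ≠ 0 := by linarith
  have e1 : ∫⁻ u, G u = ∫⁻ u, G (s - u) := (lintegral_sub_left_eq_self G s).symm
  have hm : Measurable fun u => G (s - u) := hG.comp (measurable_const.sub measurable_id)
  have e2 : ∫⁻ u, G (s - u) = ENNReal.ofReal |c| * ∫⁻ u, G (s - c * u) := by
    conv_lhs => rw [← Real.smul_map_volume_mul_left hc0]
    rw [lintegral_smul_measure, lintegral_map hm (measurable_const_mul c)]
    rfl
  rw [e1, e2]
  calc ∫⁻ u, G (s - c * u) = 1 * ∫⁻ u, G (s - c * u) := (one_mul _).symm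
    _ ≤ _ := by
      refine mul_le_mul_left ?_ _
      rw [abs_of_pos (by linarith)]
      exact ENNReal.one_le_ofReal.2 hc

/-- a pair of functions in transversal variables -/
theorem pairI {F G : ℝ → ℝ≥0∞} (hF : Measurable F) (hG : Measurable G) {i c : ℝ} (hc : 1 ≤ c)
    {I U : Set ℝ} :
    ∫⁻ p : ℝ × ℝ, F (p.1 - i * p.2) * G (p.1 - (i + c) * p.2)
      ∂((volume.restrict I).prod (volume.restrict U)) ≤ (∫⁻ x, F x) * ∫⁻ x, G x := by
  have m1 : Measurable fun p : ℝ × ℝ => F (p.1 - i * p.2) := hF.comp (by fun_prop)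
  have m2 : Measurable fun p : ℝ × ℝ => G (p.1 - (i + c) * p.2) := hG.comp (by fun_prop)
  have m : Measurable fun p : ℝ × ℝ => F (p.1 - i * p.2) * G (p.1 - (i + c) * p.2) := m1.mul m2
  rw [lintegral_prod _ m.aemeasurable]
  calc ∫⁻ x in I, ∫⁻ u in U, F (x - i * u) * G (x - (i + c) * u)
      ≤ ∫⁻ x, ∫⁻ u, F (x - i * u) * G (x - (i + c) * u) :=
        (setLIntegral_le_lintegral _ _).trans (lintegral_mono fun x => setLIntegral_le_lintegral _ _)
    _ = ∫⁻ u, ∫⁻ x, F (x - i * u) * G (x - (i + c) * u) := by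
        rw [lintegral_lintegral_swap]
        exact m.aemeasurable
    _ = ∫⁻ u, ∫⁻ s, F s * G (s - c * u) := by
        refine lintegral_congr fun u => ?_
        have := lintegral_sub_right_eq_self (fun s => F s * G (s - c * u)) (i * u) (μ := volume)
        rw [← this]
        refine lintegral_congr fun x => ?_
        congr 2
        ring
    _ = ∫⁻ s, ∫⁻ u, F s * G (s - c * u) := by
        rw [lintegral_lintegral_swap]
        have k1 : Measurable fun p : ℝ × ℝ => F p.2 := hF.comp (by fun_prop)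
        have k2 : Measurable fun p : ℝ × ℝ => G (p.2 - c * p.1) := hG.comp (by fun_prop)
        exact (k1.mul k2).aemeasurable
    _ ≤ ∫⁻ s, F s * ∫⁻ u, G u := by
        refine lintegral_mono fun s => ?_
        have k3 : Measurable fun u : ℝ => G (s - c * u) := hG.comp (by fun_prop)
        rw [lintegral_const_mul _ k3]
        exact mul_le_mul_right (comp_le hG hc s) _
    _ = _ := by rw [lintegral_mul_const _ hF]

/-- the trilinear form of a single scale -/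
theorem trilinV {e : Fin 4 → ℝ → ℝ≥0∞} (he : ∀ j, Measurable (e j)) (het : ∀ j x, e j x ≠ ∞)
    {b1 b2 b3 : ℝ} (h1 : 0 < b1)
    (h2 : 0 < b2) (h3 : 0 < b3) (k1 : b1 ≤ 1) (k2 : b2 ≤ 1) (k3 : b3 ≤ 1) (hs : b1 + b2 + b3 = 2)
    {ρ : ℝ} (hρ : 0 < ρ) (a : ℝ) {I1 I2 I3 : ℝ≥0∞}
    (j1 : ∫⁻ x in Set.Icc (a - 3 * ρ) (a + 4 * ρ), e 1 x ^ (1 / b1) ≤ I1)
    (j2 : ∫⁻ x in Set.Icc (a - 3 * ρ) (a + 4 * ρ), e 2 x ^ (1 / b2) ≤ I2)
    (j3 : ∫⁻ x in Set.Icc (a - 3 * ρ) (a + 4 * ρ), e 3 x ^ (1 / b3) ≤ I3) :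
    ∫⁻ x in Set.Ioc a (a + ρ), ∫⁻ u in Set.Ioc (-ρ) ρ, e 1 (x - u) * e 2 (x - 2 * u) * e 3 (x - 3 * u)
    ≤ (I1 * I2) ^ (1 - b3) * (I2 * I3) ^ (1 - b1) * (I1 * I3) ^ (1 - b2) := by
  set J := Set.Icc (a - 3 * ρ) (a + 4 * ρ) with hJ
  have hJm : MeasurableSet J := measurableSet_Icc
  set E : Fin 4 → ℝ → ℝ≥0∞ := fun j => J.indicator (e j) with hE
  have hEm : ∀ j, Measurable (E j) := fun j => (he j).indicator hJm
  have hEt : ∀ j x, E j x ≠ ∞ := by
    intro j x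
    by_cases hx : x ∈ J
    · simp only [hE, Set.indicator_of_mem hx]; exact het j x
    · simp only [hE, Set.indicator_of_notMem hx]; exact ENNReal.zero_ne_top
  have hEi : ∀ j (c : ℝ), 0 < c → ∫⁻ x, E j x ^ c = ∫⁻ x in J, e j x ^ c := by
    intro j c hc
    rw [← lintegral_indicator hJm]
    refine lintegral_congr fun x => ?_
    by_cases hx : x ∈ J
    · simp only [hE, Set.indicator_of_mem hx]
    · simp only [hE, Set.indicator_of_notMem hx]
      exact ENNReal.zero_rpow_of_pos hc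
  have h1' : ∫⁻ x in Set.Ioc a (a + ρ), ∫⁻ u in Set.Ioc (-ρ) ρ,
      e 1 (x - u) * e 2 (x - 2 * u) * e 3 (x - 3 * u) =
      ∫⁻ x in Set.Ioc a (a + ρ), ∫⁻ u in Set.Ioc (-ρ) ρ,
        E 1 (x - 1 * u) * E 2 (x - 2 * u) * E 3 (x - 3 * u) := by
    refine setLIntegral_congr_fun measurableSet_Ioc fun x hx => ?_
    refine setLIntegral_congr_fun measurableSet_Ioc fun u hu => ?_
    have k1 : x - 1 * u ∈ J := ⟨by linarith [hx.1, hu.2], by linarith [hx.2, hu.1]⟩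
    have k2 : x - 2 * u ∈ J := ⟨by linarith [hx.1, hu.2], by linarith [hx.2, hu.1]⟩
    have k3 : x - 3 * u ∈ J := ⟨by linarith [hx.1, hu.2], by linarith [hx.2, hu.1]⟩
    show e 1 (x - u) * e 2 (x - 2 * u) * e 3 (x - 3 * u) = J.indicator (e 1) (x - 1 * u) *
      J.indicator (e 2) (x - 2 * u) * J.indicator (e 3) (x - 3 * u)
    rw [Set.indicator_of_mem k1, Set.indicator_of_mem k2, Set.indicator_of_mem k3, one_mul]
  rw [h1']
  set μ := (volume.restrict (Set.Ioc a (a + ρ))).prod (volume.restrict (Set.Ioc (-ρ) ρ)) with hμ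
  have mj : ∀ (j : Fin 4) (i : ℝ), Measurable fun p : ℝ × ℝ => E j (p.1 - i * p.2) := fun j i =>
    (hEm j).comp (by fun_prop)
  set F : Fin 4 → ℝ → ℝ → ℝ≥0∞ := fun j c x => E j x ^ c with hF
  have hFm : ∀ j c, Measurable (F j c) := fun j c => (hEm j).pow_const c
  set A12 : ℝ × ℝ → ℝ≥0∞ := fun p => F 1 (1 / b1) (p.1 - 1 * p.2) * F 2 (1 / b2) (p.1 - (1 + 1) * p.2)
    with hA12
  set A23 : ℝ × ℝ → ℝ≥0∞ := fun p => F 2 (1 / b2) (p.1 - 2 * p.2) * F 3 (1 / b3) (p.1 - (2 + 1) * p.2)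
    with hA23
  set A13 : ℝ × ℝ → ℝ≥0∞ := fun p => F 1 (1 / b1) (p.1 - 1 * p.2) * F 3 (1 / b3) (p.1 - (1 + 2) * p.2)
    with hA13
  have mA : ∀ (j l : Fin 4) (c d i i' : ℝ), Measurable fun p : ℝ × ℝ =>
      F j c (p.1 - i * p.2) * F l d (p.1 - i' * p.2) := fun j l c d i i' =>
    ((hFm j c).comp (by fun_prop)).mul ((hFm l d).comp (by fun_prop))
  have m12 : Measurable A12 := mA 1 2 _ _ _ _
  have m23 : Measurable A23 := mA 2 3 _ _ _ _
  have m13 : Measurable A13 := mA 1 3 _ _ _ _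
  have i12 : ∫⁻ p, A12 p ∂μ ≤ I1 * I2 := by
    refine (pairI (hFm 1 _) (hFm 2 _) le_rfl).trans (mul_le_mul' ?_ ?_)
    · simp only [hF]; rw [hEi 1 _ (one_div_pos.2 h1)]; exact j1
    · simp only [hF]; rw [hEi 2 _ (one_div_pos.2 h2)]; exact j2
  have i23 : ∫⁻ p, A23 p ∂μ ≤ I2 * I3 := by
    refine (pairI (hFm 2 _) (hFm 3 _) le_rfl).trans (mul_le_mul' ?_ ?_)
    · simp only [hF]; rw [hEi 2 _ (one_div_pos.2 h2)]; exact j2
    · simp only [hF]; rw [hEi 3 _ (one_div_pos.2 h3)]; exact j3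
  have i13 : ∫⁻ p, A13 p ∂μ ≤ I1 * I3 := by
    refine (pairI (hFm 1 _) (hFm 3 _) (by norm_num)).trans (mul_le_mul' ?_ ?_)
    · simp only [hF]; rw [hEi 1 _ (one_div_pos.2 h1)]; exact j1
    · simp only [hF]; rw [hEi 3 _ (one_div_pos.2 h3)]; exact j3
  have hm123 : Measurable fun p : ℝ × ℝ => E 1 (p.1 - 1 * p.2) * E 2 (p.1 - 2 * p.2) *
      E 3 (p.1 - 3 * p.2) := ((mj 1 1).mul (mj 2 2)).mul (mj 3 3)
  have hprod : ∫⁻ x in Set.Ioc a (a + ρ), ∫⁻ u in Set.Ioc (-ρ) ρ,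
        E 1 (x - 1 * u) * E 2 (x - 2 * u) * E 3 (x - 3 * u) =
      ∫⁻ p : ℝ × ℝ, E 1 (p.1 - 1 * p.2) * E 2 (p.1 - 2 * p.2) * E 3 (p.1 - 3 * p.2) ∂μ := by
    rw [hμ, lintegral_prod _ hm123.aemeasurable]
  rw [hprod]
  have hpt : ∀ p : ℝ × ℝ, E 1 (p.1 - 1 * p.2) * E 2 (p.1 - 2 * p.2) * E 3 (p.1 - 3 * p.2) ≤
      A12 p ^ (1 - b3) * A23 p ^ (1 - b1) * A13 p ^ (1 - b2) := by
    intro p
    have := pt3E (hEt 1 (p.1 - 1 * p.2)) (hEt 2 (p.1 - 2 * p.2)) (hEt 3 (p.1 - 3 * p.2)) h1 h2 h3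
      k1 k2 k3 hs
    simp only [hA12, hA23, hA13, hF]
    have e1 : (1 : ℝ) + 1 = 2 := by norm_num
    have e2 : (2 : ℝ) + 1 = 3 := by norm_num
    have e3 : (1 : ℝ) + 2 = 3 := by norm_num
    rw [e1, e2, e3]
    exact this
  have hH := ENNReal.lintegral_prod_norm_pow_le (μ := μ) (Finset.univ : Finset (Fin 3))
    (f := ![A12, A23, A13]) (p := ![1 - b3, 1 - b1, 1 - b2])
    (fun i _ => by
      fin_cases i
      · exact m12.aemeasurable
      · exact m23.aemeasurable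
      · exact m13.aemeasurable)
    (by
      rw [Fin.sum_univ_three]
      show 1 - b3 + (1 - b1) + (1 - b2) = 1
      linarith)
    (fun i _ => by
      fin_cases i
      · show 0 ≤ 1 - b3; linarith
      · show 0 ≤ 1 - b1; linarith
      · show 0 ≤ 1 - b2; linarith)
  simp only [Fin.prod_univ_three, Matrix.cons_val_zero, Matrix.cons_val_one, Matrix.cons_val] at hH
  refine (lintegral_mono hpt).trans (hH.trans ?_)
  exact mul_le_mul' (mul_le_mul' (ENNReal.rpow_le_rpow i12 (by linarith))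
    (ENNReal.rpow_le_rpow i23 (by linarith))) (ENNReal.rpow_le_rpow i13 (by linarith))

/-- **single scale averages** -/
theorem singleV {q : Fin 4 → ℝ} {β : Fin 4 → ℝ}
    (hβ0 : ∀ j, 0 < β j) (hβ1 : ∀ j, β j ≤ 1) (hβ : β 1 + β 2 + β 3 = 2)
    (hq : ∀ j, 1 / β j ≤ q j) {f G : Fin 4 → ℝ → ℝ} {H : ℝ} (hd : DomV q f G H) (hH : 0 ≤ H)
    (hf : ∀ j, Continuous (f j)) {ρ : ℝ} (hρ : 0 < ρ) {r : ℝ} (hr0 : 0 < r) (hr1 : r ≤ 1) :
    ∫⁻ x, ENNReal.ofReal (II (wx f x) ρ / ρ) ^ r ≤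
      2401 * ∫⁻ x, MM (G 1) x ^ (r / q 1) * MM (G 2) x ^ (r / q 2) * MM (G 3) x ^ (r / q 3) := by
  have hq0 : ∀ j, 0 < q j := fun j => (one_div_pos.2 (hβ0 j)).trans_le (hq j)
  have hwc : ∀ x, Continuous (wx f x) := fun x => by
    unfold wx
    have h1 := hf 1
    have h2 := hf 2
    have h3 := hf 3
    fun_prop
  set φ : ℝ → ℝ≥0∞ := fun x => ENNReal.ofReal (II (wx f x) ρ / ρ) with hφ
  have hφm : Measurable φ := II_meas hf hρ
  set N : ℝ → ℝ≥0∞ := fun x =>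
    MM (G 1) x ^ (r / q 1) * MM (G 2) x ^ (r / q 2) * MM (G 3) x ^ (r / q 3) with hN
  have hNm : Measurable N := ((((MM_meas (hd.gi 1)).pow_const _).mul
    ((MM_meas (hd.gi 2)).pow_const _)).mul ((MM_meas (hd.gi 3)).pow_const _))
  have hρ0 : ENNReal.ofReal ρ ≠ 0 := by simpa using hρ
  -- one interval, one point
  have key : ∀ a x' : ℝ, x' ∈ Set.Ioc a (a + ρ) →
      ∫⁻ x in Set.Ioc a (a + ρ), φ x ^ r ≤ 2401 * ENNReal.ofReal ρ * N x' := by
    intro a x' hx'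
    obtain ⟨bb, hbb⟩ := hd.gb
    have hT : ∀ j, ∃ b : ℝ, 0 < b ∧ MM (G j) x' = ENNReal.ofReal (b ^ q j) := by
      intro j
      have h1 : MM (G j) x' ≠ ∞ := ((MM_le (hd.gi j) (hbb j) x').trans_lt ENNReal.ofReal_lt_top).ne
      have h2 : 0 < MM (G j) x' := (hd.gp j 1 x' one_pos).trans_le
        (Bm_le_MM (G j) one_pos le_rfl (by linarith))
      have h3 : 0 < (MM (G j) x').toReal := ENNReal.toReal_pos h2.ne' h1
      refine ⟨(MM (G j) x').toReal ^ (1 / q j), Real.rpow_pos_of_pos h3 _, ?_⟩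
      rw [← Real.rpow_mul h3.le, one_div_mul_cancel (hq0 j).ne', Real.rpow_one,
        ENNReal.ofReal_toReal h1]
    choose b hb hbT using hT
    have hJ : ∀ j, ∫⁻ x in Set.Icc (a - 3 * ρ) (a + 4 * ρ), ‖f j x‖ₑ ^ (1 / β j) ≤
        ENNReal.ofReal (49 * ρ * b j ^ (1 / β j)) := fun j =>
      powJ (one_div_pos.2 (hβ0 j)) (hq j) (hd.gi j) (hd.g0 j)
        (fun x => hd.dom j x x (by simpa using hH)) hρ hx'.1.le hx'.2
        (hb j) (hbT j).le
    have hb1 := hb 1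
    have hb2 := hb 2
    have hb3 := hb 3
    have h1 := trilinV (e := fun j x => ‖f j x‖ₑ) (fun j => (hd.fm j).enorm)
      (fun j x => enorm_ne_top) (hβ0 1) (hβ0 2) (hβ0 3) (hβ1 1) (hβ1 2) (hβ1 3) hβ hρ a (hJ 1) (hJ 2)
      (hJ 3)
    have hprod : (ENNReal.ofReal (49 * ρ * b 1 ^ (1 / β 1)) *
        ENNReal.ofReal (49 * ρ * b 2 ^ (1 / β 2))) ^ (1 - β 3) *
        (ENNReal.ofReal (49 * ρ * b 2 ^ (1 / β 2)) *
          ENNReal.ofReal (49 * ρ * b 3 ^ (1 / β 3))) ^ (1 - β 1) *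
        (ENNReal.ofReal (49 * ρ * b 1 ^ (1 / β 1)) *
          ENNReal.ofReal (49 * ρ * b 3 ^ (1 / β 3))) ^ (1 - β 2) =
        ENNReal.ofReal (2401 * ρ ^ 2 * (b 1 * b 2 * b 3)) := by
      have w1 : 0 ≤ 1 - β 1 := by linarith [hβ1 1]
      have w2 : 0 ≤ 1 - β 2 := by linarith [hβ1 2]
      have w3 : 0 ≤ 1 - β 3 := by linarith [hβ1 3]
      rw [← ENNReal.ofReal_mul (by positivity), ← ENNReal.ofReal_mul (by positivity),
        ← ENNReal.ofReal_mul (by positivity), ENNReal.ofReal_rpow_of_nonneg (by positivity) w3,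
        ENNReal.ofReal_rpow_of_nonneg (by positivity) w1,
        ENNReal.ofReal_rpow_of_nonneg (by positivity) w2, ← ENNReal.ofReal_mul (by positivity),
        ← ENNReal.ofReal_mul (by positivity)]
      congr 1
      have hQ : (0 : ℝ) < (49 * ρ) ^ 2 := by positivity
      have r1 : 49 * ρ * b 1 ^ (1 / β 1) * (49 * ρ * b 2 ^ (1 / β 2)) =
          (49 * ρ) ^ 2 * (b 1 ^ (1 / β 1) * b 2 ^ (1 / β 2)) := by ring
      have r2 : 49 * ρ * b 2 ^ (1 / β 2) * (49 * ρ * b 3 ^ (1 / β 3)) =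
          (49 * ρ) ^ 2 * (b 2 ^ (1 / β 2) * b 3 ^ (1 / β 3)) := by ring
      have r3 : 49 * ρ * b 1 ^ (1 / β 1) * (49 * ρ * b 3 ^ (1 / β 3)) =
          (49 * ρ) ^ 2 * (b 1 ^ (1 / β 1) * b 3 ^ (1 / β 3)) := by ring
      have r4 : 2401 * ρ ^ 2 * (b 1 * b 2 * b 3) = (49 * ρ) ^ 2 * (b 1 * b 2 * b 3) := by ring
      rw [r1, r2, r3, r4]
      generalize (49 * ρ) ^ 2 = Q at hQ
      rw [Real.mul_rpow hQ.le (by positivity), Real.mul_rpow hQ.le (by positivity),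
        Real.mul_rpow hQ.le (by positivity), Real.mul_rpow (by positivity) (by positivity),
        Real.mul_rpow (by positivity) (by positivity), Real.mul_rpow (by positivity) (by positivity),
        ← Real.rpow_mul hb1.le, ← Real.rpow_mul hb1.le, ← Real.rpow_mul hb2.le,
        ← Real.rpow_mul hb2.le, ← Real.rpow_mul hb3.le, ← Real.rpow_mul hb3.le]
      have z1 := (hβ0 1).ne'
      have z2 := (hβ0 2).ne'
      have z3 := (hβ0 3).ne'
      have f0 : Q ^ (1 - β 3) * Q ^ (1 - β 1) * Q ^ (1 - β 2) = Q := by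
        rw [← Real.rpow_add hQ, ← Real.rpow_add hQ,
          show 1 - β 3 + (1 - β 1) + (1 - β 2) = 1 by linarith, Real.rpow_one]
      have f1 : b 1 ^ (1 / β 1 * (1 - β 3)) * b 1 ^ (1 / β 1 * (1 - β 2)) = b 1 := by
        rw [← Real.rpow_add hb1, ← mul_add, show 1 - β 3 + (1 - β 2) = β 1 by linarith,
          one_div_mul_cancel z1, Real.rpow_one]
      have f2 : b 2 ^ (1 / β 2 * (1 - β 3)) * b 2 ^ (1 / β 2 * (1 - β 1)) = b 2 := by
        rw [← Real.rpow_add hb2, ← mul_add, show 1 - β 3 + (1 - β 1) = β 2 by linarith,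
          one_div_mul_cancel z2, Real.rpow_one]
      have f3 : b 3 ^ (1 / β 3 * (1 - β 1)) * b 3 ^ (1 / β 3 * (1 - β 2)) = b 3 := by
        rw [← Real.rpow_add hb3, ← mul_add, show 1 - β 1 + (1 - β 2) = β 3 by linarith,
          one_div_mul_cancel z3, Real.rpow_one]
      calc _ = (Q ^ (1 - β 3) * Q ^ (1 - β 1) * Q ^ (1 - β 2)) *
          ((b 1 ^ (1 / β 1 * (1 - β 3)) * b 1 ^ (1 / β 1 * (1 - β 2))) *
          (b 2 ^ (1 / β 2 * (1 - β 3)) * b 2 ^ (1 / β 2 * (1 - β 1))) *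
          (b 3 ^ (1 / β 3 * (1 - β 1)) * b 3 ^ (1 / β 3 * (1 - β 2)))) := by ring
        _ = _ := by rw [f0, f1, f2, f3]
    rw [hprod] at h1
    have h2 : ∫⁻ x in Set.Ioc a (a + ρ), φ x ≤ ENNReal.ofReal (2401 * ρ * (b 1 * b 2 * b 3)) := by
      have e1 : ∫⁻ x in Set.Ioc a (a + ρ), φ x = (ENNReal.ofReal ρ)⁻¹ *
          ∫⁻ x in Set.Ioc a (a + ρ), ∫⁻ u in Set.Ioc (-ρ) ρ,
            ‖f 1 (x - u)‖ₑ * ‖f 2 (x - 2 * u)‖ₑ * ‖f 3 (x - 3 * u)‖ₑ := by
        simp only [hφ, fun x => ofReal_II (hwc x) hρ]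
        rw [lintegral_const_mul' _ _ (by simpa using hρ0)]
      rw [e1]
      refine (mul_le_mul_right h1 _).trans ?_
      rw [← ENNReal.ofReal_inv_of_pos hρ, ← ENNReal.ofReal_mul (by positivity)]
      refine ENNReal.ofReal_le_ofReal (le_of_eq ?_)
      field_simp
    have hB : 0 < b 1 * b 2 * b 3 := by positivity
    refine (hold_set hr0.le hr1 hφm _).trans ?_
    rw [Real.volume_Ioc, add_sub_cancel_left]
    refine (mul_le_mul_left (ENNReal.rpow_le_rpow h2 hr0.le) _).trans ?_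
    have hNx : N x' = ENNReal.ofReal ((b 1 * b 2 * b 3) ^ r) := by
      simp only [hN, hbT]
      have e : ∀ j, ENNReal.ofReal (b j ^ q j) ^ (r / q j) = ENNReal.ofReal (b j ^ r) := by
        intro j
        have hqj := hq0 j
        rw [ENNReal.ofReal_rpow_of_nonneg (Real.rpow_nonneg (hb j).le _) (by positivity),
          ← Real.rpow_mul (hb j).le]
        congr 2
        field_simp
      rw [e, e, e, ← ENNReal.ofReal_mul (by positivity), ← ENNReal.ofReal_mul (by positivity),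
        Real.mul_rpow (by positivity) hb3.le, Real.mul_rpow hb1.le hb2.le]
    rw [hNx, ENNReal.ofReal_rpow_of_nonneg (by positivity) hr0.le,
      ENNReal.ofReal_rpow_of_nonneg hρ.le (by linarith), ← ENNReal.ofReal_mul (by positivity),
      show (2401 : ℝ≥0∞) = ENNReal.ofReal 2401 by norm_num, ← ENNReal.ofReal_mul (by norm_num),
      ← ENNReal.ofReal_mul (by positivity)]
    refine ENNReal.ofReal_le_ofReal ?_
    rw [Real.mul_rpow (by positivity) hB.le, Real.mul_rpow (by norm_num) hρ.le]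
    have e2 : ρ ^ r * ρ ^ (1 - r) = ρ := by
      rw [← Real.rpow_add hρ, add_sub_cancel, Real.rpow_one]
    have e3 : (2401 : ℝ) ^ r ≤ 2401 := by
      calc (2401 : ℝ) ^ r ≤ 2401 ^ (1 : ℝ) := Real.rpow_le_rpow_of_exponent_le (by norm_num) hr1
        _ = 2401 := Real.rpow_one _
    calc (2401 : ℝ) ^ r * ρ ^ r * (b 1 * b 2 * b 3) ^ r * ρ ^ (1 - r) =
        2401 ^ r * (ρ ^ r * ρ ^ (1 - r)) * (b 1 * b 2 * b 3) ^ r := by ring
      _ = 2401 ^ r * ρ * (b 1 * b 2 * b 3) ^ r := by rw [e2]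
      _ ≤ 2401 * ρ * (b 1 * b 2 * b 3) ^ r := by
        have : 0 ≤ (b 1 * b 2 * b 3) ^ r := by positivity
        exact mul_le_mul_of_nonneg_right (mul_le_mul_of_nonneg_right e3 hρ.le) this
  -- one interval
  have key2 : ∀ a : ℝ, ∫⁻ x in Set.Ioc a (a + ρ), φ x ^ r ≤
      2401 * ∫⁻ x in Set.Ioc a (a + ρ), N x := by
    intro a
    have h1 : ENNReal.ofReal ρ * ∫⁻ x in Set.Ioc a (a + ρ), φ x ^ r ≤
        ENNReal.ofReal ρ * (2401 * ∫⁻ x in Set.Ioc a (a + ρ), N x) := by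
      calc ENNReal.ofReal ρ * ∫⁻ x in Set.Ioc a (a + ρ), φ x ^ r
          = ∫⁻ _ in Set.Ioc a (a + ρ), ∫⁻ x in Set.Ioc a (a + ρ), φ x ^ r := by
            rw [setLIntegral_const, Real.volume_Ioc, add_sub_cancel_left, mul_comm]
        _ ≤ ∫⁻ x' in Set.Ioc a (a + ρ), 2401 * ENNReal.ofReal ρ * N x' :=
            setLIntegral_mono' measurableSet_Ioc fun x' hx' => key a x' hx'
        _ = _ := by
            rw [lintegral_const_mul _ hNm]
            ring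
    exact (ENNReal.mul_le_mul_iff_right hρ0 ENNReal.ofReal_ne_top).1 h1
  have dec : ∀ ψ : ℝ → ℝ≥0∞, ∫⁻ x, ψ x = ∑' n : ℤ, ∫⁻ x in Set.Ioc (n • ρ) ((n + 1) • ρ), ψ x := by
    intro ψ
    rw [← setLIntegral_univ ψ, ← iUnion_Ioc_zsmul hρ, lintegral_iUnion
      (fun n => measurableSet_Ioc) (Set.pairwise_disjoint_Ioc_zsmul ρ)]
  rw [dec, dec N, ← ENNReal.tsum_mul_left]
  refine ENNReal.tsum_le_tsum fun n => ?_
  have e : ((n + 1) • ρ : ℝ) = n • ρ + ρ := by rw [add_smul, one_smul]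
  rw [e]
  exact key2 _

end

end Vale.Agent.P141.H530.V
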