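import Vale.Agent.P141.H530.V.TreeV
import Vale.Agent.P141.H530.Core

/-!
# P141, exponents `r < 1`: the elementary bound of one node, three exponents with sum `2`
-/

namespace Vale.Agent.P141.H530.V

open Finset
open Vale.Agent.P141.PL.H571 (W mem_cell card_cell ell_mem_W sum_pts_le)
open Vale.Agent.P141.PL.H620 (loc1 nn HH sg pts uu mo tr ell pt ell_nn)
open Vale.Agent.P141.PL.H855 (wN Bel ediv_pow_add)

noncomputable section

/-- the product of three powers against the average -/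
theorem am3 {a b c D1 D2 D3 w1 w2 w3 : ℝ} (ha : 0 ≤ a) (hb : 0 ≤ b) (hc : 0 ≤ c) (h1 : 0 < D1)
    (h2 : 0 < D2) (h3 : 0 < D3) (k1 : 0 ≤ w1) (k2 : 0 ≤ w2) (k3 : 0 ≤ w3) (hw : w1 + w2 + w3 = 1) :
    a ^ w1 * b ^ w2 * c ^ w3 ≤ D1 ^ w1 * D2 ^ w2 * D3 ^ w3 *
      (w1 * (a / D1) + w2 * (b / D2) + w3 * (c / D3)) := by
  have h := Real.geom_mean_le_arith_mean3_weighted k1 k2 k3 (div_nonneg ha h1.le)
    (div_nonneg hb h2.le) (div_nonneg hc h3.le) hw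
  rw [Real.div_rpow ha h1.le, Real.div_rpow hb h2.le, Real.div_rpow hc h3.le] at h
  have e : a ^ w1 * b ^ w2 * c ^ w3 = D1 ^ w1 * D2 ^ w2 * D3 ^ w3 *
      (a ^ w1 / D1 ^ w1 * (b ^ w2 / D2 ^ w2) * (c ^ w3 / D3 ^ w3)) := by
    have e1 := (Real.rpow_pos_of_pos h1 w1).ne'
    have e2 := (Real.rpow_pos_of_pos h2 w2).ne'
    have e3 := (Real.rpow_pos_of_pos h3 w3).ne'
    field_simp
  rw [e]
  exact mul_le_mul_of_nonneg_left h (by positivity)

/-- one point -/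
theorem pt3 {x y z b1 b2 b3 : ℝ} (hx : 0 ≤ x) (hy : 0 ≤ y) (hz : 0 ≤ z) (h1 : 0 < b1) (h2 : 0 < b2)
    (h3 : 0 < b3) (hs : b1 + b2 + b3 = 2) :
    x * y * z ≤ (x ^ (1 / b1) * y ^ (1 / b2)) ^ (1 - b3) * (y ^ (1 / b2) * z ^ (1 / b3)) ^ (1 - b1) *
      (x ^ (1 / b1) * z ^ (1 / b3)) ^ (1 - b2) := by
  rcases hx.eq_or_lt with rfl | hx0
  · rw [zero_mul, zero_mul]; positivity
  rcases hy.eq_or_lt with rfl | hy0
  · rw [mul_zero, zero_mul]; positivity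
  rcases hz.eq_or_lt with rfl | hz0
  · rw [mul_zero]; positivity
  refine le_of_eq ?_
  rw [Real.mul_rpow (by positivity) (by positivity), Real.mul_rpow (by positivity) (by positivity),
    Real.mul_rpow (by positivity) (by positivity), ← Real.rpow_mul hx, ← Real.rpow_mul hy,
    ← Real.rpow_mul hy, ← Real.rpow_mul hz, ← Real.rpow_mul hx, ← Real.rpow_mul hz]
  have ex : x ^ (1 / b1 * (1 - b3)) * x ^ (1 / b1 * (1 - b2)) = x := by
    rw [← Real.rpow_add hx0, ← mul_add, show 1 - b3 + (1 - b2) = b1 by linarith,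
      one_div_mul_cancel h1.ne', Real.rpow_one]
  have ey : y ^ (1 / b2 * (1 - b3)) * y ^ (1 / b2 * (1 - b1)) = y := by
    rw [← Real.rpow_add hy0, ← mul_add, show 1 - b3 + (1 - b1) = b2 by linarith,
      one_div_mul_cancel h2.ne', Real.rpow_one]
  have ez : z ^ (1 / b3 * (1 - b1)) * z ^ (1 / b3 * (1 - b2)) = z := by
    rw [← Real.rpow_add hz0, ← mul_add, show 1 - b1 + (1 - b2) = b3 by linarith,
      one_div_mul_cancel h3.ne', Real.rpow_one]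
  calc x * y * z = (x ^ (1 / b1 * (1 - b3)) * x ^ (1 / b1 * (1 - b2))) *
      (y ^ (1 / b2 * (1 - b3)) * y ^ (1 / b2 * (1 - b1))) *
      (z ^ (1 / b3 * (1 - b1)) * z ^ (1 / b3 * (1 - b2))) := by rw [ex, ey, ez]
    _ = _ := by ring

/-- **the elementary bound of one node** -/
theorem triv {k : ℕ} {o v : ℤ} (ho : o = 1 ∨ o = -1) {f : Fin 4 → ℤ → ℝ} (hf0 : ∀ y, |f 0 y| ≤ 1)
    {b1 b2 b3 E1 E2 E3 : ℝ} (h1 : 0 < b1) (h2 : 0 < b2) (h3 : 0 < b3) (k1 : b1 ≤ 1) (k2 : b2 ≤ 1)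
    (k3 : b3 ≤ 1) (hs : b1 + b2 + b3 = 2) (e1 : 0 < E1) (e2 : 0 < E2) (e3 : 0 < E3)
    (w1 : ∑ y ∈ W k v, |f 1 y| ^ (1 / b1) ≤ 2 ^ (k + 5) * E1)
    (w2 : ∑ y ∈ W k v, |f 2 y| ^ (1 / b2) ≤ 2 ^ (k + 5) * E2)
    (w3 : ∑ y ∈ W k v, |f 3 y| ^ (1 / b3) ≤ 2 ^ (k + 5) * E3) :
    ((4 : ℝ) ^ k)⁻¹ * |loc1 k (nn o v 0 0) f| ≤ 2 ^ 10 * 2 ^ k * (E1 ^ b1 * E2 ^ b2 * E3 ^ b3) := by
  classical
  set L : Fin 4 → (Fin 4 → ℕ) → ℤ := fun j x => ell j (pt k (nn o v 0 0) x) with hL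
  have hsg : ∀ x : Fin 4 → ℕ, |∏ i, sg k (x i)| = 1 := by
    intro x
    rw [abs_prod]
    refine prod_eq_one fun i _ => ?_
    unfold sg
    split_ifs <;> simp
  set S : ℝ := 2 ^ (k + 5) with hS
  have hS0 : 0 < S := by positivity
  set D3 : ℝ := 4 ^ k * ((S * E1) * (S * E2)) with hD3
  set D1 : ℝ := 4 ^ k * ((S * E2) * (S * E3)) with hD1
  set D2 : ℝ := 4 ^ k * ((S * E1) * (S * E3)) with hD2
  have d1 : 0 < D1 := by positivity
  have d2 : 0 < D2 := by positivity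
  have d3 : 0 < D3 := by positivity
  -- the pairs
  have p12 : ∑ x ∈ pts k, |f 1 (L 1 x)| ^ (1 / b1) * |f 2 (L 2 x)| ^ (1 / b2) ≤ D3 := by
    refine (sum_pts_le k (W k v) (W k v) (L 1) (L 2) (fun x hx => ell_mem_W ho hx 1)
      (fun x hx => ell_mem_W ho hx 2) ?_ (g := fun y => |f 1 y| ^ (1 / b1))
      (h := fun y => |f 2 y| ^ (1 / b2)) (fun _ => by positivity) (fun _ => by positivity)).trans ?_
    · intro x y e2 e3 ea eb
      simp only [hL, ell_nn, mo, uu, Fin.sum_univ_four] at ea eb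
      simp at ea eb
      funext i
      fin_cases i <;> simp <;> omega
    · refine mul_le_mul_of_nonneg_left (mul_le_mul w1 w2 (sum_nonneg fun _ _ => by positivity)
        (by positivity)) (by positivity)
  have p23 : ∑ x ∈ pts k, |f 2 (L 2 x)| ^ (1 / b2) * |f 3 (L 3 x)| ^ (1 / b3) ≤ D1 := by
    refine (sum_pts_le k (W k v) (W k v) (L 2) (L 3) (fun x hx => ell_mem_W ho hx 2)
      (fun x hx => ell_mem_W ho hx 3) ?_ (g := fun y => |f 2 y| ^ (1 / b2))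
      (h := fun y => |f 3 y| ^ (1 / b3)) (fun _ => by positivity) (fun _ => by positivity)).trans ?_
    · intro x y e2 e3 ea eb
      simp only [hL, ell_nn, mo, uu, Fin.sum_univ_four] at ea eb
      simp at ea eb
      funext i
      fin_cases i <;> simp <;> omega
    · refine mul_le_mul_of_nonneg_left (mul_le_mul w2 w3 (sum_nonneg fun _ _ => by positivity)
        (by positivity)) (by positivity)
  have p13 : ∑ x ∈ pts k, |f 1 (L 1 x)| ^ (1 / b1) * |f 3 (L 3 x)| ^ (1 / b3) ≤ D2 := by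
    refine (sum_pts_le k (W k v) (W k v) (L 1) (L 3) (fun x hx => ell_mem_W ho hx 1)
      (fun x hx => ell_mem_W ho hx 3) ?_ (g := fun y => |f 1 y| ^ (1 / b1))
      (h := fun y => |f 3 y| ^ (1 / b3)) (fun _ => by positivity) (fun _ => by positivity)).trans ?_
    · intro x y e2 e3 ea eb
      simp only [hL, ell_nn, mo, uu, Fin.sum_univ_four] at ea eb
      simp at ea eb
      funext i
      fin_cases i <;> simp <;> omega
    · refine mul_le_mul_of_nonneg_left (mul_le_mul w1 w3 (sum_nonneg fun _ _ => by positivity)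
        (by positivity)) (by positivity)
  have hDp : D3 ^ (1 - b3) * D1 ^ (1 - b1) * D2 ^ (1 - b2) =
      4 ^ k * S ^ 2 * (E1 ^ b1 * E2 ^ b2 * E3 ^ b3) := by
    have hq : (0 : ℝ) < 4 ^ k * S ^ 2 := by positivity
    have r1 : D1 = (4 ^ k * S ^ 2) * (E2 * E3) := by rw [hD1]; ring
    have r2 : D2 = (4 ^ k * S ^ 2) * (E1 * E3) := by rw [hD2]; ring
    have r3 : D3 = (4 ^ k * S ^ 2) * (E1 * E2) := by rw [hD3]; ring
    rw [r1, r2, r3]
    generalize (4 : ℝ) ^ k * S ^ 2 = Q at hq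
    rw [Real.mul_rpow hq.le (by positivity), Real.mul_rpow hq.le (by positivity),
      Real.mul_rpow hq.le (by positivity), Real.mul_rpow e1.le e2.le, Real.mul_rpow e2.le e3.le,
      Real.mul_rpow e1.le e3.le]
    have f0 : Q ^ (1 - b3) * Q ^ (1 - b1) * Q ^ (1 - b2) = Q := by
      rw [← Real.rpow_add hq, ← Real.rpow_add hq, show 1 - b3 + (1 - b1) + (1 - b2) = 1 by linarith,
        Real.rpow_one]
    have f1 : E1 ^ (1 - b3) * E1 ^ (1 - b2) = E1 ^ b1 := by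
      rw [← Real.rpow_add e1, show 1 - b3 + (1 - b2) = b1 by linarith]
    have f2 : E2 ^ (1 - b3) * E2 ^ (1 - b1) = E2 ^ b2 := by
      rw [← Real.rpow_add e2, show 1 - b3 + (1 - b1) = b2 by linarith]
    have f3 : E3 ^ (1 - b1) * E3 ^ (1 - b2) = E3 ^ b3 := by
      rw [← Real.rpow_add e3, show 1 - b1 + (1 - b2) = b3 by linarith]
    calc _ = (Q ^ (1 - b3) * Q ^ (1 - b1) * Q ^ (1 - b2)) * ((E1 ^ (1 - b3) * E1 ^ (1 - b2)) *
        (E2 ^ (1 - b3) * E2 ^ (1 - b1)) * (E3 ^ (1 - b1) * E3 ^ (1 - b2))) := by ring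
      _ = _ := by rw [f0, f1, f2, f3]
  have hmain : ∑ x ∈ pts k, |f 1 (L 1 x)| * |f 2 (L 2 x)| * |f 3 (L 3 x)| ≤
      4 ^ k * S ^ 2 * (E1 ^ b1 * E2 ^ b2 * E3 ^ b3) := by
    rw [← hDp]
    have hpt : ∀ x ∈ pts k, |f 1 (L 1 x)| * |f 2 (L 2 x)| * |f 3 (L 3 x)| ≤
        D3 ^ (1 - b3) * D1 ^ (1 - b1) * D2 ^ (1 - b2) *
        ((1 - b3) * ((|f 1 (L 1 x)| ^ (1 / b1) * |f 2 (L 2 x)| ^ (1 / b2)) / D3) +
         (1 - b1) * ((|f 2 (L 2 x)| ^ (1 / b2) * |f 3 (L 3 x)| ^ (1 / b3)) / D1) +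
         (1 - b2) * ((|f 1 (L 1 x)| ^ (1 / b1) * |f 3 (L 3 x)| ^ (1 / b3)) / D2)) := fun x _ =>
      (pt3 (abs_nonneg _) (abs_nonneg _) (abs_nonneg _) h1 h2 h3 hs).trans
        (am3 (by positivity) (by positivity) (by positivity) d3 d1 d2 (by linarith) (by linarith)
          (by linarith) (by linarith))
    refine (sum_le_sum hpt).trans ?_
    rw [← mul_sum]
    refine mul_le_of_le_one_right (by positivity) ?_
    rw [sum_add_distrib, sum_add_distrib, ← mul_sum, ← mul_sum, ← mul_sum, ← sum_div, ← sum_div,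
      ← sum_div]
    have q1 := (div_le_one d3).2 p12
    have q2 := (div_le_one d1).2 p23
    have q3 := (div_le_one d2).2 p13
    nlinarith [mul_le_mul_of_nonneg_left q1 (by linarith : 0 ≤ 1 - b3),
      mul_le_mul_of_nonneg_left q2 (by linarith : 0 ≤ 1 - b1),
      mul_le_mul_of_nonneg_left q3 (by linarith : 0 ≤ 1 - b2)]
  have hl : |loc1 k (nn o v 0 0) f| ≤ ((2 : ℝ) ^ k)⁻¹ * ∑ x ∈ pts k,
      |f 1 (L 1 x)| * |f 2 (L 2 x)| * |f 3 (L 3 x)| := by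
    rw [loc1, abs_mul, abs_of_pos (by positivity : (0 : ℝ) < ((2 : ℝ) ^ k)⁻¹)]
    refine mul_le_mul_of_nonneg_left ?_ (by positivity)
    refine (abs_sum_le_sum_abs _ _).trans (sum_le_sum fun x _ => ?_)
    rw [abs_mul, hsg, one_mul, abs_prod, Fin.prod_univ_four]
    have h0 := hf0 (L 0 x)
    calc |f 0 (L 0 x)| * |f 1 (L 1 x)| * |f 2 (L 2 x)| * |f 3 (L 3 x)|
        = |f 0 (L 0 x)| * (|f 1 (L 1 x)| * |f 2 (L 2 x)| * |f 3 (L 3 x)|) := by ring
      _ ≤ 1 * (|f 1 (L 1 x)| * |f 2 (L 2 x)| * |f 3 (L 3 x)|) :=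
          mul_le_mul_of_nonneg_right h0 (by positivity)
      _ = _ := one_mul _
  have hfin := mul_le_mul_of_nonneg_left (hl.trans (mul_le_mul_of_nonneg_left hmain
    (by positivity))) (by positivity : (0 : ℝ) ≤ ((4 : ℝ) ^ k)⁻¹)
  refine hfin.trans (le_of_eq ?_)
  have e5 : S ^ 2 = 2 ^ 10 * (2 ^ k * 2 ^ k) := by
    rw [hS]
    ring
  rw [e5]
  field_simp

end

end Vale.Agent.P141.H530.V
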